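import Vale.Agent.P104.Discrete.Weak

/-!
P096, reduction: a locally finite group of unitaries near a von Neumann algebra is carried into
it by a unitary near the identity.
-/

open Filter Topology
open Vale.Agent.P104.Discrete
open scoped InnerProductSpace

namespace Vale.Agent.P096.Full.Reduce

universe u

variable {H : Type u} [NormedAddCommGroup H] [InnerProductSpace ℂ H] [CompleteSpace H]

/-- An increasing sequence of finite groups of unitaries. -/
structure Groups (H : Type u) [NormedAddCommGroup H] [InnerProductSpace ℂ H] [CompleteSpace H] where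
  /-- The `n`-th group. -/
  G : ℕ → Finset (H →L[ℂ] H)
  one_mem : ∀ n, (1 : H →L[ℂ] H) ∈ G n
  mul_mem : ∀ n, ∀ g ∈ G n, ∀ h ∈ G n, g * h ∈ G n
  star_mem : ∀ n, ∀ g ∈ G n, star g ∈ G n
  mem_unitary : ∀ n, ∀ g ∈ G n, g ∈ unitary (H →L[ℂ] H)
  mono : ∀ m n, m ≤ n → G m ⊆ G n

namespace Groups

variable (Γ : Groups H)

/-- The union of the groups. -/
def carrier : Set (H →L[ℂ] H) := {g | ∃ n, g ∈ Γ.G n}

variable {Γ}

lemma eventually_mem {g : H →L[ℂ] H} (hg : g ∈ Γ.carrier) : ∀ᶠ m in atTop, g ∈ Γ.G m := by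
  obtain ⟨n, hn⟩ := hg
  exact (eventually_ge_atTop n).mono fun m hm => Γ.mono n m hm hn

lemma one_carrier : (1 : H →L[ℂ] H) ∈ Γ.carrier := ⟨0, Γ.one_mem 0⟩

lemma mul_carrier {g h : H →L[ℂ] H} (hg : g ∈ Γ.carrier) (hh : h ∈ Γ.carrier) :
    g * h ∈ Γ.carrier := by
  obtain ⟨m, hm, hm'⟩ := ((eventually_mem hg).and (eventually_mem hh)).exists
  exact ⟨m, Γ.mul_mem m g hm h hm'⟩

lemma star_carrier {g : H →L[ℂ] H} (hg : g ∈ Γ.carrier) : star g ∈ Γ.carrier := by
  obtain ⟨n, hn⟩ := hg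
  exact ⟨n, Γ.star_mem n g hn⟩

lemma unitary_carrier {g : H →L[ℂ] H} (hg : g ∈ Γ.carrier) : g ∈ unitary (H →L[ℂ] H) := by
  obtain ⟨n, hn⟩ := hg
  exact Γ.mem_unitary n g hn

end Groups

lemma norm_le_one {u : H →L[ℂ] H} (hu : u ∈ unitary (H →L[ℂ] H)) : ‖u‖ ≤ 1 := by
  rcases subsingleton_or_nontrivial (H →L[ℂ] H) with hs | hs
  · simp [Subsingleton.elim u 0]
  · exact (CStarRing.norm_of_mem_unitary hu).le

/-- The average over the `m`-th group. -/
noncomputable def avg (Γ : Groups H) (m : ℕ) (f : (H →L[ℂ] H) → (H →L[ℂ] H)) : H →L[ℂ] H :=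
  ((Γ.G m).card : ℂ)⁻¹ • ∑ h ∈ Γ.G m, f h

variable {Γ : Groups H}

lemma card_ne (m : ℕ) : ((Γ.G m).card : ℂ) ≠ 0 := by
  exact_mod_cast Finset.card_ne_zero_of_mem (Γ.one_mem m)

lemma avg_const (m : ℕ) (c : H →L[ℂ] H) : avg Γ m (fun _ => c) = c := by
  rw [avg, Finset.sum_const, ← Nat.cast_smul_eq_nsmul ℂ, smul_smul, inv_mul_cancel₀ (card_ne m),
    one_smul]

lemma avg_congr {m : ℕ} {f f' : (H →L[ℂ] H) → (H →L[ℂ] H)} (h : ∀ x ∈ Γ.G m, f x = f' x) :
    avg Γ m f = avg Γ m f' := by rw [avg, avg, Finset.sum_congr rfl h]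

lemma norm_avg_le {m : ℕ} {f : (H →L[ℂ] H) → (H →L[ℂ] H)} {c : ℝ}
    (h : ∀ x ∈ Γ.G m, ‖f x‖ ≤ c) : ‖avg Γ m f‖ ≤ c := by
  rw [avg, norm_smul, norm_inv, Complex.norm_natCast]
  have hc : (0 : ℝ) < (Γ.G m).card := by
    exact_mod_cast Finset.card_pos.2 ⟨1, Γ.one_mem m⟩
  rw [inv_mul_le_iff₀ hc]
  refine (norm_sum_le _ _).trans ((Finset.sum_le_sum h).trans_eq ?_)
  rw [Finset.sum_const, nsmul_eq_mul]

lemma avg_shift {m : ℕ} {k : H →L[ℂ] H} (hk : k ∈ Γ.G m) (f : (H →L[ℂ] H) → (H →L[ℂ] H)) :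
    avg Γ m (fun h => f (k * h)) = avg Γ m f := by
  have hu := Unitary.mem_iff.1 (Γ.mem_unitary m k hk)
  rw [avg, avg]
  congr 1
  refine Finset.sum_nbij' (fun h => k * h) (fun h => star k * h) ?_ ?_ ?_ ?_ ?_
  · exact fun h hh => Γ.mul_mem m k hk h hh
  · exact fun h hh => Γ.mul_mem m _ (Γ.star_mem m k hk) h hh
  · exact fun h _ => by simp only [← mul_assoc, hu.1, one_mul]
  · exact fun h _ => by simp only [← mul_assoc, hu.2, one_mul]
  · exact fun h _ => rfl

/-- The ultrafilter of the means. -/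
noncomputable def uf : Ultrafilter ℕ := Ultrafilter.of atTop

lemma eventually_uf {p : ℕ → Prop} (h : ∀ᶠ m in atTop, p m) : ∀ᶠ m in (uf : Filter ℕ), p m :=
  h.filter_mono (Ultrafilter.of_le _)

/-- `L` is a mean of `f`. -/
def IsMean (Γ : Groups H) (f : (H →L[ℂ] H) → (H →L[ℂ] H)) (L : H →L[ℂ] H) : Prop :=
  TendsWeak (uf : Filter ℕ) (fun m => avg Γ m f) L

lemma exists_mean {f : (H →L[ℂ] H) → (H →L[ℂ] H)} {c : ℝ}
    (h : ∀ x ∈ Γ.carrier, ‖f x‖ ≤ c) : ∃ L, IsMean Γ f L :=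
  exists_tendsWeak uf _ fun m => norm_avg_le fun x hx => h x ⟨m, hx⟩

namespace IsMean

variable {f f' : (H →L[ℂ] H) → (H →L[ℂ] H)} {L L' : H →L[ℂ] H}

lemma norm_le (h : IsMean Γ f L) {c : ℝ} (hc : 0 ≤ c) (hf : ∀ x ∈ Γ.carrier, ‖f x‖ ≤ c) :
    ‖L‖ ≤ c :=
  TendsWeak.norm_le h hc (Eventually.of_forall fun m => norm_avg_le fun x hx => hf x ⟨m, hx⟩)

lemma unique (h : IsMean Γ f L) (h' : IsMean Γ f L') : L = L' := TendsWeak.unique h h'

lemma congr (h : IsMean Γ f L) (e : ∀ x ∈ Γ.carrier, f x = f' x) : IsMean Γ f' L :=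
  TendsWeak.congr' h (Eventually.of_forall fun m => avg_congr fun x hx => e x ⟨m, hx⟩)

lemma const (c : H →L[ℂ] H) : IsMean Γ (fun _ => c) c :=
  TendsWeak.congr' (TendsWeak.const c) (Eventually.of_forall fun m => (avg_const m c).symm)

lemma add (h : IsMean Γ f L) (h' : IsMean Γ f' L') : IsMean Γ (fun x => f x + f' x) (L + L') := by
  intro ξ η
  have := (h ξ η).add (h' ξ η)
  simpa [avg, Finset.sum_add_distrib, smul_add, inner_add_right] using this

lemma sub (h : IsMean Γ f L) (h' : IsMean Γ f' L') : IsMean Γ (fun x => f x - f' x) (L - L') := by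
  intro ξ η
  have := (h ξ η).sub (h' ξ η)
  simpa [avg, Finset.sum_sub_distrib, smul_sub, inner_sub_right] using this

lemma mul_left (h : IsMean Γ f L) (a : H →L[ℂ] H) : IsMean Γ (fun x => a * f x) (a * L) :=
  TendsWeak.congr' (TendsWeak.mulLeft h a)
    (Eventually.of_forall fun m => by simp [avg, Finset.mul_sum])

lemma mul_right (h : IsMean Γ f L) (a : H →L[ℂ] H) : IsMean Γ (fun x => f x * a) (L * a) :=
  TendsWeak.congr' (TendsWeak.mulRight h a)
    (Eventually.of_forall fun m => by simp [avg, Finset.sum_mul])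

lemma star_mean (h : IsMean Γ f L) : IsMean Γ (fun x => star (f x)) (star L) := by
  intro ξ η
  have := (Complex.continuous_conj.tendsto _).comp (h η ξ)
  have e : ∀ A : H →L[ℂ] H, starRingEnd ℂ ⟪η, A ξ⟫_ℂ = ⟪ξ, star A η⟫_ℂ := fun A => by
    rw [inner_conj_symm, ContinuousLinearMap.star_eq_adjoint,
      ContinuousLinearMap.adjoint_inner_right]
  simp only [Function.comp_def, e] at this
  simpa [avg, star_smul, star_sum] using this

lemma shift (h : IsMean Γ f L) {k : H →L[ℂ] H} (hk : k ∈ Γ.carrier) :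
    IsMean Γ (fun x => f (k * x)) L :=
  TendsWeak.congr' h ((eventually_uf (Groups.eventually_mem hk)).mono fun _ hm =>
    (avg_shift hm f).symm)

lemma mem (N : VonNeumannAlgebra H) (h : IsMean Γ f L) (hf : ∀ x ∈ Γ.carrier, f x ∈ N) :
    L ∈ N :=
  mem_of_tendsWeak N h fun m =>
    SMulMemClass.smul_mem (s := N.toStarSubalgebra) _
      (sum_mem fun x hx => show f x ∈ N.toStarSubalgebra from hf x ⟨m, hx⟩)

lemma commute (h : IsMean Γ f L) {z : H →L[ℂ] H} (hf : ∀ x ∈ Γ.carrier, z * f x = f x * z) :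
    z * L = L * z :=
  ((h.mul_left z).congr hf).unique (h.mul_right z)

end IsMean

lemma isUnit_near {a w : H →L[ℂ] H} (hw : w ∈ unitary (H →L[ℂ] H)) (h : ‖a - w‖ < 1) :
    IsUnit a := by
  have hu := Unitary.mem_iff.1 hw
  have h1 : ‖1 - star w * a‖ < 1 := by
    rw [show (1 : H →L[ℂ] H) - star w * a = star w * (w - a) by rw [mul_sub, hu.1]]
    refine lt_of_le_of_lt ((norm_mul_le _ _).trans (mul_le_of_le_one_left (norm_nonneg _) ?_)) ?_
    · exact norm_le_one (Unitary.star_mem hw)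
    · rwa [norm_sub_rev]
  have h2 : IsUnit (star w * a) := by simpa using (Units.oneSub _ h1).isUnit
  have h3 : IsUnit w := ⟨⟨w, star w, hu.2, hu.1⟩, rfl⟩
  have e : a = w * (star w * a) := by rw [← mul_assoc, hu.2, one_mul]
  rw [e]
  exact h3.mul h2

/-- The unitary part of an invertible element near a unitary. -/
theorem polar {a : H →L[ℂ] H} (ha : IsUnit a) {δ : ℝ} (hδ : ‖star a * a - 1‖ ≤ δ)
    (hδ' : δ ≤ 1 / 2) :
    ∃ r : H →L[ℂ] H, IsSelfAdjoint r ∧ a * r ∈ unitary (H →L[ℂ] H) ∧ ‖a * r - a‖ ≤ ‖a‖ * δ ∧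
      ∀ x, Commute (star a * a) x → Commute r x := by
  rcases subsingleton_or_nontrivial (H →L[ℂ] H) with hs | hs
  · exact ⟨1, .one _, by rw [Subsingleton.elim (a * 1) 1]; exact one_mem _,
      by simp [mul_nonneg (norm_nonneg a) ((norm_nonneg _).trans hδ)],
      fun x _ => Commute.one_left x⟩
  set b := star a * a with hb
  have hsa : IsSelfAdjoint b := IsSelfAdjoint.star_mul_self a
  have hspec : ∀ t ∈ spectrum ℝ b, |t - 1| ≤ δ := fun t ht => by
    have e : cfc (fun s : ℝ => s - 1) b = b - 1 := by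
      rw [cfc_sub (fun s : ℝ => s) (fun _ => (1 : ℝ)) b, cfc_id' ℝ b, cfc_const_one ℝ b]
    have := norm_apply_le_norm_cfc (fun s : ℝ => s - 1) b ht
    rw [e, Real.norm_eq_abs] at this
    linarith
  have hpos : ∀ t ∈ spectrum ℝ b, 1 / 2 ≤ t := fun t ht => by
    linarith [(abs_le.1 (hspec t ht)).1]
  set g : ℝ → ℝ := fun t => (√t)⁻¹ with hg
  have hgc : ContinuousOn g (spectrum ℝ b) :=
    Real.continuous_sqrt.continuousOn.inv₀ fun t ht =>
      (Real.sqrt_pos.2 (lt_of_lt_of_le (by norm_num) (hpos t ht))).ne'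
  set r := cfc g b with hr
  have hrs : IsSelfAdjoint r := cfc_predicate g b
  have hrbr : r * b * r = 1 := by
    rw [show r * b = cfc g b * cfc (fun t : ℝ => t) b by rw [cfc_id' ℝ b, hr],
      ← cfc_mul g (fun t => t) b hgc, hr,
      ← cfc_mul (fun t => g t * t) g b (hgc.mul continuousOn_id) hgc,
      cfc_congr (g := fun _ => (1 : ℝ)) fun t ht => ?_, cfc_const_one ℝ b]
    have h0 : 0 < √t := Real.sqrt_pos.2 (lt_of_lt_of_le (by norm_num) (hpos t ht))
    simp only [hg]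
    field_simp
    rw [Real.sq_sqrt (by linarith [hpos t ht])]
  have hr1 : ‖r - 1‖ ≤ δ := by
    have e : cfc (fun t => g t - 1) b = r - 1 := by
      rw [cfc_sub g (fun _ => (1 : ℝ)) b hgc, cfc_const_one ℝ b, hr]
    rw [← e]
    refine norm_cfc_le ((norm_nonneg _).trans hδ) fun t ht => ?_
    have ht0 := hpos t ht
    have hs2 : (1 / 2 : ℝ) ≤ √t := by
      rw [Real.le_sqrt (by norm_num) (by linarith)]; linarith
    have hsq : √t * √t = t := Real.mul_self_sqrt (by linarith)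
    have hg1 : (g t - 1) * (√t * (1 + √t)) = 1 - t := by
      simp only [hg]
      field_simp
      nlinarith [hsq]
    have hD : 1 ≤ √t * (1 + √t) := by nlinarith
    have := congrArg abs hg1
    rw [abs_mul, abs_sub_comm 1 t, abs_of_pos (by linarith : 0 < √t * (1 + √t))] at this
    rw [Real.norm_eq_abs]
    nlinarith [hspec t ht, abs_nonneg (g t - 1)]
  have hru : IsUnit r := by
    have := (Units.oneSub (1 - r) (by rw [norm_sub_rev]; linarith)).isUnit
    simpa using this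
  have h1 : star (a * r) * (a * r) = 1 := by
    rw [star_mul, hrs.star_eq, ← hrbr, hb]
    simp only [mul_assoc]
  refine ⟨r, hrs, Unitary.mem_iff.2 ⟨h1, ?_⟩, ?_, fun x hx => hx.cfc_real g⟩
  · obtain ⟨v, hv⟩ := ha.mul hru
    rw [← hv] at h1 ⊢
    rw [show star (v : H →L[ℂ] H) = ↑v⁻¹ by
      rw [← mul_one (star (v : H →L[ℂ] H)), ← v.mul_inv, ← mul_assoc, h1, one_mul]]
    exact v.mul_inv
  · rw [show a * r - a = a * (r - 1) by rw [mul_sub, mul_one]]
    exact (norm_mul_le _ _).trans (mul_le_mul_of_nonneg_left hr1 (norm_nonneg _))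

lemma polar_mem (N : VonNeumannAlgebra H) {a : H →L[ℂ] H} (haN : a ∈ N) (ha : IsUnit a) {δ : ℝ}
    (hδ : ‖star a * a - 1‖ ≤ δ) (hδ' : δ ≤ 1 / 2) :
    ∃ p ∈ N, p ∈ unitary (H →L[ℂ] H) ∧ ‖p - a‖ ≤ ‖a‖ * δ := by
  obtain ⟨r, -, hu, hn, hc⟩ := polar ha hδ hδ'
  refine ⟨a * r, ?_, hu, hn⟩
  have hr : r ∈ N := by
    have : r ∈ Set.centralizer (Set.centralizer (N : Set (H →L[ℂ] H))) := fun z hz => by
      refine (hc z ?_).eq.symm
      exact Commute.mul_left (hz (star a) (star_mem (show a ∈ N from haN))) (hz a haN)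
    rwa [N.centralizer_centralizer] at this
  exact mul_mem (show a ∈ N from haN) hr

/-- An approximate representation in `N` with defect `ε`. -/
def Good (N : VonNeumannAlgebra H) (Γ : Groups H) (π : (H →L[ℂ] H) → (H →L[ℂ] H)) (ε : ℝ) : Prop :=
  (∀ g ∈ Γ.carrier, π g ∈ N ∧ π g ∈ unitary (H →L[ℂ] H)) ∧
    ∀ g ∈ Γ.carrier, ∀ h ∈ Γ.carrier, ‖π g * π h - π (g * h)‖ ≤ ε

theorem improve (N : VonNeumannAlgebra H) {π : (H →L[ℂ] H) → (H →L[ℂ] H)} {ε : ℝ}
    (hπ : Good N Γ π ε) (hε : ε ≤ 1 / 32) :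
    ∃ π', Good N Γ π' (ε / 2) ∧ ∀ g ∈ Γ.carrier, ‖π' g - π g‖ ≤ 2 * ε := by
  have hε0 : 0 ≤ ε := (norm_nonneg _).trans (hπ.2 1 Groups.one_carrier 1 Groups.one_carrier)
  have hn : ∀ g ∈ Γ.carrier, ‖π g‖ ≤ 1 := fun g hg => norm_le_one (hπ.1 g hg).2
  have hns : ∀ g ∈ Γ.carrier, ‖star (π g)‖ ≤ 1 := fun g hg => by
    rw [norm_star]; exact hn g hg
  have key : ∀ g, ∃ a : H →L[ℂ] H,
      g ∈ Γ.carrier → IsMean Γ (fun h => π (g * h) * star (π h)) a := fun g => by
    by_cases hg : g ∈ Γ.carrier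
    · obtain ⟨a, ha⟩ := exists_mean (Γ := Γ) (f := fun h => π (g * h) * star (π h)) (c := 1)
        fun h hh => (norm_mul_le _ _).trans
          (mul_le_one₀ (hn _ (Groups.mul_carrier hg hh)) (norm_nonneg _) (hns h hh))
      exact ⟨a, fun _ => ha⟩
    · exact ⟨0, fun h => absurd h hg⟩
  choose a ha using key
  have haN : ∀ g ∈ Γ.carrier, a g ∈ N := fun g hg => (ha g hg).mem N fun h hh =>
    mul_mem (hπ.1 _ (Groups.mul_carrier hg hh)).1 (star_mem (hπ.1 h hh).1)
  have hX : ∀ g ∈ Γ.carrier, ∀ h ∈ Γ.carrier, ‖π (g * h) * star (π h) - π g‖ ≤ ε := by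
    intro g hg h hh
    have hu := Unitary.mem_iff.1 (hπ.1 h hh).2
    rw [show π (g * h) * star (π h) - π g = (π (g * h) - π g * π h) * star (π h) by
      rw [sub_mul, mul_assoc, hu.2, mul_one]]
    refine (norm_mul_le _ _).trans ((mul_le_of_le_one_right (norm_nonneg _) (hns h hh)).trans ?_)
    rw [norm_sub_rev]; exact hπ.2 g hg h hh
  have h1 : ∀ g ∈ Γ.carrier, ‖a g - π g‖ ≤ ε := fun g hg =>
    ((ha g hg).sub (IsMean.const _)).norm_le hε0 fun h hh => hX g hg h hh
  have hx : ∀ g ∈ Γ.carrier, ∀ h ∈ Γ.carrier, ‖π (g * h) * star (π h) - a g‖ ≤ 2 * ε := by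
    intro g hg h hh
    calc _ ≤ ‖π (g * h) * star (π h) - π g‖ + ‖π g - a g‖ := norm_sub_le_norm_sub_add_norm_sub ..
      _ ≤ ε + ε := add_le_add (hX g hg h hh) (by rw [norm_sub_rev]; exact h1 g hg)
      _ = 2 * ε := by ring
  have h2 : ∀ g ∈ Γ.carrier, ‖star (a g) * a g - 1‖ ≤ 4 * ε ^ 2 := by
    intro g hg
    set X := fun h => π (g * h) * star (π h) with hXd
    have m1 : IsMean Γ (fun h => star (X h) * X h) 1 := by
      refine (IsMean.const 1).congr fun h hh => ?_
      have hu : X h ∈ unitary (H →L[ℂ] H) :=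
        mul_mem (hπ.1 _ (Groups.mul_carrier hg hh)).2 (Unitary.star_mem (hπ.1 h hh).2)
      exact (Unitary.mem_iff.1 hu).1.symm
    have m2 := ((m1.sub ((ha g hg).mul_left (star (a g)))).sub
      ((ha g hg).star_mean.mul_right (a g))).add (IsMean.const (Γ := Γ) (star (a g) * a g))
    have m3 : IsMean Γ (fun h => star (X h - a g) * (X h - a g)) (1 - star (a g) * a g) := by
      have e : (1 : H →L[ℂ] H) - star (a g) * a g - star (a g) * a g + star (a g) * a g =
          1 - star (a g) * a g := by abel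
      rw [e] at m2
      refine m2.congr fun h _ => ?_
      simp only [hXd, star_sub, sub_mul, mul_sub]
      abel
    rw [norm_sub_rev]
    refine m3.norm_le (by positivity) fun h hh => ?_
    refine (norm_mul_le _ _).trans ?_
    rw [norm_star]
    nlinarith [hx g hg h hh, norm_nonneg (X h - a g)]
  have h3 : ∀ g ∈ Γ.carrier, ∀ k ∈ Γ.carrier, ‖a g * a k - a (g * k)‖ ≤ 4 * ε ^ 2 := by
    intro g hg k hk
    set X := fun h => π (g * (k * h)) * star (π (k * h)) with hXd
    set Y := fun h => π (k * h) * star (π h) with hYd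
    have mX : IsMean Γ X (a g) := (ha g hg).shift hk
    have mXY : IsMean Γ (fun h => X h * Y h) (a (g * k)) := by
      refine (ha _ (Groups.mul_carrier hg hk)).congr fun h hh => ?_
      have hu := Unitary.mem_iff.1 (hπ.1 _ (Groups.mul_carrier hk hh)).2
      simp only [hXd, hYd]
      rw [mul_assoc _ (star _), ← mul_assoc (star (π (k * h))), hu.1, one_mul, mul_assoc g k h]
    have m2 := ((mXY.sub ((ha k hk).mul_left (a g))).sub (mX.mul_right (a k))).add
      (IsMean.const (Γ := Γ) (a g * a k))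
    have m3 : IsMean Γ (fun h => (X h - a g) * (Y h - a k)) (a (g * k) - a g * a k) := by
      have e : a (g * k) - a g * a k - a g * a k + a g * a k = a (g * k) - a g * a k := by abel
      rw [e] at m2
      refine m2.congr fun h _ => ?_
      simp only [hYd, sub_mul, mul_sub]
      abel
    rw [norm_sub_rev]
    refine m3.norm_le (by positivity) fun h hh => ?_
    refine (norm_mul_le _ _).trans ?_
    nlinarith [hx g hg _ (Groups.mul_carrier hk hh), hx k hk h hh, norm_nonneg (X h - a g),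
      norm_nonneg (Y h - a k)]
  have hna : ∀ g ∈ Γ.carrier, ‖a g‖ ≤ 1 := fun g hg => (ha g hg).norm_le zero_le_one fun h hh =>
    (norm_mul_le _ _).trans
      (mul_le_one₀ (hn _ (Groups.mul_carrier hg hh)) (norm_nonneg _) (hns h hh))
  have key2 : ∀ g, ∃ p : H →L[ℂ] H, g ∈ Γ.carrier →
      p ∈ N ∧ p ∈ unitary (H →L[ℂ] H) ∧ ‖p - a g‖ ≤ 4 * ε ^ 2 := fun g => by
    by_cases hg : g ∈ Γ.carrier
    · have hu : IsUnit (a g) :=
        isUnit_near (hπ.1 g hg).2 (lt_of_le_of_lt (h1 g hg) (by linarith))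
      obtain ⟨p, hpN, hpu, hpn⟩ := polar_mem N (haN g hg) hu (h2 g hg) (by nlinarith)
      exact ⟨p, fun _ => ⟨hpN, hpu,
        hpn.trans (mul_le_of_le_one_left (by positivity) (hna g hg))⟩⟩
    · exact ⟨0, fun h => absurd h hg⟩
  choose p hp using key2
  refine ⟨p, ⟨fun g hg => ⟨(hp g hg).1, (hp g hg).2.1⟩, fun g hg k hk => ?_⟩, fun g hg => ?_⟩
  · have hgk := Groups.mul_carrier hg hk
    have e : p g * p k - p (g * k) = (p g - a g) * p k + a g * (p k - a k) +
        (a g * a k - a (g * k)) + (a (g * k) - p (g * k)) := by noncomm_ring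
    rw [e]
    refine (norm_add₄_le).trans ?_
    have b1 : ‖(p g - a g) * p k‖ ≤ 4 * ε ^ 2 := (norm_mul_le _ _).trans
      ((mul_le_of_le_one_right (norm_nonneg _) (norm_le_one (hp k hk).2.1)).trans (hp g hg).2.2)
    have b2 : ‖a g * (p k - a k)‖ ≤ 4 * ε ^ 2 := (norm_mul_le _ _).trans
      ((mul_le_of_le_one_left (norm_nonneg _) (hna g hg)).trans (hp k hk).2.2)
    have b4 : ‖a (g * k) - p (g * k)‖ ≤ 4 * ε ^ 2 := by
      rw [norm_sub_rev]; exact (hp _ hgk).2.2
    nlinarith [h3 g hg k hk]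
  · calc ‖p g - π g‖ ≤ ‖p g - a g‖ + ‖a g - π g‖ := norm_sub_le_norm_sub_add_norm_sub ..
      _ ≤ 4 * ε ^ 2 + ε := add_le_add (hp g hg).2.2 (h1 g hg)
      _ ≤ 2 * ε := by nlinarith

/-- A group near `N` has a representation in `N` near the inclusion. -/
theorem exists_rep (N : VonNeumannAlgebra H) {γ : ℝ} (hγ : γ ≤ 1 / 672)
    (hN : ∀ g ∈ Γ.carrier, ∃ y ∈ N, ‖g - y‖ ≤ γ) :
    ∃ π, Good N Γ π 0 ∧ ∀ g ∈ Γ.carrier, ‖π g - g‖ ≤ 91 * γ := by
  have hγ0 : 0 ≤ γ := by
    obtain ⟨y, _, hy⟩ := hN 1 Groups.one_carrier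
    exact (norm_nonneg _).trans hy
  have key : ∀ g, ∃ p : H →L[ℂ] H, g ∈ Γ.carrier →
      p ∈ N ∧ p ∈ unitary (H →L[ℂ] H) ∧ ‖p - g‖ ≤ 7 * γ := fun g => by
    by_cases hg : g ∈ Γ.carrier
    · obtain ⟨y, hy, hgy⟩ := hN g hg
      have hgu := Groups.unitary_carrier hg
      have hyn : ‖y‖ ≤ 1 + γ := by
        calc ‖y‖ = ‖g - (g - y)‖ := by rw [sub_sub_cancel]
          _ ≤ ‖g‖ + ‖g - y‖ := norm_sub_le _ _
          _ ≤ 1 + γ := add_le_add (norm_le_one hgu) hgy
      have hd : ‖star y * y - 1‖ ≤ 3 * γ := by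
        rw [show star y * y - 1 = star y * (y - g) + star (y - g) * g by
          rw [mul_sub, star_sub, sub_mul, (Unitary.mem_iff.1 hgu).1]; abel]
        have e1 : ‖y - g‖ ≤ γ := by rwa [norm_sub_rev]
        refine (norm_add_le _ _).trans ((add_le_add (norm_mul_le _ _) (norm_mul_le _ _)).trans ?_)
        rw [norm_star, norm_star]
        nlinarith [norm_nonneg y, norm_nonneg (y - g), norm_le_one hgu, norm_nonneg g]
      obtain ⟨p, hpN, hpu, hpn⟩ := polar_mem N hy
        (isUnit_near hgu (by rw [norm_sub_rev]; linarith)) hd (by linarith)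
      refine ⟨p, fun _ => ⟨hpN, hpu, ?_⟩⟩
      calc ‖p - g‖ ≤ ‖p - y‖ + ‖y - g‖ := norm_sub_le_norm_sub_add_norm_sub ..
        _ ≤ ‖y‖ * (3 * γ) + γ := add_le_add hpn (by rwa [norm_sub_rev])
        _ ≤ 7 * γ := by nlinarith [norm_nonneg y]
    · exact ⟨0, fun h => absurd h hg⟩
  choose π₀ h₀ using key
  have g₀ : Good N Γ π₀ (21 * γ) := by
    refine ⟨fun g hg => ⟨(h₀ g hg).1, (h₀ g hg).2.1⟩, fun g hg k hk => ?_⟩
    have e : π₀ g * π₀ k - π₀ (g * k) =
        (π₀ g - g) * π₀ k + g * (π₀ k - k) + (g * k - π₀ (g * k)) := by noncomm_ring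
    rw [e]
    refine (norm_add₃_le).trans ?_
    have b1 : ‖(π₀ g - g) * π₀ k‖ ≤ 7 * γ := (norm_mul_le _ _).trans
      ((mul_le_of_le_one_right (norm_nonneg _) (norm_le_one (h₀ k hk).2.1)).trans (h₀ g hg).2.2)
    have b2 : ‖g * (π₀ k - k)‖ ≤ 7 * γ := (norm_mul_le _ _).trans
      ((mul_le_of_le_one_left (norm_nonneg _)
        (norm_le_one (Groups.unitary_carrier hg))).trans (h₀ k hk).2.2)
    have b3 : ‖g * k - π₀ (g * k)‖ ≤ 7 * γ := by
      rw [norm_sub_rev]; exact (h₀ _ (Groups.mul_carrier hg hk)).2.2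
    linarith
  set ε : ℕ → ℝ := fun n => 21 * γ / 2 ^ n with hε
  have hεle : ∀ n, ε n ≤ 1 / 32 := fun n =>
    (div_le_self (by positivity) (one_le_pow₀ one_le_two)).trans (by linarith)
  have next : ∀ (n : ℕ) (π : {π // Good N Γ π (ε n)}), ∃ π' : {π // Good N Γ π (ε (n + 1))},
      ∀ g ∈ Γ.carrier, ‖π'.1 g - π.1 g‖ ≤ 2 * ε n := fun n π => by
    obtain ⟨π', h', hd⟩ := improve N π.2 (hεle n)
    have e : ε n / 2 = ε (n + 1) := by simp only [hε, pow_succ]; ring
    exact ⟨⟨π', e ▸ h'⟩, hd⟩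
  choose nx hnx using next
  let seq : (n : ℕ) → {π // Good N Γ π (ε n)} := fun n =>
    Nat.rec (motive := fun n => {π // Good N Γ π (ε n)}) ⟨π₀, by simpa [hε] using g₀⟩ nx n
  have hd : ∀ g ∈ Γ.carrier, ∀ n, dist ((seq n).1 g) ((seq (n + 1)).1 g) ≤
      84 * γ / 2 / 2 ^ n := fun g hg n => by
    rw [dist_eq_norm, norm_sub_rev]
    refine (hnx n (seq n) g hg).trans_eq ?_
    simp only [hε]; ring
  have key2 : ∀ g, ∃ p : H →L[ℂ] H, g ∈ Γ.carrier →
      Tendsto (fun n => (seq n).1 g) atTop (𝓝 p) := fun g => by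
    by_cases hg : g ∈ Γ.carrier
    · obtain ⟨p, hp⟩ := cauchySeq_tendsto_of_complete (cauchySeq_of_le_geometric_two (hd g hg))
      exact ⟨p, fun _ => hp⟩
    · exact ⟨0, fun h => absurd h hg⟩
  choose π hπ using key2
  have hclosed : IsClosed (N : Set (H →L[ℂ] H)) := by
    have h : IsClosed (Set.centralizer (Set.centralizer (N : Set (H →L[ℂ] H)))) :=
      Set.isClosed_centralizer _
    rwa [N.centralizer_centralizer] at h
  refine ⟨π, ⟨fun g hg => ⟨?_, ?_⟩, fun g hg k hk => ?_⟩, fun g hg => ?_⟩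
  · exact hclosed.mem_of_tendsto (hπ g hg) (Eventually.of_forall fun n => ((seq n).2.1 g hg).1)
  · have t1 := ((hπ g hg).star.mul (hπ g hg))
    have t2 := ((hπ g hg).mul (hπ g hg).star)
    refine Unitary.mem_iff.2 ⟨tendsto_nhds_unique t1 (tendsto_const_nhds.congr fun n => ?_),
      tendsto_nhds_unique t2 (tendsto_const_nhds.congr fun n => ?_)⟩
    · exact (Unitary.mem_iff.1 ((seq n).2.1 g hg).2).1.symm
    · exact (Unitary.mem_iff.1 ((seq n).2.1 g hg).2).2.symm
  · refine le_of_tendsto_of_tendsto (((hπ g hg).mul (hπ k hk)).sub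
      (hπ _ (Groups.mul_carrier hg hk))).norm (g := ε) ?_
      (Eventually.of_forall fun n => (seq n).2.2 g hg k hk)
    have := (tendsto_pow_atTop_nhds_zero_of_lt_one (r := (1 / 2 : ℝ)) (by norm_num)
      (by norm_num)).const_mul (21 * γ)
    simpa [hε, div_pow, div_eq_mul_inv] using this
  · have := dist_le_of_le_geometric_two_of_tendsto₀ (hd g hg) (hπ g hg)
    rw [dist_eq_norm, norm_sub_rev] at this
    have h7 : ‖(seq 0).1 g - g‖ ≤ 7 * γ := (h₀ g hg).2.2
    calc ‖π g - g‖ ≤ ‖π g - (seq 0).1 g‖ + ‖(seq 0).1 g - g‖ :=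
        norm_sub_le_norm_sub_add_norm_sub ..
      _ ≤ 91 * γ := by linarith

/-- A locally finite group of unitaries near `N` is carried into `N` by a unitary near `1` in the
von Neumann algebra they generate with `N`; so is the von Neumann algebra of the group. -/
theorem near_group (N : VonNeumannAlgebra H) (Γ : Groups H) {γ : ℝ} (hγ : γ ≤ 1 / 672)
    (hN : ∀ g ∈ Γ.carrier, ∃ y ∈ N, ‖g - y‖ ≤ γ) :
    ∃ u ∈ unitary (H →L[ℂ] H), ‖u - 1‖ ≤ 273 * γ ∧
      u ∈ Set.centralizer (Set.centralizer ((N : Set (H →L[ℂ] H)) ∪ Γ.carrier)) ∧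
      ∀ x ∈ Set.centralizer (Set.centralizer Γ.carrier), u * x * star u ∈ N := by
  obtain ⟨π, ⟨hπ, hπm⟩, hπn⟩ := exists_rep N hγ hN
  have hhom : ∀ g ∈ Γ.carrier, ∀ h ∈ Γ.carrier, π (g * h) = π g * π h := fun g hg h hh =>
    (sub_eq_zero.1 (norm_eq_zero.1 (le_antisymm (hπm g hg h hh) (norm_nonneg _)))).symm
  have hγ0 : 0 ≤ 91 * γ := (norm_nonneg _).trans (hπn 1 Groups.one_carrier)
  have hb : ∀ g ∈ Γ.carrier, ‖π g * star g‖ ≤ 1 := fun g hg =>
    norm_le_one (mul_mem (hπ g hg).2 (Unitary.star_mem (Groups.unitary_carrier hg)))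
  obtain ⟨t, ht⟩ := exists_mean hb
  have htn : ‖t‖ ≤ 1 := ht.norm_le zero_le_one hb
  have ht1 : ‖t - 1‖ ≤ 91 * γ := by
    refine (ht.sub (IsMean.const 1)).norm_le hγ0 fun g hg => ?_
    have hu := Groups.unitary_carrier hg
    rw [show π g * star g - 1 = (π g - g) * star g by
      rw [sub_mul, (Unitary.mem_iff.1 hu).2]]
    exact (norm_mul_le _ _).trans ((mul_le_of_le_one_right (norm_nonneg _)
      (norm_le_one (Unitary.star_mem hu))).trans (hπn g hg))
  have hint : ∀ k ∈ Γ.carrier, t * k = π k * t := by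
    intro k hk
    refine (((ht.shift hk).mul_right k).congr fun g hg => ?_).unique (ht.mul_left (π k))
    show π (k * g) * star (k * g) * k = π k * (π g * star g)
    rw [hhom k hk g hg, star_mul, mul_assoc, mul_assoc (star g),
      (Unitary.mem_iff.1 (Groups.unitary_carrier hk)).1, mul_one, mul_assoc]
  have hcomm : ∀ k ∈ Γ.carrier, Commute (star t * t) k := by
    intro k hk
    have hp := Unitary.mem_iff.1 (hπ k hk).2
    have hk' := Unitary.mem_iff.1 (Groups.unitary_carrier hk)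
    have e : star t * π k = k * star t := by
      have h := congrArg star (hint k hk)
      rw [star_mul, star_mul] at h
      calc star t * π k = k * (star k * star t) * π k := by rw [← mul_assoc k, hk'.2, one_mul]
        _ = k * star t := by rw [h, ← mul_assoc, mul_assoc _ _ (π k), hp.1, mul_one]
    show star t * t * k = k * (star t * t)
    rw [mul_assoc, hint k hk, ← mul_assoc, e, mul_assoc]
  have hd : ‖star t * t - 1‖ ≤ 182 * γ := by
    rw [show star t * t - 1 = star t * (t - 1) + star (t - 1) by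
      rw [mul_sub, mul_one, star_sub, star_one]; abel]
    refine (norm_add_le _ _).trans ?_
    rw [norm_star]
    have := (norm_mul_le (star t) (t - 1)).trans
      (mul_le_of_le_one_left (norm_nonneg _) (by rwa [norm_star]))
    linarith
  obtain ⟨r, -, hu, hun, hrc⟩ := polar
    (isUnit_near (one_mem _) (lt_of_le_of_lt ht1 (by linarith))) hd (by linarith)
  have hπu : ∀ k ∈ Γ.carrier, t * r * k * star (t * r) = π k := by
    intro k hk
    rw [mul_assoc t r k, (hrc k (hcomm k hk)).eq, ← mul_assoc, hint k hk, mul_assoc (π k),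
      mul_assoc (π k), (Unitary.mem_iff.1 hu).2, mul_one]
  refine ⟨t * r, hu, ?_, fun z hz => ?_, fun x hx => ?_⟩
  · calc ‖t * r - 1‖ ≤ ‖t * r - t‖ + ‖t - 1‖ := norm_sub_le_norm_sub_add_norm_sub ..
      _ ≤ 1 * (182 * γ) + 91 * γ := add_le_add (hun.trans
        (mul_le_mul_of_nonneg_right htn ((norm_nonneg _).trans hd))) ht1
      _ = 273 * γ := by ring
  · have hzs : ∀ g ∈ (N : Set (H →L[ℂ] H)) ∪ Γ.carrier, star z * g = g * star z := by
      intro g hg
      have hg' : star g ∈ (N : Set (H →L[ℂ] H)) ∪ Γ.carrier :=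
        hg.imp (fun h => star_mem (show g ∈ N from h)) fun h => Groups.star_carrier h
      have := congrArg star (hz _ hg')
      rw [star_mul, star_mul, star_star] at this
      exact this
    have hc : ∀ y, (∀ g ∈ (N : Set (H →L[ℂ] H)) ∪ Γ.carrier, y * g = g * y) → y * t = t * y := by
      intro y hy
      refine ht.commute fun g hg => ?_
      rw [← mul_assoc, hy _ (Or.inl (hπ g hg).1), mul_assoc,
        hy _ (Or.inr (Groups.star_carrier hg)), mul_assoc]
    have hzt : z * t = t * z := hc z fun g hg => (hz g hg).symm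
    have hzt' : z * star t = star t * z := by
      have := congrArg star (hc (star z) hzs)
      rw [star_mul, star_mul, star_star] at this
      exact this.symm
    have hcz : Commute (star t * t) z := (Commute.symm (Commute.mul_right hzt' hzt))
    rw [← mul_assoc, hzt, mul_assoc, (hrc z hcz).eq.symm, mul_assoc]
  · set u := t * r with hudef
    have hu' := Unitary.mem_iff.1 hu
    have : u * x * star u ∈ Set.centralizer (Set.centralizer (N : Set (H →L[ℂ] H))) := by
      intro z hz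
      have hzc : star u * z * u ∈ Set.centralizer Γ.carrier := fun g hg => by
        have e : z * (u * g * star u) = u * g * star u * z := by
          rw [hπu g hg]; exact (hz _ (hπ g hg).1).symm
        calc g * (star u * z * u) = star u * (u * g * star u * z) * u := by
              simp only [← mul_assoc, hu'.1, one_mul]
          _ = star u * (z * (u * g * star u)) * u := by rw [e]
          _ = star u * z * u * g := by simp only [mul_assoc, hu'.1, mul_one]
      have e := hx _ hzc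
      calc z * (u * x * star u) = u * (star u * z * u * x) * star u := by
            simp only [← mul_assoc, hu'.2, one_mul]
        _ = u * (x * (star u * z * u)) * star u := by rw [e]
        _ = u * x * star u * z := by simp only [mul_assoc, hu'.2, mul_one]
    rwa [N.centralizer_centralizer] at this

end Vale.Agent.P096.Full.Reduce
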