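import Vale.Agent.P096.Full.Reduce.Trace
import Vale.Agent.P096.Near
import Vale.Agent.P096.Bridge

/-!
P096, reduction: the moves of the second algebra by unitaries near the identity.
-/

open scoped InnerProductSpace ComplexConjugate
open Filter Topology

namespace Vale.Agent.P096.Full.Reduce

variable {H : Type} [NormedAddCommGroup H] [InnerProductSpace ℂ H] [CompleteSpace H]

lemma conj_cancel {u : H →L[ℂ] H} (hu : u ∈ unitary (H →L[ℂ] H)) (x : H →L[ℂ] H) :
    star u * (u * x * star u) * u = x ∧ u * (star u * x * u) * star u = x := by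
  have h := Unitary.mem_iff.1 hu
  constructor
  · rw [← mul_assoc, ← mul_assoc, h.1, one_mul, mul_assoc, h.1, mul_one]
  · rw [← mul_assoc, ← mul_assoc, h.2, one_mul, mul_assoc, h.2, mul_one]

lemma mem_of_commute_all (N : VonNeumannAlgebra H) {x : H →L[ℂ] H}
    (h : ∀ z ∈ Set.centralizer (N : Set (H →L[ℂ] H)), z * x = x * z) : x ∈ N := by
  have : x ∈ Set.centralizer (Set.centralizer (N : Set (H →L[ℂ] H))) := h
  rwa [N.centralizer_centralizer] at this

/-- The algebra `u* N u`. -/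
def conjVN (N : VonNeumannAlgebra H) (u : H →L[ℂ] H) (hu : u ∈ unitary (H →L[ℂ] H)) :
    VonNeumannAlgebra H where
  carrier := {x | u * x * star u ∈ N}
  mul_mem' {a b} ha hb := by
    show u * (a * b) * star u ∈ N
    have e : u * (a * b) * star u = (u * a * star u) * (u * b * star u) := by
      simp only [mul_assoc]
      rw [← mul_assoc (star u) u, (Unitary.mem_iff.1 hu).1, one_mul]
    rw [e]
    exact mul_mem ha hb
  one_mem' := by
    show u * 1 * star u ∈ N
    rw [mul_one, (Unitary.mem_iff.1 hu).2]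
    exact one_mem N
  zero_mem' := by
    show u * 0 * star u ∈ N
    rw [mul_zero, zero_mul]
    exact zero_mem N
  add_mem' {a b} ha hb := by
    show u * (a + b) * star u ∈ N
    rw [mul_add, add_mul]
    exact add_mem ha hb
  algebraMap_mem' c := by
    show u * algebraMap ℂ (H →L[ℂ] H) c * star u ∈ N
    rw [← Algebra.commutes, mul_assoc, (Unitary.mem_iff.1 hu).2, mul_one]
    exact algebraMap_mem N.toStarSubalgebra c
  star_mem' {a} ha := by
    show u * star a * star u ∈ N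
    have e : u * star a * star u = star (u * a * star u) := by
      simp only [star_mul, star_star, mul_assoc]
    rw [e]
    exact star_mem (show u * a * star u ∈ N from ha)
  centralizer_centralizer' := by
    refine Set.Subset.antisymm (fun x hx => mem_of_commute_all N fun z hz => ?_)
      (fun x hx z hz => (hz x hx).symm)
    have hz' : star u * z * u ∈ Set.centralizer {x | u * x * star u ∈ N} := fun y hy => by
      have e : star u * (u * y * star u * z) * u = star u * (z * (u * y * star u)) * u :=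
        congrArg (fun T => star u * T * u) (hz _ hy)
      calc y * (star u * z * u) = star u * (u * y * star u * z) * u := by
            simp only [← mul_assoc, (Unitary.mem_iff.1 hu).1, one_mul]
        _ = star u * (z * (u * y * star u)) * u := e
        _ = star u * z * u * y := by simp only [mul_assoc, (Unitary.mem_iff.1 hu).1, mul_one]
    have e := hx _ hz'
    calc z * (u * x * star u) = u * (star u * z * u * x) * star u := by
          simp only [← mul_assoc, (Unitary.mem_iff.1 hu).2, one_mul]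
      _ = u * (x * (star u * z * u)) * star u := by rw [e]
      _ = u * x * star u * z := by
          simp only [mul_assoc, (Unitary.mem_iff.1 hu).2, mul_one]

@[simp] lemma mem_conjVN {N : VonNeumannAlgebra H} {u : H →L[ℂ] H}
    {hu : u ∈ unitary (H →L[ℂ] H)} {x : H →L[ℂ] H} :
    x ∈ conjVN N u hu ↔ u * x * star u ∈ N := Iff.rfl

lemma mem_commutant_conjVN {N : VonNeumannAlgebra H} {u : H →L[ℂ] H}
    {hu : u ∈ unitary (H →L[ℂ] H)} {z : H →L[ℂ] H}
    (hz : u * z * star u ∈ Set.centralizer (N : Set (H →L[ℂ] H))) :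
    z ∈ Set.centralizer (conjVN N u hu : Set (H →L[ℂ] H)) := by
  intro y hy
  have e : u * y * star u * (u * z * star u) = u * z * star u * (u * y * star u) :=
    hz _ (mem_conjVN.1 hy)
  have h : ∀ a b : H →L[ℂ] H, star u * (u * a * star u * (u * b * star u)) * u = a * b := by
    intro a b
    have hu' := (Unitary.mem_iff.1 hu).1
    simp only [mul_assoc, hu', mul_one]
    simp only [← mul_assoc, hu', one_mul]
  rw [← h y z, e, h]

lemma norm_conj_sub {u : H →L[ℂ] H} (hu : u ∈ unitary (H →L[ℂ] H)) (y : H →L[ℂ] H) :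
    ‖u * y * star u - y‖ ≤ 2 * ‖u - 1‖ * ‖y‖ := by
  have e : u * y * star u - y = (u - 1) * y * star u + y * star (u - 1) := by
    rw [star_sub, star_one]; noncomm_ring
  rw [e]
  refine (norm_add_le _ _).trans ((add_le_add (norm_mul_le _ _) (norm_mul_le _ _)).trans ?_)
  have h1 : ‖(u - 1) * y‖ * ‖star u‖ ≤ ‖u - 1‖ * ‖y‖ :=
    (mul_le_of_le_one_right (norm_nonneg _) (norm_le_one (Unitary.star_mem hu))).trans
      (norm_mul_le _ _)
  rw [norm_star (u - 1)]
  nlinarith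

/-- Both algebras are near each other on the unit ball. -/
def Close (M N : VonNeumannAlgebra H) (γ : ℝ) : Prop :=
  (∀ x ∈ M, ‖x‖ ≤ 1 → ∃ y ∈ N, ‖x - y‖ ≤ γ) ∧ ∀ x ∈ N, ‖x‖ ≤ 1 → ∃ y ∈ M, ‖x - y‖ ≤ γ

lemma Close.nonneg {M N : VonNeumannAlgebra H} {γ : ℝ} (h : Close M N γ) : 0 ≤ γ := by
  obtain ⟨y, _, hy⟩ := h.1 1 (one_mem M) (norm_le_one (one_mem _))
  exact (norm_nonneg _).trans hy

lemma Close.conj {M N : VonNeumannAlgebra H} {γ δ : ℝ} (h : Close M N γ) (hγ : γ ≤ 1)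
    {u : H →L[ℂ] H} (hu : u ∈ unitary (H →L[ℂ] H)) (hd : ‖u - 1‖ ≤ δ) :
    Close M (conjVN N u hu) (γ + 4 * δ) := by
  have hδ : 0 ≤ δ := (norm_nonneg _).trans hd
  constructor
  · intro x hx hx1
    obtain ⟨y, hy, hxy⟩ := h.1 x hx hx1
    refine ⟨star u * y * u, mem_conjVN.2 (by rwa [(conj_cancel hu y).2]), ?_⟩
    have hyn : ‖y‖ ≤ 2 := by
      calc ‖y‖ = ‖x - (x - y)‖ := by rw [sub_sub_cancel]
        _ ≤ ‖x‖ + ‖x - y‖ := norm_sub_le _ _
        _ ≤ 2 := by linarith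
    have hc := norm_conj_sub (Unitary.star_mem hu) y
    rw [star_star, show ‖star u - 1‖ = ‖u - 1‖ by rw [← norm_star, star_sub, star_star, star_one]]
      at hc
    calc ‖x - star u * y * u‖ ≤ ‖x - y‖ + ‖y - star u * y * u‖ :=
          norm_sub_le_norm_sub_add_norm_sub ..
      _ ≤ γ + 4 * δ := by
          rw [norm_sub_rev y]
          nlinarith [norm_nonneg (u - 1), norm_nonneg y]
  · intro x hx hx1
    have hc := norm_conj_sub hu x
    have hx' : ‖u * x * star u‖ ≤ 1 :=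
      ((norm_mul_le _ _).trans (mul_le_of_le_one_right (norm_nonneg _)
        (norm_le_one (Unitary.star_mem hu)))).trans
      ((norm_mul_le _ _).trans (mul_le_one₀ (norm_le_one hu) (norm_nonneg _) hx1))
    obtain ⟨d, hd', hdn⟩ := h.2 _ (mem_conjVN.1 hx) hx'
    refine ⟨d, hd', ?_⟩
    calc ‖x - d‖ ≤ ‖x - u * x * star u‖ + ‖u * x * star u - d‖ :=
          norm_sub_le_norm_sub_add_norm_sub ..
      _ ≤ γ + 4 * δ := by
          rw [norm_sub_rev x]
          nlinarith [norm_nonneg (u - 1), norm_nonneg x]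

variable (B : Base H)

/-- The mirrored groups. -/
noncomputable def Base.mirrorGroups : Groups H :=
  letI : DecidableEq (H →L[ℂ] H) := Classical.decEq _
  { G := fun n => (B.Γ.G n).image (jop B.J)
    one_mem := fun n => Finset.mem_image.2 ⟨1, B.Γ.one_mem n, B.conjM.jop_one⟩
    mul_mem := fun n a ha b hb => by
      obtain ⟨g, hg, rfl⟩ := Finset.mem_image.1 ha
      obtain ⟨h, hh, rfl⟩ := Finset.mem_image.1 hb
      exact Finset.mem_image.2 ⟨g * h, B.Γ.mul_mem n g hg h hh, B.conjM.jop_mul g h⟩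
    star_mem := fun n a ha => by
      obtain ⟨g, hg, rfl⟩ := Finset.mem_image.1 ha
      exact Finset.mem_image.2 ⟨star g, B.Γ.star_mem n g hg, (B.conjM.star_jop g).symm⟩
    mem_unitary := fun n a ha => by
      obtain ⟨g, hg, rfl⟩ := Finset.mem_image.1 ha
      exact B.conjM.jop_mem_unitary (B.Γ.mem_unitary n g hg)
    mono := fun m n h => Finset.image_subset_image (B.Γ.mono m n h) }

lemma Base.mem_mirrorGroups {a : H →L[ℂ] H} :
    a ∈ B.mirrorGroups.carrier ↔ ∃ g ∈ B.Γ.carrier, jop B.J g = a := by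
  classical
  constructor
  · rintro ⟨n, hn⟩
    obtain ⟨g, hg, rfl⟩ := Finset.mem_image.1 hn
    exact ⟨g, ⟨n, hg⟩, rfl⟩
  · rintro ⟨g, ⟨n, hn⟩, rfl⟩
    refine ⟨n, ?_⟩
    exact Finset.mem_image_of_mem (jop B.J) hn

lemma mem_cc {s : Set (H →L[ℂ] H)} {x : H →L[ℂ] H} (hx : x ∈ s) :
    x ∈ Set.centralizer (Set.centralizer s) := fun _ hz => (hz x hx).symm

/-- Two moves put the groups into the algebra and their mirrors into its commutant. -/
theorem exists_common {Cc : ℝ} (hCc : 0 ≤ Cc)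
    (hcn : ∀ (M N : StarSubalgebra ℂ (H →L[ℂ] H)) (γ : ℝ),
      0 ≤ γ → (∀ x ∈ M, ‖x‖ ≤ 1 → ∃ y ∈ N, ‖x - y‖ ≤ γ) →
      ∀ a ∈ Set.centralizer (N : Set (H →L[ℂ] H)), ‖a‖ ≤ 1 →
        ∃ b ∈ Set.centralizer (M : Set (H →L[ℂ] H)), ‖a - b‖ ≤ Cc * γ)
    (N : VonNeumannAlgebra H) {γ : ℝ} (hc : Close B.M N γ) (hγ : γ ≤ 1 / 2000)
    (hγc : Cc * (1093 * γ) ≤ 1 / 672) :
    ∃ (u : H →L[ℂ] H) (hu : u ∈ unitary (H →L[ℂ] H)),
      ‖u - 1‖ ≤ 273 * γ + 273 * (Cc * (1093 * γ)) ∧
      Close B.M (conjVN N u hu) (1093 * γ + 4 * (273 * (Cc * (1093 * γ)))) ∧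
      (∀ g ∈ B.Γ.carrier, g ∈ conjVN N u hu) ∧
      ∀ g ∈ B.Γ.carrier, jop B.J g ∈ Set.centralizer (conjVN N u hu : Set (H →L[ℂ] H)) := by
  have hγ0 := hc.nonneg
  obtain ⟨u₁, hu₁, hn₁, -, h₁⟩ := near_group N B.Γ (γ := γ) (by linarith) fun g hg =>
    hc.1 g (B.memM g hg) (norm_le_one (Groups.unitary_carrier hg))
  set N₁ := conjVN N u₁ hu₁ with hN₁
  have hg₁ : ∀ g ∈ B.Γ.carrier, g ∈ N₁ := fun g hg => mem_conjVN.2 (h₁ g (mem_cc hg))
  have hc₁ : Close B.M N₁ (1093 * γ) := by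
    have := hc.conj (by linarith) hu₁ hn₁
    rwa [show γ + 4 * (273 * γ) = 1093 * γ by ring] at this
  obtain ⟨u₂, hu₂, hn₂, hmem₂, h₂⟩ :=
    near_group N₁.commutant B.mirrorGroups (γ := Cc * (1093 * γ)) hγc fun a ha => by
      obtain ⟨g, hg, rfl⟩ := B.mem_mirrorGroups.1 ha
      obtain ⟨b, hb, hab⟩ := hcn N₁.toStarSubalgebra B.M.toStarSubalgebra _ (by positivity)
        hc₁.2 _ (B.fits_M.jmem g hg) (by
          rw [B.conjM.norm_jop]; exact norm_le_one (Groups.unitary_carrier hg))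
      exact ⟨b, by rw [← SetLike.mem_coe, VonNeumannAlgebra.coe_commutant]; exact hb, hab⟩
  have hcomm : ∀ g ∈ B.Γ.carrier, g * u₂ = u₂ * g := fun g hg => hmem₂ g <| by
    rintro z (hz | hz)
    · rw [VonNeumannAlgebra.coe_commutant] at hz
      exact (hz g (hg₁ g hg)).symm
    · obtain ⟨h, hh, rfl⟩ := B.mem_mirrorGroups.1 hz
      exact (B.fits_M.jmem h hh g (B.memM g hg)).symm
  refine ⟨u₁ * u₂, mul_mem hu₁ hu₂, ?_, ?_, fun g hg => ?_, fun g hg => ?_⟩
  · rw [show u₁ * u₂ - 1 = (u₁ - 1) * u₂ + (u₂ - 1) by noncomm_ring]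
    refine (norm_add_le _ _).trans (add_le_add ?_ hn₂)
    exact ((norm_mul_le _ _).trans
      (mul_le_of_le_one_right (norm_nonneg _) (norm_le_one hu₂))).trans hn₁
  · have := hc₁.conj (by linarith) hu₂ hn₂
    have e : conjVN N (u₁ * u₂) (mul_mem hu₁ hu₂) = conjVN N₁ u₂ hu₂ :=
      SetLike.ext fun x => by simp [hN₁, star_mul, mul_assoc]
    rwa [e]
  · have := hg₁ g hg
    rw [mem_conjVN] at this ⊢
    rw [star_mul, mul_assoc u₁ u₂ g, ← hcomm g hg]
    simpa [mul_assoc, mul_assoc u₁, ← mul_assoc u₂ (star u₂), (Unitary.mem_iff.1 hu₂).2] using this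
  · have e : conjVN N (u₁ * u₂) (mul_mem hu₁ hu₂) = conjVN N₁ u₂ hu₂ :=
      SetLike.ext fun x => by simp [hN₁, star_mul, mul_assoc]
    rw [e]
    refine mem_commutant_conjVN ?_
    have := h₂ (jop B.J g) (mem_cc (B.mem_mirrorGroups.2 ⟨g, hg, rfl⟩))
    rwa [← SetLike.mem_coe, VonNeumannAlgebra.coe_commutant] at this

/-- The projection onto the closed orbit of an algebra. -/
theorem exists_support (A : StarSubalgebra ℂ (H →L[ℂ] H)) (ξ : H) :
    ∃ p : H →L[ℂ] H, p * p = p ∧ ‖p‖ ≤ 1 ∧ p ξ = ξ ∧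
      p ∈ Set.centralizer (A : Set (H →L[ℂ] H)) ∧
      (∀ c : H →L[ℂ] H, (∀ a ∈ A, c (a ξ) ∈ orbit (A : Set _) ξ) →
        (∀ a ∈ A, star c (a ξ) ∈ orbit (A : Set _) ξ) → c * p = p * c) ∧
      (p = 1 → Dense (orbit (A : Set _) ξ)) := by
  let e : A →ₗ[ℂ] H :=
    { toFun := fun x => (x : H →L[ℂ] H) ξ
      map_add' := fun _ _ => rfl
      map_smul' := fun _ _ => rfl }
  have he : (LinearMap.range e : Set H) = orbit (A : Set _) ξ :=
    Set.ext fun v => ⟨fun ⟨x, h⟩ => ⟨x.1, x.2, h⟩, fun ⟨x, hx, h⟩ => ⟨⟨x, hx⟩, h⟩⟩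
  set K := (LinearMap.range e).topologicalClosure with hK
  have : CompleteSpace K :=
    (Submodule.isClosed_topologicalClosure (LinearMap.range e)).completeSpace_coe
  have hcl : (K : Set H) = closure (orbit (A : Set _) ξ) := by
    rw [hK, Submodule.topologicalClosure_coe, he]
  have hinv : ∀ c : H →L[ℂ] H, (∀ a ∈ A, c (a ξ) ∈ orbit (A : Set _) ξ) →
      (∀ a ∈ A, star c (a ξ) ∈ orbit (A : Set _) ξ) →
      c * K.starProjection = K.starProjection * c := by
    intro c hc hc'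
    have hm : ∀ d : H →L[ℂ] H, (∀ a ∈ A, d (a ξ) ∈ orbit (A : Set _) ξ) → ∀ v ∈ K, d v ∈ K := by
      intro d hd v hv
      rw [← SetLike.mem_coe, hcl] at hv ⊢
      exact map_mem_closure d.continuous hv (by rintro _ ⟨a, ha, rfl⟩; exact hd a ha)
    refine ContinuousLinearMap.ext fun v => ?_
    refine Submodule.eq_starProjection_of_mem_of_inner_eq_zero
      (hm c hc _ (K.starProjection_apply_mem v)) (fun w hw => ?_) |>.symm
    show ⟪c v - c (K.starProjection v), w⟫_ℂ = 0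
    rw [← map_sub, ← ContinuousLinearMap.adjoint_inner_right,
      ← ContinuousLinearMap.star_eq_adjoint]
    exact Submodule.starProjection_inner_eq_zero v _ (hm _ hc' w hw)
  refine ⟨K.starProjection, K.isIdempotentElem_starProjection, K.starProjection_norm_le,
    Submodule.starProjection_eq_self_iff.2 ?_, fun a ha => hinv a ?_ ?_, hinv, fun hp v => ?_⟩
  · rw [← SetLike.mem_coe, hcl]
    exact subset_closure ⟨1, one_mem A, rfl⟩
  · exact fun b hb => ⟨a * b, mul_mem ha hb, rfl⟩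
  · exact fun b hb => ⟨star a * b, mul_mem (star_mem (show a ∈ A from ha)) hb, rfl⟩
  · rw [← hcl]
    refine Submodule.starProjection_eq_self_iff.1 ?_
    rw [hp]
    rfl

variable {B}

/-- The moved algebra fits and has a cyclic vector. -/
theorem fits_of_common {Cc : ℝ}
    (hcn : ∀ (M N : StarSubalgebra ℂ (H →L[ℂ] H)) (γ : ℝ),
      0 ≤ γ → (∀ x ∈ M, ‖x‖ ≤ 1 → ∃ y ∈ N, ‖x - y‖ ≤ γ) →
      ∀ a ∈ Set.centralizer (N : Set (H →L[ℂ] H)), ‖a‖ ≤ 1 →
        ∃ b ∈ Set.centralizer (M : Set (H →L[ℂ] H)), ‖a - b‖ ≤ Cc * γ)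
    {S : VonNeumannAlgebra H} {γ : ℝ} (hc : Close B.M S γ) (hγ : γ < 1 / 2)
    (hγc : Cc * γ < 1 / 2) (hmem : ∀ g ∈ B.Γ.carrier, g ∈ S)
    (hj : ∀ g ∈ B.Γ.carrier, jop B.J g ∈ Set.centralizer (S : Set (H →L[ℂ] H))) :
    B.Fits S ∧ Dense (orbit (S : Set (H →L[ℂ] H)) B.ξ) := by
  have hjξ : ∀ g ∈ B.Γ.carrier, g B.ξ = jop B.J (star g) B.ξ := fun g hg => by
    rw [Base.xi_star (Groups.star_carrier hg), star_star]
  constructor
  · refine ⟨hmem, hj, ?_⟩
    obtain ⟨p, hpp, hpn, hpξ, hpA, hpc, hd⟩ :=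
      exists_support S.commutant.toStarSubalgebra B.ξ
    have hoc : (S.commutant.toStarSubalgebra : Set (H →L[ℂ] H)) =
        Set.centralizer (S : Set (H →L[ℂ] H)) := VonNeumannAlgebra.coe_commutant S
    rw [hoc] at hd hpc hpA
    have hpS : p ∈ S := mem_of_commute_all S hpA
    obtain ⟨d, hdM, hdn⟩ := hc.2 p hpS hpn
    refine hd (Base.eq_one_of_near hpp (fun g hg => ?_) hpξ hdM hdn hγ)
    have hcase : ∀ k ∈ B.Γ.carrier, ∀ a ∈ S.commutant.toStarSubalgebra,
        k (a B.ξ) ∈ orbit (Set.centralizer (S : Set (H →L[ℂ] H))) B.ξ := fun k hk a ha => by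
      rw [← SetLike.mem_coe, hoc] at ha
      refine ⟨a * jop B.J (star k), Set.mul_mem_centralizer ha (hj _ (Groups.star_carrier hk)), ?_⟩
      show (a * jop B.J (star k)) B.ξ = k (a B.ξ)
      rw [mul_apply_eq_comp, ← hjξ k hk, ← mul_apply_eq_comp a, ← ha k (hmem k hk),
        mul_apply_eq_comp]
    exact hpc g (hcase g hg) (hcase _ (Groups.star_carrier hg))
  · obtain ⟨q, hqq, hqn, hqξ, hqA, hqc, hd⟩ := exists_support S.toStarSubalgebra B.ξ
    obtain ⟨b, hb, hqb⟩ := hcn B.M.toStarSubalgebra S.toStarSubalgebra γ hc.nonneg hc.1 q hqA hqn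
    have hbM : jop B.J b ∈ B.M := by
      have := IsConj.jop_commutant (S := B.M.toStarSubalgebra) B.conjM B.std.dense hb
      exact mem_of_commute_all B.M this
    refine hd ?_
    have hcase : ∀ k ∈ B.Γ.carrier, ∀ a ∈ S.toStarSubalgebra,
        jop B.J k (a B.ξ) ∈ orbit (S : Set (H →L[ℂ] H)) B.ξ := fun k hk a ha => by
      refine ⟨a * star k, mul_mem (show a ∈ S from ha) (star_mem (hmem k hk)), ?_⟩
      show (a * star k) B.ξ = jop B.J k (a B.ξ)
      rw [mul_apply_eq_comp, ← Base.xi_star hk, ← mul_apply_eq_comp a, hj k hk a ha,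
        mul_apply_eq_comp]
    have h1 : jop B.J q = 1 := by
      refine Base.eq_one_of_near ?_ (fun g hg => ?_) ?_ hbM ?_ hγc
      · rw [← B.conjM.jop_mul, hqq]
      · have := congrArg (jop B.J) (hqc (jop B.J g) (hcase g hg) (by
          rw [B.conjM.star_jop]; exact hcase _ (Groups.star_carrier hg)))
        rwa [B.conjM.jop_mul, B.conjM.jop_mul, B.conjM.jop_jop] at this
      · rw [jop_apply, B.conjM.apply_xi (one_mem B.M), hqξ, B.conjM.apply_xi (one_mem B.M)]
      · rw [← B.conjM.jop_sub, B.conjM.norm_jop]; exact hqb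
    rw [← B.conjM.jop_jop q, h1, B.conjM.jop_one]

/-- Self-adjoint elements of an algebra near `M` are near self-adjoint elements of `M`. -/
lemma saNear_of_close {S : VonNeumannAlgebra H} {γ : ℝ} (hc : Close B.M S γ) : SaNear B S γ := by
  intro y hy hys
  rcases eq_or_ne (‖y‖) 0 with h0 | h0
  · exact ⟨0, zero_mem _, .zero _, by simp [norm_eq_zero.1 h0]⟩
  have hy1 : ‖((‖y‖⁻¹ : ℝ) : ℂ) • y‖ ≤ 1 := by
    rw [norm_smul, Complex.norm_real, norm_inv, norm_norm, inv_mul_cancel₀ h0]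
  obtain ⟨d, hd, hdn⟩ := hc.2 _ (vn_smul _ hy) hy1
  refine ⟨(‖y‖ : ℂ) • ((1 / 2 : ℂ) • (d + star d)), vn_smul _ (vn_smul _ (add_mem hd (star_mem hd))),
    ?_, ?_⟩
  · rw [IsSelfAdjoint, star_smul, (sa_half d).star_eq, Complex.star_def, Complex.conj_ofReal]
  · set z := ((‖y‖⁻¹ : ℝ) : ℂ) • y
    have hz : IsSelfAdjoint z := by
      rw [IsSelfAdjoint, star_smul, hys.star_eq, Complex.star_def, Complex.conj_ofReal]
    have hy' : (‖y‖ : ℂ) • z = y := by
      simp only [z, smul_smul, Complex.ofReal_inv]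
      rw [mul_inv_cancel₀ (Complex.ofReal_ne_zero.2 h0), one_smul]
    have e : y - (‖y‖ : ℂ) • ((1 / 2 : ℂ) • (d + star d)) =
        (‖y‖ : ℂ) • ((1 / 2 : ℂ) • ((z - d) + star (z - d))) := by
      rw [star_sub, hz.star_eq]
      nth_rewrite 1 [← hy']
      module
    have e2 : ‖(z - d) + star (z - d)‖ ≤ 2 * γ :=
      (norm_add_le _ _).trans (by rw [norm_star]; linarith)
    rw [e, norm_smul, norm_smul, Complex.norm_real, norm_norm, mul_comm γ]
    refine mul_le_mul_of_nonneg_left ?_ (norm_nonneg y)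
    rw [show ‖(1 / 2 : ℂ)‖ = 1 / 2 by norm_num]
    linarith

end Vale.Agent.P096.Full.Reduce
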