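import Vale.Agent.P096.Lit.Statement

/-!
P096, reduction: the two halves. The statement for algebras in standard form, and what standard
form means.
-/

open scoped InnerProductSpace

namespace Vale.Agent.P096.Full.Reduce

universe u

variable {H : Type u} [NormedAddCommGroup H] [InnerProductSpace ℂ H] [CompleteSpace H]

/-- `ξ` is a unit vector, cyclic and separating for `M`, whose vector state is a trace on `M`. -/
structure TracialCyclic (M : VonNeumannAlgebra H) (ξ : H) : Prop where
  norm_eq : ‖ξ‖ = 1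
  trace : ∀ x ∈ M, ∀ y ∈ M, ⟪ξ, x (y ξ)⟫_ℂ = ⟪ξ, y (x ξ)⟫_ℂ
  separating : ∀ x ∈ M, x ξ = 0 → x = 0
  dense : Dense ((fun x : H →L[ℂ] H => x ξ) '' (M : Set (H →L[ℂ] H)))

/-- The target for an algebra in standard form. -/
def StdTarget : Prop :=
  ∃ δ C : ℝ, 0 < δ ∧ ∀ (H : Type u) [NormedAddCommGroup H] [InnerProductSpace ℂ H]
    [CompleteSpace H] (M N : VonNeumannAlgebra H) (ξ : H) (γ : ℝ),
    TracialCyclic M ξ → Lit.IsCountablyGenerated H M → γ < δ → Lit.IsClose H M N γ →
      NearConj M N (C * γ)

/-- The target for finite algebras with separable predual, in any representation. -/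
def FiniteTarget : Prop :=
  ∃ δ C : ℝ, 0 < δ ∧ ∀ (H : Type u) [NormedAddCommGroup H] [InnerProductSpace ℂ H]
    [CompleteSpace H] (M N : VonNeumannAlgebra H) (γ : ℝ),
    (∃ ξ : ℕ → H, Lit.IsFaithfulTrace H M ξ) → Lit.IsCountablyGenerated H M → γ < δ →
      Lit.IsClose H M N γ → NearConj M N (C * γ)

/-- The reduction to standard form. -/
def StandardForm : Prop := StdTarget.{u} → FiniteTarget.{u}

end Vale.Agent.P096.Full.Reduce
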