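import Vale.Agent.P096.Full.Reduce.Amplify
import Vale.Agent.P096.Full.Reduce.Spec

/-!
P096, reduction: from algebras in standard form to all representations. The commutants of the
amplified algebras have a corner on which the algebra is in standard form.
-/

open scoped InnerProductSpace
open Vale.Agent.P096.Two

namespace Vale.Agent.P096.Full.Reduce

universe u

variable {H : Type u} [NormedAddCommGroup H] [InnerProductSpace ℂ H] [CompleteSpace H]

/-- A unitary carrying `M` onto `N` carries the commutant onto the commutant. -/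
theorem nearConj_commutant {M N : VonNeumannAlgebra H} {c : ℝ} (h : NearConj M N c) :
    NearConj M.commutant N.commutant c := by
  obtain ⟨u, hu, hu1, h1, h2⟩ := h
  have hU := unitary_of_isUnitaryOp hu
  obtain ⟨huu, huu'⟩ := Unitary.mem_iff.1 hU
  have k1 : ∀ z : H →L[ℂ] H, u * (star u * z) = z := fun z => by rw [← mul_assoc, huu', one_mul]
  have k2 : ∀ z : H →L[ℂ] H, star u * (u * z) = z := fun z => by rw [← mul_assoc, huu, one_mul]
  refine ⟨u, hu, hu1, fun a ha => ⟨u * a * star u, ?_, intertwines_of_eq hU rfl⟩,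
    fun b hb => ⟨star u * b * u, ?_, intertwines_of_eq hU ?_⟩⟩
  · refine VonNeumannAlgebra.mem_commutant_iff.2 fun y hy => ?_
    obtain ⟨x, hx, hxy⟩ := h2 y hy
    rw [eq_of_intertwines hU hxy]
    simp only [mul_assoc, k2]
    rw [← mul_assoc x a, VonNeumannAlgebra.mem_commutant_iff.1 ha x hx, mul_assoc]
  · refine VonNeumannAlgebra.mem_commutant_iff.2 fun x hx => ?_
    obtain ⟨y, hy, hxy⟩ := h1 x hx
    have e := VonNeumannAlgebra.mem_commutant_iff.1 hb y hy
    rw [eq_of_intertwines hU hxy] at e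
    have e' := congrArg (fun z => star u * z * u) e
    simp only [mul_assoc, k2, huu, mul_one] at e' ⊢
    exact e'
  · simp only [mul_assoc, k1, huu', mul_one]

/-- What commutes with a corner is a compression of the commutant. -/
theorem exists_ext_corner {N : VonNeumannAlgebra H} {K : Submodule ℂ H} [CompleteSpace K]
    (hN : hull N K = ⊤) (hP : K.starProjection ∈ N) {T : K →L[ℂ] K}
    (hT : T ∈ (corner K N).commutant) : ∃ b ∈ N.commutant, cmp K b = T := by
  haveI : IsClosed ((corner K N).commutant.toStarSubalgebra : Set (K →L[ℂ] K)) :=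
    isClosed_commutant _
  have main : ∀ x : (corner K N).commutant.toStarSubalgebra,
      ∃ b ∈ N.commutant, cmp K b = (x : K →L[ℂ] K) := by
    intro x
    have hx : x ∈ Submodule.span ℂ (unitary (corner K N).commutant.toStarSubalgebra : Set _) := by
      rw [CStarAlgebra.span_unitary]; trivial
    induction hx using Submodule.span_induction with
    | mem v hv =>
      obtain ⟨h1, h2⟩ := Unitary.mem_iff.1 hv
      obtain ⟨b, hb, hbk⟩ := exists_ext_unitary hN hP
        (Unitary.mem_iff.2 ⟨congrArg Subtype.val h1, congrArg Subtype.val h2⟩) fun n hn =>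
          (VonNeumannAlgebra.mem_commutant_iff.1 v.2 _
            ((isCorner_corner K N hP _).2 ⟨n, hn, rfl⟩)).symm
      refine ⟨b, hb, ContinuousLinearMap.ext fun k => Subtype.ext ?_⟩
      rw [cmp_apply, hbk k, proj_coe]
    | zero => exact ⟨0, zero_mem _, ContinuousLinearMap.ext fun k => Subtype.ext (by simp [cmp_apply])⟩
    | add x y _ _ hx hy =>
      obtain ⟨b, hb, e⟩ := hx
      obtain ⟨b', hb', e'⟩ := hy
      exact ⟨b + b', add_mem hb hb', by rw [cmp_add, e, e']; rfl⟩
    | smul c x _ hx =>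
      obtain ⟨b, hb, e⟩ := hx
      exact ⟨c • b, N.commutant.toStarSubalgebra.toSubalgebra.smul_mem hb c,
        by rw [cmp_smul, e]; rfl⟩
  exact main ⟨T, hT⟩

/-- A countably generated algebra stays so on the corner of its amplification. -/
theorem corner_generated {M : VonNeumannAlgebra H} (hg : Lit.IsCountablyGenerated H M)
    {K : Submodule ℂ (Copies H)} [CompleteSpace K] {A : VonNeumannAlgebra K}
    (hAmem : ∀ T : K →L[ℂ] K, T ∈ A ↔ ∃ x ∈ M, cmp K (rep x) = T)
    (hPx : ∀ x ∈ M, rep x * K.starProjection = K.starProjection * rep x) :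
    Lit.IsCountablyGenerated K A := by
  obtain ⟨g, hgM, hgc⟩ := hg
  refine ⟨fun n => cmp K (rep (g n)), fun n => (hAmem _).2 ⟨g n, hgM n, rfl⟩, ?_⟩
  intro T hT Y hY k
  obtain ⟨x, hx, rfl⟩ := (hAmem Y).1 hY
  set S := ext' K T with hS
  have hSP : S * K.starProjection = S ∧ K.starProjection * S = S := by
    constructor <;> refine ContinuousLinearMap.ext fun f => ?_
    · rw [mul_apply_eq_comp, hS, ext'_apply, ext'_apply]
      congr 2
      exact Subtype.ext (DFunLike.congr_fun K.isIdempotentElem_starProjection.eq f)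
    · rw [mul_apply_eq_comp, hS, ext'_apply, proj_coe]
  have hSg : ∀ n, rep (g n) * S = S * rep (g n) := fun n => by
    have e : cmp K (rep (g n)) * T = T * cmp K (rep (g n)) :=
      ContinuousLinearMap.ext fun v => hT _ ⟨n, rfl⟩ v
    have e' := congrArg (ext' K) e
    rw [ext'_mul, ext'_mul, ext'_cmp, ← hS, mul_assoc _ K.starProjection S, hSP.2,
      ← hPx _ (hgM n), mul_assoc (rep (g n)) K.starProjection S, hSP.2] at e'
    rw [e', mul_assoc (rep (g n)), K.isIdempotentElem_starProjection.eq, hPx _ (hgM n),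
      ← mul_assoc, hSP.1]
  have hent : ∀ i j : ℕ, ∀ h : H, x (get i (S (put j h))) = get i (S (put j (x h))) := by
    intro i j h
    have hE : (get i).comp (S.comp (put j)) ∈ commutantSet (Set.range g) := by
      rintro _ ⟨n, rfl⟩ h
      have e := congrArg (fun T : Copies H →L[ℂ] Copies H => get i (T (put j h))) (hSg n)
      simp only [mul_apply_eq_comp, rep_put] at e
      exact e
    exact hgc hE x hx h
  have hSx : rep x * S = S * rep x := ext_put fun j h => lp.ext (funext fun i => by
    rw [mul_apply_eq_comp, mul_apply_eq_comp, rep_put, rep_apply, ← get_apply, hent,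
      get_apply])
  have e := congrArg (cmp K) hSx
  rw [cmp_mul_left K _ _ (hPx x hx), cmp_mul_right K _ _ (hPx x hx), hS, cmp_ext'] at e
  exact DFunLike.congr_fun e k

/-- The amplified algebra has a corner of its commutant on which it is in standard form. -/
theorem exists_corner {M : VonNeumannAlgebra H} (hM : ∃ ξ : ℕ → H, Lit.IsFaithfulTrace H M ξ)
    (hg : Lit.IsCountablyGenerated H M) :
    ∃ (K : Submodule ℂ (Copies H)) (_ : CompleteSpace K),
      K.starProjection ∈ (repAlg M).commutant ∧ Full (repAlg M).commutant K ∧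
      ∃ ζ : K, TracialCyclic (corner K (repAlg M).commutant).commutant ζ ∧
        Lit.IsCountablyGenerated K (corner K (repAlg M).commutant).commutant := by
  obtain ⟨ξ, hξ1, htr, hfaith⟩ := hM
  -- the vector of the trace
  have hmem : Memℓp (fun n => ξ n) 2 := by
    refine memℓp_gen ?_
    simpa using hξ1.summable
  set Ξ : Copies H := ⟨fun n => ξ n, hmem⟩
  have hΞ : ∀ n, (Ξ : ∀ _, H) n = ξ n := fun _ => rfl
  set X := repAlg M with hX
  set R := X.commutant with hR
  set K := hull X (Submodule.span ℂ {Ξ}) with hKdef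
  have hPR : K.starProjection ∈ R := hull_mem_commutant X _
  have hcyc : ∀ x ∈ M, rep x Ξ ∈ K := fun x hx =>
    mem_hull ((mem_repAlg M).2 ⟨x, hx, rfl⟩) (Submodule.mem_span_singleton_self Ξ)
  have hΞK : Ξ ∈ K := by
    have := hcyc 1 (one_mem M)
    rwa [← repHom_apply, map_one] at this
  have hnorm : ‖Ξ‖ = 1 := by
    have e : ‖Ξ‖ ^ 2 = 1 := by
      rw [← inner_self_eq_norm_sq (𝕜 := ℂ), lp.inner_eq_tsum, RCLike.re_tsum ℂ (lp.summable_inner (𝕜 := ℂ) Ξ Ξ)]
      simp only [inner_self_eq_norm_sq, hΞ]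
      exact hξ1.tsum_eq
    exact (pow_eq_one_iff_of_nonneg (norm_nonneg _) two_ne_zero).1 e
  have hXc : R.commutant = X := X.commutant_commutant
  have hzero : ∀ x ∈ M, rep x Ξ = 0 → x = 0 := fun x hx e =>
    ContinuousLinearMap.ext fun h => hfaith x hx (fun n => by
      have := congrArg (fun f : Copies H => f n) e
      simpa [rep_apply, hΞ] using this) h
  have hFull : Full R K := fun a ha haK => by
    rw [hXc] at ha
    obtain ⟨x, hx, rfl⟩ := (mem_repAlg M).1 ha
    have e := DFunLike.congr_fun haK Ξ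
    rw [mul_apply_eq_comp, Submodule.starProjection_eq_self_iff.2 hΞK] at e
    rw [hzero x hx e, ← repHom_apply, map_zero]
  have hfull := hFull.dense
  -- the algebra on the corner
  set A := (corner K R).commutant
  have hPx : ∀ x ∈ M, rep x * K.starProjection = K.starProjection * rep x := fun x hx =>
    VonNeumannAlgebra.mem_commutant_iff.1 hPR _ ((mem_repAlg M).2 ⟨x, hx, rfl⟩)
  have hAmem : ∀ T : K →L[ℂ] K, T ∈ A ↔ ∃ x ∈ M, cmp K (rep x) = T := by
    intro T
    constructor
    · intro h
      obtain ⟨b, hb, e⟩ := exists_ext_corner hfull hPR h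
      rw [hXc] at hb
      obtain ⟨x, hx, rfl⟩ := (mem_repAlg M).1 hb
      exact ⟨x, hx, e⟩
    · rintro ⟨x, hx, rfl⟩
      refine VonNeumannAlgebra.mem_commutant_iff.2 fun g hg => ?_
      obtain ⟨m, hm, rfl⟩ := (isCorner_corner K R hPR g).1 hg
      show cmp K m * cmp K (rep x) = cmp K (rep x) * cmp K m
      rw [← cmp_mul_right K _ _ (hPx x hx), ← cmp_mul_left K _ _ (hPx x hx),
        (mem_repAlg_commutant M).1 hm x hx]
  set ζ : K := ⟨Ξ, hΞK⟩ with hζ
  have happ : ∀ x ∈ M, ((cmp K (rep x) ζ : K) : Copies H) = rep x Ξ := fun x hx => by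
    rw [cmp_apply]
    exact Submodule.starProjection_eq_self_iff.2 (hcyc x hx)
  have hcmp : ∀ x ∈ M, ∀ y, cmp K (rep x) * cmp K (rep y) = cmp K (rep (x * y)) := fun x hx y => by
    rw [← cmp_mul_left K _ _ (hPx x hx), ← repHom_apply x, ← repHom_apply y, ← map_mul,
      repHom_apply]
  have hTC : TracialCyclic A ζ := by
    refine ⟨hnorm, ?_, ?_, ?_⟩
    · intro S hS T hT
      obtain ⟨x, hx, rfl⟩ := (hAmem S).1 hS
      obtain ⟨y, hy, rfl⟩ := (hAmem T).1 hT
      rw [← mul_apply_eq_comp, ← mul_apply_eq_comp, hcmp x hx, hcmp y hy, Submodule.coe_inner,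
        Submodule.coe_inner, happ _ (mul_mem hx hy), happ _ (mul_mem hy hx)]
      simp only [hζ, lp.inner_eq_tsum, rep_apply, hΞ]
      exact htr x hx y hy
    · intro S hS e
      obtain ⟨x, hx, rfl⟩ := (hAmem S).1 hS
      have e' : rep x Ξ = 0 := by rw [← happ x hx, e]; rfl
      rw [hzero x hx e', ← repHom_apply, map_zero]
      exact ContinuousLinearMap.ext fun k => Subtype.ext (by simp [cmp_apply])
    · rw [Subtype.dense_iff]
      intro k hk
      let Φ : M.toStarSubalgebra.toSubalgebra.toSubmodule →ₗ[ℂ] Copies H :=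
        { toFun := fun x => rep x Ξ
          map_add' := fun x y => by
            show rep ((x : H →L[ℂ] H) + (y : H →L[ℂ] H)) Ξ = _
            rw [← repHom_apply, map_add]; rfl
          map_smul' := fun c x => by
            show rep (c • (x : H →L[ℂ] H)) Ξ = c • rep (x : H →L[ℂ] H) Ξ
            rw [← repHom_apply, map_smul]; rfl }
      have hle : K ≤ (LinearMap.range Φ).topologicalClosure := by
        refine Submodule.topologicalClosure_mono (Submodule.span_le.2 ?_)
        rintro _ ⟨T, hT, v, hv, rfl⟩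
        obtain ⟨x, hx, rfl⟩ := (mem_repAlg M).1 hT
        obtain ⟨c, rfl⟩ := Submodule.mem_span_singleton.1 hv
        rw [map_smul]
        exact (LinearMap.range Φ).smul_mem c ⟨⟨x, hx⟩, rfl⟩
      refine closure_mono ?_ (hle hk)
      rintro _ ⟨x, rfl⟩
      exact ⟨cmp K (rep (x : H →L[ℂ] H)) ζ, ⟨_, (hAmem _).2 ⟨x, x.2, rfl⟩, rfl⟩, happ x x.2⟩
  exact ⟨K, inferInstance, hPR, hFull, ζ, hTC, corner_generated hg hAmem hPx⟩

/-- A conjugacy of the amplified algebras gives a near isomorphism. -/
theorem nearIso_of_rep {M N : VonNeumannAlgebra H} {c : ℝ}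
    (h : NearConj (repAlg M) (repAlg N) c) : NearIso M N (2 * c) := by
  obtain ⟨u, hu, hu1, h1, h2⟩ := h
  have hU := unitary_of_isUnitaryOp hu
  obtain ⟨huu, huu'⟩ := Unitary.mem_iff.1 hU
  set θ : (H →L[ℂ] H) → (H →L[ℂ] H) := fun x => (get 0).comp ((u * rep x * star u).comp (put 0))
  have hθ : ∀ x ∈ M, θ x ∈ N ∧ rep (θ x) = u * rep x * star u := fun x hx => by
    obtain ⟨T, hT, hxT⟩ := h1 _ ((mem_repAlg M).2 ⟨x, hx, rfl⟩)
    obtain ⟨y, hy, rfl⟩ := (mem_repAlg N).1 hT
    have e := eq_of_intertwines hU hxT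
    have e2 : θ x = y := ContinuousLinearMap.ext fun h => by
      show get 0 ((u * rep x * star u) (put 0 h)) = y h
      rw [← e, rep_put, get_put, if_pos rfl]
    exact ⟨e2 ▸ hy, by rw [e2, e]⟩
  have k2 : ∀ z : Copies H →L[ℂ] Copies H, star u * (u * z) = z := fun z => by
    rw [← mul_assoc, huu, one_mul]
  refine ⟨θ, ⟨?_, ?_, ?_, ?_⟩, ?_, fun x hx => (hθ x hx).1, ?_⟩
  · intro v
    have e : θ 1 = 1 := rep_injective <| by
      rw [(hθ 1 (one_mem M)).2, ← repHom_apply, map_one, mul_one, huu']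
    exact DFunLike.congr_fun e v
  · intro x hx y hy z hz c hc v
    have ez : z = c • x + y := ContinuousLinearMap.ext hc
    subst ez
    have e : θ (c • x + y) = c • θ x + θ y := rep_injective <| by
      rw [(hθ _ hz).2, ← repHom_apply, ← repHom_apply, map_add, map_add, map_smul, map_smul,
        repHom_apply, repHom_apply, repHom_apply, repHom_apply, (hθ x hx).2, (hθ y hy).2]
      simp [mul_add, add_mul]
    exact DFunLike.congr_fun e v
  · intro x hx y hy z hz hxyz v
    have ez : z = x * y := ContinuousLinearMap.ext hxyz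
    subst ez
    have e : θ (x * y) = θ x * θ y := rep_injective <| by
      rw [(hθ _ hz).2, ← repHom_apply, ← repHom_apply, map_mul, map_mul, repHom_apply,
        repHom_apply, repHom_apply, repHom_apply, (hθ x hx).2, (hθ y hy).2]
      simp only [mul_assoc, k2]
    exact DFunLike.congr_fun e v
  · intro x hx y hy hxy
    rw [eq_star_of_isAdjOp hxy]
    have e : θ (star x) = star (θ x) := rep_injective <| by
      rw [(hθ _ (star_mem hx)).2, ← repHom_apply, ← repHom_apply, map_star, map_star,
        repHom_apply, repHom_apply, (hθ x hx).2]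
      simp [star_mul, mul_assoc]
    rw [e]
    exact isAdjOp_star _
  · intro x hx
    show ‖θ x - x‖ ≤ 2 * c * ‖x‖
    rw [← norm_rep (θ x - x), ← repHom_apply, map_sub, repHom_apply, repHom_apply, (hθ x hx).2,
      ← norm_rep x]
    have hu1' : ‖u - 1‖ ≤ c := hu1
    have h0 := norm_conj_sub_le hU (rep x)
    nlinarith [mul_le_mul_of_nonneg_right hu1' (norm_nonneg (rep x))]
  · intro y hy
    obtain ⟨T, hT, hTy⟩ := h2 _ ((mem_repAlg N).2 ⟨y, hy, rfl⟩)
    obtain ⟨x, hx, rfl⟩ := (mem_repAlg M).1 hT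
    exact ⟨x, hx, rep_injective ((hθ x hx).2.trans (eq_of_intertwines hU hTy).symm)⟩

/-- The reduction to standard form. -/
theorem standardForm : StandardForm.{u} := by
  rintro ⟨δ, C, hδ, hT⟩
  obtain ⟨C₁, hC₁, hcn⟩ := commutant_near.{u}
  obtain ⟨C₅, hC₅, hfin⟩ := Vale.Agent.P096.final.{u}
  obtain ⟨δ₁, L, hδ₁, hL, hcc⟩ := conj_of_corner.{u} (max C 0 * C₁) (by positivity)
  refine ⟨min (δ₁ / (C₁ + 1)) (min (δ / (700 * (C₁ + 1) * (C₁ + 1)))
    (1 / (2 * C₅ * L * C₁ + 1))), C₅ * (2 * (L * C₁)), by positivity, ?_⟩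
  intro H _ _ _ M N γ hM hg hlt hclose
  simp only [lt_min_iff] at hlt
  obtain ⟨hlt1, hlt2, hlt3⟩ := hlt
  have hγ0 : 0 ≤ γ := by
    obtain ⟨x, _, hx⟩ := hclose.1 0 (zero_mem _)
      (ContinuousLinearMap.opNorm_le_bound _ zero_le_one fun z => by simp)
    exact (norm_nonneg _).trans hx
  obtain ⟨K, hKc, hPR, hRF, ζ, hTC, hAg⟩ := exists_corner hM hg
  haveI := hKc
  set X := repAlg M with hX
  set R := X.commutant with hR
  have hXc : R.commutant = X := X.commutant_commutant
  have hclR : Lit.IsClose (Copies H) R (repAlg N).commutant (C₁ * γ) := by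
    have hc := repAlg_close M hclose
    refine ⟨fun a ha ha1 => ?_, fun a ha ha1 => ?_⟩
    · obtain ⟨b, hb, hab⟩ := hcn (Copies H) (repAlg N).toStarSubalgebra X.toStarSubalgebra γ hγ0
        (fun z hz h1 => hc.2 z hz h1) a
        (Set.mem_centralizer_iff.2 (VonNeumannAlgebra.mem_commutant_iff.1 ha)) ha1
      exact ⟨b, VonNeumannAlgebra.mem_commutant_iff.2 hb, hab⟩
    · obtain ⟨b, hb, hab⟩ := hcn (Copies H) X.toStarSubalgebra (repAlg N).toStarSubalgebra γ hγ0
        (fun z hz h1 => hc.1 z hz h1) a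
        (Set.mem_centralizer_iff.2 (VonNeumannAlgebra.mem_commutant_iff.1 ha)) ha1
      exact ⟨b, VonNeumannAlgebra.mem_commutant_iff.2 hb, hab⟩
  -- the corner solver
  have hγ1 : C₁ * γ < δ₁ := by
    rw [lt_div_iff₀ (by positivity)] at hlt1
    nlinarith
  have hconj := hcc (Copies H) R (repAlg N).commutant K (C₁ * γ) hRF hPR hγ1 hclR
    fun N₁ _ hcl => by
      have hclA : Lit.IsClose K (corner K R).commutant (corner K N₁).commutant (C₁ * (700 * (C₁ * γ))) := by
        refine ⟨fun a ha ha1 => ?_, fun a ha ha1 => ?_⟩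
        · obtain ⟨b, hb, hab⟩ := hcn K (corner K N₁).toStarSubalgebra (corner K R).toStarSubalgebra
            (700 * (C₁ * γ)) (by positivity) (fun z hz h1 => hcl.2 z hz h1) a
            (Set.mem_centralizer_iff.2 (VonNeumannAlgebra.mem_commutant_iff.1 ha)) ha1
          exact ⟨b, VonNeumannAlgebra.mem_commutant_iff.2 hb, hab⟩
        · obtain ⟨b, hb, hab⟩ := hcn K (corner K R).toStarSubalgebra (corner K N₁).toStarSubalgebra
            (700 * (C₁ * γ)) (by positivity) (fun z hz h1 => hcl.1 z hz h1) a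
            (Set.mem_centralizer_iff.2 (VonNeumannAlgebra.mem_commutant_iff.1 ha)) ha1
          exact ⟨b, VonNeumannAlgebra.mem_commutant_iff.2 hb, hab⟩
      have hlt' : C₁ * (700 * (C₁ * γ)) < δ := by
        rw [lt_div_iff₀ (by positivity)] at hlt2
        nlinarith [mul_nonneg hC₁ hγ0]
      have h := nearConj_commutant
        (hT K (corner K R).commutant (corner K N₁).commutant ζ _ hTC hAg hlt' hclA)
      rw [show (corner K R).commutant.commutant = corner K R from VonNeumannAlgebra.commutant_commutant _,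
        VonNeumannAlgebra.commutant_commutant] at h
      obtain ⟨w, hw, hw1, h1, h2⟩ := h
      refine ⟨w, hw, hw1.trans ?_, h1, h2⟩
      rw [← mul_assoc C, mul_assoc (max C 0)]
      exact le_trans (le_of_eq (by ring))
        (mul_le_mul_of_nonneg_right (le_max_left C 0) (by positivity : 0 ≤ C₁ * (700 * (C₁ * γ))))
  have hconjX := nearConj_commutant hconj
  rw [hXc, VonNeumannAlgebra.commutant_commutant] at hconjX
  have hiso : NearIso M N (2 * (L * C₁) * γ) := by
    have := nearIso_of_rep hconjX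
    rwa [show 2 * (L * C₁) * γ = 2 * (L * (C₁ * γ)) by ring]
  have hsmall : C₅ * (2 * (L * C₁) * γ) < 1 := by
    rw [lt_div_iff₀ (by positivity)] at hlt3
    nlinarith
  have hres := ((hfin H (2 * (L * C₁) * γ) (by positivity)).2.1 M N hsmall).1 hiso
  obtain ⟨v, hv, hv1, g1, g2⟩ := hres
  exact ⟨v, hv, hv1.trans_eq (by ring), g1, g2⟩

end Vale.Agent.P096.Full.Reduce
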