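import Vale.Agent.P096.Full.Amp

/-!
P096, reduction: the conjugation of an algebra with a tracial cyclic vector, and the commutation
theorem for it.
-/

open scoped InnerProductSpace ComplexConjugate

namespace Vale.Agent.P096.Full.Reduce

variable {H : Type} [NormedAddCommGroup H] [InnerProductSpace ℂ H] [CompleteSpace H]

/-- Operators agreeing on a dense set of vectors are equal. -/
lemma eq_of_dense {s : Set H} (hs : Dense s) {A B : H →L[ℂ] H} (h : ∀ v ∈ s, A v = B v) :
    A = B :=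
  DFunLike.ext' (Continuous.ext_on hs A.continuous B.continuous h)

/-- The vectors `x ξ`, `x ∈ S`. -/
def orbit (S : Set (H →L[ℂ] H)) (ξ : H) : Set H := (fun x : H →L[ℂ] H => x ξ) '' S

/-- `J` is the conjugation of `S` at `ξ`. -/
structure IsConj (S : Set (H →L[ℂ] H)) (ξ : H) (J : H ≃ₗᵢ⋆[ℂ] H) : Prop where
  invol : ∀ h, J (J h) = h
  apply_orbit : ∀ x ∈ S, J (x ξ) = star x ξ

theorem exists_conj (S : StarSubalgebra ℂ (H →L[ℂ] H)) (ξ : H) (hd : Dense (orbit (S : Set _) ξ))
    (hn : ∀ x ∈ S, ‖star x ξ‖ = ‖x ξ‖) : ∃ J, IsConj (S : Set _) ξ J := by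
  let e : S →ₗ[ℂ] H :=
    { toFun := fun x => (x : H →L[ℂ] H) ξ
      map_add' := fun _ _ => rfl
      map_smul' := fun _ _ => rfl }
  let f : S →ₛₗ[starRingEnd ℂ] H :=
    { toFun := fun x => star (x : H →L[ℂ] H) ξ
      map_add' := fun x y => by simp
      map_smul' := fun c x => by simp [star_smul] }
  have hde : DenseRange e := by
    refine hd.mono ?_
    rintro _ ⟨x, hx, rfl⟩
    exact ⟨⟨x, hx⟩, rfl⟩
  have hb : ∀ x, ‖f x‖ ≤ 1 * ‖e x‖ := fun x => by
    rw [one_mul]; exact (hn _ x.2).le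
  set F := f.extendOfNorm e
  have he : ∀ x ∈ S, F (x ξ) = star x ξ := fun x hx =>
    LinearMap.extendOfNorm_eq hde ⟨1, hb⟩ ⟨x, hx⟩
  have hFF : ∀ h, F (F h) = h := fun h =>
    congrFun (Continuous.ext_on hd (F.continuous.comp F.continuous) continuous_id (by
      rintro _ ⟨x, hx, rfl⟩
      show F (F (x ξ)) = x ξ
      rw [he x hx, he _ (star_mem (show x ∈ S from hx)), star_star])) h
  have hFn : ∀ h, ‖F h‖ = ‖h‖ := fun h =>
    congrFun (Continuous.ext_on hd F.continuous.norm continuous_norm (by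
      rintro _ ⟨x, hx, rfl⟩
      show ‖F (x ξ)‖ = ‖x ξ‖
      rw [he x hx, hn x hx])) h
  exact ⟨{ toFun := F
           map_add' := map_add F
           map_smul' := map_smulₛₗ F
           invFun := F
           left_inv := hFF
           right_inv := hFF
           norm_map' := hFn }, hFF, he⟩

/-- `J T J` as a linear operator. -/
noncomputable def jop (J : H ≃ₗᵢ⋆[ℂ] H) (T : H →L[ℂ] H) : H →L[ℂ] H :=
  (J.toContinuousLinearEquiv.toContinuousLinearMap).comp
    (T.comp J.toContinuousLinearEquiv.toContinuousLinearMap)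

variable {J : H ≃ₗᵢ⋆[ℂ] H}

omit [CompleteSpace H] in
@[simp] lemma jop_apply (T : H →L[ℂ] H) (h : H) : jop J T h = J (T (J h)) := rfl

omit [CompleteSpace H] in
lemma inner_conj_map (J : H ≃ₗᵢ⋆[ℂ] H) (x y : H) : ⟪J x, J y⟫_ℂ = conj ⟪x, y⟫_ℂ := by
  rw [inner_eq_sum_norm_sq_div_four, inner_eq_sum_norm_sq_div_four x y]
  have hI : (RCLike.I : ℂ) = Complex.I := rfl
  have e1 : J x - RCLike.I (K := ℂ) • J y = J (x + RCLike.I (K := ℂ) • y) := by
    simp [hI, map_add, LinearIsometryEquiv.map_smulₛₗ, sub_eq_add_neg]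
  have e2 : J x + RCLike.I (K := ℂ) • J y = J (x - RCLike.I (K := ℂ) • y) := by
    simp [hI, map_sub, LinearIsometryEquiv.map_smulₛₗ, sub_eq_add_neg]
  rw [← map_add J x y, ← map_sub J x y, e1, e2]
  simp only [LinearIsometryEquiv.norm_map]
  simp only [map_div₀, map_add, map_sub, map_mul, map_pow, map_ofNat, hI, Complex.conj_I,
    RCLike.ofReal_eq_complex_ofReal, Complex.coe_algebraMap, Complex.conj_ofReal]
  ring

namespace IsConj

variable {S : Set (H →L[ℂ] H)} {ξ : H} (hJ : IsConj S ξ J)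

include hJ

lemma jop_jop (T : H →L[ℂ] H) : jop J (jop J T) = T := by
  ext h; simp [hJ.invol]

lemma jop_mul (A B : H →L[ℂ] H) : jop J (A * B) = jop J A * jop J B := by
  ext h; simp [hJ.invol]

lemma inner_left (x y : H) : ⟪J x, y⟫_ℂ = conj ⟪x, J y⟫_ℂ := by
  rw [← inner_conj_map J, hJ.invol]

lemma star_jop (T : H →L[ℂ] H) : star (jop J T) = jop J (star T) := by
  rw [ContinuousLinearMap.star_eq_adjoint, eq_comm, ContinuousLinearMap.eq_adjoint_iff]
  intro x y
  rw [jop_apply, jop_apply, hJ.inner_left, ContinuousLinearMap.star_eq_adjoint,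
    ContinuousLinearMap.adjoint_inner_left, hJ.inner_left, Complex.conj_conj]

lemma jop_one : jop J 1 = 1 := by
  ext h; simp [hJ.invol]

lemma norm_jop (T : H →L[ℂ] H) : ‖jop J T‖ = ‖T‖ := by
  have h : ∀ A : H →L[ℂ] H, ‖jop J A‖ ≤ ‖A‖ := fun A =>
    ContinuousLinearMap.opNorm_le_bound _ (norm_nonneg _) fun x => by
      simpa using A.le_opNorm (J x)
  exact le_antisymm (h T) (by simpa [hJ.jop_jop] using h (jop J T))

lemma jop_sub (A B : H →L[ℂ] H) : jop J (A - B) = jop J A - jop J B := by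
  ext h; simp

lemma jop_mem_unitary {T : H →L[ℂ] H} (h : T ∈ unitary (H →L[ℂ] H)) :
    jop J T ∈ unitary (H →L[ℂ] H) := by
  rw [Unitary.mem_iff, hJ.star_jop, ← hJ.jop_mul, ← hJ.jop_mul, (Unitary.mem_iff.1 h).1,
    (Unitary.mem_iff.1 h).2, hJ.jop_one]
  exact ⟨rfl, rfl⟩

lemma apply_xi (h1 : (1 : H →L[ℂ] H) ∈ S) : J ξ = ξ := by
  simpa using hJ.apply_orbit 1 h1

lemma jop_xi (h1 : (1 : H →L[ℂ] H) ∈ S) {x : H →L[ℂ] H} (hx : x ∈ S) :
    jop J x ξ = star x ξ := by
  rw [jop_apply, hJ.apply_xi h1, hJ.apply_orbit x hx]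

end IsConj

section Alg

variable {S : StarSubalgebra ℂ (H →L[ℂ] H)} {ξ : H}

/-- The conjugated algebra commutes with the algebra. -/
theorem IsConj.comm (hJ : IsConj (S : Set _) ξ J) (hd : Dense (orbit (S : Set _) ξ))
    {x y : H →L[ℂ] H} (hx : x ∈ S) (hy : y ∈ S) : jop J x * y = y * jop J x := by
  have e : ∀ z ∈ S, jop J x (z ξ) = (z * star x) ξ := fun z hz => by
    rw [jop_apply, hJ.apply_orbit z hz, ← mul_apply_eq_comp, hJ.apply_orbit _ (mul_mem hx (star_mem hz)),
      star_mul, star_star]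
  refine eq_of_dense hd ?_
  rintro _ ⟨z, hz, rfl⟩
  simp only [mul_apply_eq_comp]
  rw [← mul_apply_eq_comp y z, e _ (mul_mem hy hz), e z hz]
  simp [mul_assoc]

lemma IsConj.jop_mem_centralizer (hJ : IsConj (S : Set _) ξ J)
    (hd : Dense (orbit (S : Set _) ξ)) {x : H →L[ℂ] H} (hx : x ∈ S) :
    jop J x ∈ Set.centralizer (S : Set (H →L[ℂ] H)) :=
  fun _ hy => (hJ.comm hd hx hy).symm

/-- The orbit of the commutant is dense. -/
theorem IsConj.dense_centralizer (hJ : IsConj (S : Set _) ξ J)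
    (hd : Dense (orbit (S : Set _) ξ)) :
    Dense (orbit (Set.centralizer (S : Set (H →L[ℂ] H))) ξ) := by
  refine hd.mono ?_
  rintro _ ⟨x, hx, rfl⟩
  refine ⟨jop J (star x), hJ.jop_mem_centralizer hd (star_mem (show x ∈ S from hx)), ?_⟩
  show jop J (star x) ξ = x ξ
  rw [hJ.jop_xi (one_mem S) (star_mem (show x ∈ S from hx)), star_star]

/-- The commutation theorem. -/
theorem IsConj.jop_commutant (hJ : IsConj (S : Set _) ξ J)
    (hd : Dense (orbit (S : Set _) ξ)) {a : H →L[ℂ] H}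
    (ha : a ∈ Set.centralizer (S : Set (H →L[ℂ] H))) :
    jop J a ∈ Set.centralizer (Set.centralizer (S : Set (H →L[ℂ] H))) := by
  have hst : ∀ c ∈ Set.centralizer (S : Set (H →L[ℂ] H)),
      star c ∈ Set.centralizer (S : Set (H →L[ℂ] H)) := fun c hc z hz => by
    simpa using congrArg star (hc (star z) (star_mem (show z ∈ S from hz))).symm
  have hJc : ∀ c ∈ Set.centralizer (S : Set (H →L[ℂ] H)), J (c ξ) = star c ξ := by
    intro c hc
    refine ext_inner_right ℂ fun w => ?_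
    refine congrFun (Continuous.ext_on hd (continuous_const.inner continuous_id)
      (continuous_const.inner continuous_id) ?_) w
    rintro _ ⟨z, hz, rfl⟩
    show ⟪J (c ξ), z ξ⟫_ℂ = ⟪star c ξ, z ξ⟫_ℂ
    rw [hJ.inner_left, hJ.apply_orbit z hz, inner_conj_symm, ContinuousLinearMap.star_eq_adjoint,
      ContinuousLinearMap.star_eq_adjoint, ContinuousLinearMap.adjoint_inner_left,
      ContinuousLinearMap.adjoint_inner_left, ← mul_apply_eq_comp z c, hc z hz, mul_apply_eq_comp]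
  intro b hb
  refine eq_of_dense (hJ.dense_centralizer hd) ?_
  rintro _ ⟨c, hc, rfl⟩
  have e : ∀ d ∈ Set.centralizer (S : Set (H →L[ℂ] H)), jop J a (d ξ) = (d * star a) ξ := by
    intro d hd'
    rw [jop_apply, hJc d hd', ← mul_apply_eq_comp, hJc _ (Set.mul_mem_centralizer ha (hst d hd')),
      star_mul, star_star]
  show (b * jop J a) (c ξ) = (jop J a * b) (c ξ)
  simp only [mul_apply_eq_comp]
  rw [e c hc, ← mul_apply_eq_comp b c, e _ (Set.mul_mem_centralizer hb hc)]
  simp [mul_assoc]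

end Alg

end Vale.Agent.P096.Full.Reduce
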