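import Vale.Agent.P096.Full.Reduce.Group
import Vale.Agent.P096.Full.Reduce.Conj
import Vale.Agent.P096.Bridge

/-!
P096, reduction: the square root of the product of two near conjugations.
-/

open scoped InnerProductSpace ComplexConjugate

namespace Vale.Agent.P096.Full.Reduce

variable {H : Type} [NormedAddCommGroup H] [InnerProductSpace ℂ H] [CompleteSpace H]

lemma isUnit_near_two {T : H →L[ℂ] H} (h : ‖(1 / 2 : ℂ) • T - 1‖ < 1) : IsUnit T := by
  have h1 := isUnit_near (one_mem _) h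
  have : T = (2 : ℂ) • ((1 / 2 : ℂ) • T) := by rw [smul_smul]; norm_num
  rw [this]
  obtain ⟨v, hv⟩ := h1
  exact ⟨⟨(2 : ℂ) • (v : H →L[ℂ] H), (1 / 2 : ℂ) • ↑v⁻¹,
    by rw [smul_mul_smul_comm, v.mul_inv]; norm_num,
    by rw [smul_mul_smul_comm, v.inv_mul]; norm_num⟩, by rw [← hv]⟩

/-- Two near conjugations differ by a twist near the identity. -/
theorem exists_twist {J Jn : H ≃ₗᵢ⋆[ℂ] H} {ξ : H} {δ : ℝ} (hJ : ∀ h, J (J h) = h)
    (hJn : ∀ h, Jn (Jn h) = h) (hξ : J ξ = ξ) (hξn : Jn ξ = ξ)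
    (hd : ∀ h, ‖Jn h - J h‖ ≤ δ * ‖h‖) (hδ0 : 0 ≤ δ) (hδ : δ ≤ 1 / 8) :
    ∃ W ∈ unitary (H →L[ℂ] H), ‖W - 1‖ ≤ 3 * δ ∧ W ξ = ξ ∧
      (∀ h, J (star W h) = star W (Jn h)) ∧
      ∀ g, jop J g = jop Jn g → g * W = W * g := by
  have cJ : IsConj (∅ : Set (H →L[ℂ] H)) ξ J := ⟨hJ, fun x hx => hx.elim⟩
  have cJn : IsConj (∅ : Set (H →L[ℂ] H)) ξ Jn := ⟨hJn, fun x hx => hx.elim⟩
  set u₀ : H →L[ℂ] H := (Jn.toContinuousLinearEquiv.toContinuousLinearMap).comp
    J.toContinuousLinearEquiv.toContinuousLinearMap with hu₀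
  set v₀ : H →L[ℂ] H := (J.toContinuousLinearEquiv.toContinuousLinearMap).comp
    Jn.toContinuousLinearEquiv.toContinuousLinearMap with hv₀
  have hua : ∀ h, u₀ h = Jn (J h) := fun h => rfl
  have hva : ∀ h, v₀ h = J (Jn h) := fun h => rfl
  have hstar : star u₀ = v₀ := by
    rw [ContinuousLinearMap.star_eq_adjoint, eq_comm, ContinuousLinearMap.eq_adjoint_iff]
    intro x y
    rw [hva, hua, cJ.inner_left, cJn.inner_left, Complex.conj_conj]
  have huv : u₀ * v₀ = 1 := ContinuousLinearMap.ext fun h => by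
    simp [hua, hva, hJ, hJn]
  have hvu : v₀ * u₀ = 1 := ContinuousLinearMap.ext fun h => by
    simp [hua, hva, hJ, hJn]
  have hu1 : ‖u₀ - 1‖ ≤ δ := ContinuousLinearMap.opNorm_le_bound _ hδ0 fun h => by
    have := hd (J h)
    rw [hJ, LinearIsometryEquiv.norm_map] at this
    simpa [hua] using this
  have hju : jop J u₀ = star u₀ := by
    rw [hstar]; ext h; simp [hua, hva, hJ]
  set a : H →L[ℂ] H := (1 / 2 : ℂ) • (1 + u₀) with ha
  have hsa : star a = (1 / 2 : ℂ) • (1 + star u₀) := by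
    rw [ha, star_smul, star_add, star_one]; simp
  have hua' : u₀ * star a = a := by
    rw [hsa, mul_smul_comm, mul_add, mul_one, hstar, huv, ha, add_comm]
  have han : ‖a - 1‖ ≤ δ / 2 := by
    have : a - 1 = (1 / 2 : ℂ) • (u₀ - 1) := by rw [ha]; module
    rw [this, norm_smul, show ‖(1 / 2 : ℂ)‖ = 1 / 2 by norm_num]
    linarith
  have ha2 : ‖a‖ ≤ 2 := by
    calc ‖a‖ = ‖(a - 1) + 1‖ := by rw [sub_add_cancel]
      _ ≤ ‖a - 1‖ + ‖(1 : H →L[ℂ] H)‖ := norm_add_le _ _
      _ ≤ 2 := by linarith [norm_le_one (one_mem (unitary (H →L[ℂ] H)))]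
  have hbn : ‖star a * a - 1‖ ≤ 2 * δ := by
    rw [show star a * a - 1 = star a * (a - 1) + star (a - 1) by
      rw [star_sub, star_one, mul_sub, mul_one]; abel]
    refine (norm_add_le _ _).trans ((add_le_add_left (norm_mul_le _ _) _).trans ?_)
    rw [norm_star, norm_star]
    nlinarith [norm_nonneg (a - 1), norm_nonneg a]
  obtain ⟨r, hr, hW, hWn, hrc⟩ :=
    polar (isUnit_near (one_mem _) (lt_of_le_of_lt han (by linarith))) hbn (by linarith)
  have hcu : ∀ x, Commute x u₀ → Commute x (star u₀) → Commute x a ∧ Commute x (star a) ∧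
      Commute x r := fun x h1 h2 => by
    have c1 : Commute x a := ((Commute.one_right x).add_right h1).smul_right _
    have c2 : Commute x (star a) := by
      rw [hsa]; exact ((Commute.one_right x).add_right h2).smul_right _
    exact ⟨c1, c2, (hrc x (c2.mul_right c1).symm).symm⟩
  have huu : Commute u₀ (star u₀) := by
    show u₀ * star u₀ = star u₀ * u₀
    rw [hstar, huv, hvu]
  obtain ⟨cu, cu', cur⟩ := hcu u₀ (Commute.refl _) huu
  obtain ⟨dv, dv', dvr⟩ := hcu (star u₀) huu.symm (Commute.refl _)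
  obtain ⟨-, caa, car⟩ := hcu a ((cu.symm)) (dv.symm)
  obtain ⟨-, -, casr⟩ := hcu (star a) cu'.symm dv'.symm
  obtain ⟨W, hWdef⟩ : ∃ W, W = a * r := ⟨_, rfl⟩
  rw [← hWdef] at hW hWn
  have hWu := Unitary.mem_iff.1 hW
  have hsW : star W = r * star a := by rw [hWdef, star_mul, hr.star_eq]
  have hW1 : ‖W - 1‖ ≤ 5 * δ := by
    calc ‖W - 1‖ ≤ ‖W - a‖ + ‖a - 1‖ := norm_sub_le_norm_sub_add_norm_sub ..
      _ ≤ 2 * (2 * δ) + δ / 2 := add_le_add (hWn.trans
          (mul_le_mul ha2 le_rfl (by positivity) zero_le_two)) han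
      _ ≤ 5 * δ := by linarith
  have hWW : W * W = u₀ := by
    have e : W = u₀ * star W := by
      rw [hsW, hWdef, ← mul_assoc, cur.eq, mul_assoc, hua', car.eq]
    conv_lhs => arg 1; rw [e]
    rw [mul_assoc, hWu.1, mul_one]
  have hWc : ∀ x, Commute x u₀ → Commute x (star u₀) → Commute x W ∧ Commute x (star W) :=
    fun x h1 h2 => by
      obtain ⟨c1, c2, c3⟩ := hcu x h1 h2
      exact ⟨by rw [hWdef]; exact c1.mul_right c3, by rw [hsW]; exact c3.mul_right c2⟩
  have hWW' : star W * star W = star u₀ := by rw [← star_mul, hWW]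
  obtain ⟨X, hX⟩ : ∃ X, X = jop J W := ⟨_, rfl⟩
  have hXu : Commute X u₀ ∧ Commute X (star u₀) := by
    obtain ⟨e1, -⟩ := hWc u₀ (Commute.refl _) huu
    obtain ⟨e2, -⟩ := hWc (star u₀) huu.symm (Commute.refl _)
    have f1 := congrArg (jop J) e2.eq
    have f2 := congrArg (jop J) e1.eq
    rw [cJ.jop_mul, cJ.jop_mul, ← cJ.star_jop, hju, star_star] at f1
    rw [cJ.jop_mul, cJ.jop_mul, hju] at f2
    rw [← hX] at f1 f2
    exact ⟨f1.symm, f2.symm⟩
  have hXW : X = star W := by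
    obtain ⟨-, cXW⟩ := hWc X hXu.1 hXu.2
    have hXX : X * X = star u₀ := by rw [hX, ← cJ.jop_mul, hWW, hju]
    have e : (X - star W) * (X + star W) = 0 := by
      rw [sub_mul, mul_add, mul_add, hXX, hWW', cXW.eq]; abel
    have hu : IsUnit (X + star W) := by
      refine isUnit_near_two ?_
      rw [show (1 / 2 : ℂ) • (X + star W) - 1 =
        (1 / 2 : ℂ) • ((X - 1) + (star W - 1)) by module]
      rw [norm_smul, show ‖(1 / 2 : ℂ)‖ = 1 / 2 by norm_num]
      have h1 : ‖X - 1‖ = ‖W - 1‖ := by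
        rw [hX, show jop J W - 1 = jop J (W - 1) by rw [cJ.jop_sub, cJ.jop_one], cJ.norm_jop]
      have h2 : ‖star W - 1‖ = ‖W - 1‖ := by rw [← norm_star, star_sub, star_star, star_one]
      have := norm_add_le (X - 1) (star W - 1)
      linarith
    exact sub_eq_zero.1 (hu.mul_left_eq_zero.1 e)
  have hW3 : ‖W - 1‖ ≤ 3 * δ := by
    have e : (W - 1) * (W + 1) = u₀ - 1 := by
      rw [sub_mul, mul_add, mul_one, one_mul, hWW]; abel
    have e2 : (2 : ℂ) • (W - 1) = (u₀ - 1) - (W - 1) * (W - 1) := by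
      rw [← e, two_smul]; noncomm_ring
    have h := congrArg norm e2
    rw [norm_smul, show ‖(2 : ℂ)‖ = 2 by norm_num] at h
    have := norm_sub_le (u₀ - 1) ((W - 1) * (W - 1))
    have := norm_mul_le (W - 1) (W - 1)
    nlinarith [norm_nonneg (W - 1)]
  have hWξ : W ξ = ξ := by
    have e : (W + 1) ((W - 1) ξ) = 0 := by
      rw [← mul_apply_eq_comp, show (W + 1) * (W - 1) = u₀ - 1 by
        rw [add_mul, mul_sub, mul_one, one_mul, hWW]; abel]
      simp [hua, hξ, hξn]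
    have hu : IsUnit (W + 1) := by
      refine isUnit_near_two ?_
      rw [show (1 / 2 : ℂ) • (W + 1) - 1 = (1 / 2 : ℂ) • (W - 1) by module, norm_smul,
        show ‖(1 / 2 : ℂ)‖ = 1 / 2 by norm_num]
      linarith
    obtain ⟨v, hv⟩ := hu
    have := congrArg (↑v⁻¹ : H →L[ℂ] H) e
    rw [map_zero, ← hv, ← mul_apply_eq_comp, v.inv_mul, one_apply_eq_self] at this
    simpa [sub_eq_zero] using this
  refine ⟨W, hW, hW3, hWξ, fun h => ?_, fun g hg => ?_⟩
  · have e1 : J (star W h) = W (J h) := by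
      rw [← hXW, hX]; simp [hJ]
    have e2 : u₀ (J h) = Jn h := by simp [hua, hJ]
    rw [e1, ← e2, ← hWW, mul_apply_eq_comp, ← mul_apply_eq_comp (star W), hWu.1, one_apply_eq_self]
  · have e1 : ∀ h, J (g h) = Jn (g (Jn (J h))) := fun h => by
      have := DFunLike.congr_fun hg (J h)
      simpa [hJ] using this
    have e2 : ∀ h, Jn (g h) = J (g (J (Jn h))) := fun h => by
      have := DFunLike.congr_fun hg (Jn h)
      simpa [hJn] using this.symm
    have c1 : Commute g u₀ := by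
      show g * u₀ = u₀ * g
      ext h
      simp [hua, e1, hJn]
    have c2 : Commute g (star u₀) := by
      show g * star u₀ = star u₀ * g
      rw [hstar]
      ext h
      simp [hva, e2, hJ]
    exact (hWc g c1 c2).1.eq

end Vale.Agent.P096.Full.Reduce
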