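import Vale.Agent.P096.Full.Reduce.Parts
import Vale.Agent.P096.Full.Reduce.Standard
import Vale.Agent.P096.Full.Reduce.Moves
import Vale.Agent.P096.Full.Reduce.Twist

/-!
P096, reduction: the statement for standard pairs gives the target for an algebra in standard form.
-/

open scoped InnerProductSpace ComplexConjugate

namespace Vale.Agent.P096.Full.Reduce

variable {H : Type} [NormedAddCommGroup H] [InnerProductSpace ℂ H] [CompleteSpace H]

lemma isClosed_vn (N : VonNeumannAlgebra H) : IsClosed (N : Set (H →L[ℂ] H)) := by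
  have h : IsClosed (Set.centralizer (Set.centralizer (N : Set (H →L[ℂ] H)))) :=
    Set.isClosed_centralizer _
  rwa [N.centralizer_centralizer] at h

/-- Complete near inclusion in terms of `leftOp`. -/
lemma leftOp_near {Ck γ : ℝ} (hCk : 0 ≤ Ck) (hγ : 0 ≤ γ) {S T : StarSubalgebra ℂ (H →L[ℂ] H)}
    (h : ∀ (n : ℕ) (X : Fin n → Fin n → (H →L[ℂ] H)), (∀ i j, X i j ∈ S) →
      (∀ η : Fin n → H, ∑ i, ‖∑ j, X i j (η j)‖ ^ 2 ≤ ∑ j, ‖η j‖ ^ 2) →
      ∃ Y : Fin n → Fin n → (H →L[ℂ] H), (∀ i j, Y i j ∈ T) ∧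
        ∀ η : Fin n → H,
          ∑ i, ‖∑ j, (X i j - Y i j) (η j)‖ ^ 2 ≤ (Ck * γ) ^ 2 * ∑ j, ‖η j‖ ^ 2)
    (d : ℕ) (X : Mat H d) (hX : ∀ i j, X i j ∈ S) :
    ∃ Y : Mat H d, (∀ i j, Y i j ∈ T) ∧ ‖leftOp X - leftOp Y‖ ≤ Ck * γ * ‖leftOp X‖ := by
  rcases eq_or_ne (‖leftOp X‖) 0 with h0 | h0
  · exact ⟨0, fun i j => zero_mem T, by rw [leftOp_zero, sub_zero, h0, mul_zero]⟩
  set c : ℝ := ‖leftOp X‖
  set X' : Mat H d := ((c⁻¹ : ℝ) : ℂ) • X with hX'
  have hX'n : ‖leftOp X'‖ = 1 := by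
    rw [hX', leftOp_smul, norm_smul, Complex.norm_real, norm_inv, Real.norm_eq_abs,
      abs_of_nonneg (norm_nonneg _), inv_mul_cancel₀ h0]
  obtain ⟨Y, hY, hn⟩ := h d (fun i j => X' i j)
    (fun i j => SMulMemClass.smul_mem (s := S) _ (hX i j)) fun η => by
      have := matBdd_of_leftOp (X := X') η
      rwa [hX'n, one_pow, one_mul] at this
  refine ⟨(c : ℂ) • (Matrix.of Y : Mat H d), fun i j => SMulMemClass.smul_mem (s := T) _ (hY i j),
    ?_⟩
  have e : (c : ℂ) • X' = X := by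
    rw [hX', smul_smul, Complex.ofReal_inv, mul_inv_cancel₀ (Complex.ofReal_ne_zero.2 h0), one_smul]
  have hb : ‖leftOp (X' - Matrix.of Y)‖ ≤ Ck * γ :=
    norm_leftOp_le_of_matBdd (mul_nonneg hCk hγ) hn
  nth_rewrite 1 [← e]
  rw [← leftOp_sub, ← smul_sub, leftOp_smul, norm_smul, Complex.norm_real, Real.norm_eq_abs,
    abs_of_nonneg (norm_nonneg _), mul_comm]
  exact mul_le_mul_of_nonneg_right hb (norm_nonneg _)

/-- The defect of a pair of close algebras. -/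
lemma opLe_of_close {Ck γ : ℝ} (hCk : 0 ≤ Ck)
    (hck : ∀ (M : StarSubalgebra ℂ (H →L[ℂ] H)) (N : VonNeumannAlgebra H) (γ : ℝ),
      0 ≤ γ → (∀ x ∈ M, ‖x‖ ≤ 1 → ∃ y ∈ N, ‖x - y‖ ≤ γ) →
      ∀ (n : ℕ) (X : Fin n → Fin n → (H →L[ℂ] H)), (∀ i j, X i j ∈ M) →
        (∀ η : Fin n → H, ∑ i, ‖∑ j, X i j (η j)‖ ^ 2 ≤ ∑ j, ‖η j‖ ^ 2) →
        ∃ Y : Fin n → Fin n → (H →L[ℂ] H), (∀ i j, Y i j ∈ N) ∧
          ∀ η : Fin n → H,
            ∑ i, ‖∑ j, (X i j - Y i j) (η j)‖ ^ 2 ≤ (Ck * γ) ^ 2 * ∑ j, ‖η j‖ ^ 2)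
    (P : Pair H) {M N : VonNeumannAlgebra H} (hM : P.M = M.toStarSubalgebra)
    (hN : P.N = N.toStarSubalgebra) (hc : Close M N γ) : P.OpLe ((2 * Ck + 1) * γ) := by
  have hγ := hc.nonneg
  have hle : γ ≤ (2 * Ck + 1) * γ := by nlinarith
  have hk : Ck * γ ≤ (2 * Ck + 1) * γ := by nlinarith
  have nM := leftOp_near hCk hγ (T := N.toStarSubalgebra) (hck M.toStarSubalgebra N γ hγ hc.1)
  have nN := leftOp_near hCk hγ (T := M.toStarSubalgebra) (hck N.toStarSubalgebra M γ hγ hc.2)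
  refine ⟨hγ.trans hle, ?_, ?_, fun d X Y hX hY => ?_, fun d X hX => ?_, fun d X hX => ?_⟩
  · intro x hx hx1
    rw [hM] at hx
    obtain ⟨y, hy, hxy⟩ := hc.1 x hx hx1
    exact ⟨y, by rw [hN]; exact hy, hxy.trans hle⟩
  · intro x hx hx1
    rw [hN] at hx
    obtain ⟨y, hy, hxy⟩ := hc.2 x hx hx1
    exact ⟨y, by rw [hM]; exact hy, hxy.trans hle⟩
  · set n : Mat H d := fun j k => P.conjOp (Y k j) with hn
    have hnN : ∀ i j, n i j ∈ N.toStarSubalgebra := fun i j => hN ▸ P.mem_B.1 (hY j i)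
    have hm : P.mirror n = Y := by
      funext j k
      exact P.conjOp_conjOp _
    obtain ⟨e, he, hen⟩ := nN d n hnN
    have hcomm : leftOp X * rightOp (P.mirror e) = rightOp (P.mirror e) * leftOp X :=
      commute_leftOp_rightOp fun i j l k => P.comm_M_conjOp (hX i j) (hM ▸ he k l)
    have hsub : P.mirror (n - e) = P.mirror n - P.mirror e := by
      funext j k
      exact P.conjOp_sub _ _
    have hD : ‖rightOp Y - rightOp (P.mirror e)‖ ≤ Ck * γ * ‖rightOp Y‖ := by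
      rw [← hm, ← rightOp_sub, ← hsub, P.norm_rightOp_mirror, P.norm_rightOp_mirror, leftOp_sub]
      exact hen
    rw [show leftOp X * rightOp Y - rightOp Y * leftOp X =
        leftOp X * (rightOp Y - rightOp (P.mirror e)) -
          (rightOp Y - rightOp (P.mirror e)) * leftOp X by
      rw [mul_sub, sub_mul, hcomm]; abel]
    refine (norm_sub_le _ _).trans ((add_le_add (norm_mul_le _ _) (norm_mul_le _ _)).trans ?_)
    have h0 : 0 ≤ ‖leftOp X‖ * ‖rightOp Y‖ := mul_nonneg (norm_nonneg _) (norm_nonneg _)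
    nlinarith [mul_le_mul_of_nonneg_left hD (norm_nonneg (leftOp X)), mul_nonneg hγ h0]
  · obtain ⟨Y, hY, hn⟩ := nM d X fun i j => hM ▸ hX i j
    exact ⟨Y, fun i j => hN ▸ hY i j,
      hn.trans (mul_le_mul_of_nonneg_right hk (norm_nonneg _))⟩
  · obtain ⟨Y, hY, hn⟩ := nN d X fun i j => hN ▸ hX i j
    exact ⟨Y, fun i j => hM ▸ hY i j,
      hn.trans (mul_le_mul_of_nonneg_right hk (norm_nonneg _))⟩

/-- The second algebra, moved: standard with the conjugation of the first. -/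
theorem exists_standard {B : Base H} {S : VonNeumannAlgebra H} {γ : ℝ} (hc : Close B.M S γ)
    (hγ : γ ≤ 1 / 2000) (hS : B.Fits S) (hd : Dense (orbit (S : Set (H →L[ℂ] H)) B.ξ)) :
    ∃ (W : H →L[ℂ] H) (hW : W ∈ unitary (H →L[ℂ] H)), ‖W - 1‖ ≤ 600 * γ ∧
      Close B.M (conjVN S W hW) (2401 * γ) ∧ (∀ g ∈ B.Γ.carrier, g ∈ conjVN S W hW) ∧
      IsConj (conjVN S W hW : Set (H →L[ℂ] H)) B.ξ B.J ∧
      Dense (orbit (conjVN S W hW : Set (H →L[ℂ] H)) B.ξ) := by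
  have hγ0 := hc.nonneg
  have hn := saNear_of_close hc
  have htr := norm_star_eq hS hγ0 (by linarith) hn
  obtain ⟨Jn, hJn⟩ := exists_conj S.toStarSubalgebra B.ξ hd htr
  have hdiff : ∀ h, ‖Jn h - B.J h‖ ≤ 200 * γ * ‖h‖ := by
    intro h
    refine hd.induction ?_ (isClosed_le (Jn.continuous.sub B.J.continuous).norm
      (continuous_const.mul continuous_norm)) h
    rintro _ ⟨z, hz, rfl⟩
    rw [hJn.apply_orbit z hz, norm_sub_rev]
    refine (norm_J_star_le hS hγ0 hn hz).trans (le_of_eq ?_)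
    rw [htr z hz]; ring
  obtain ⟨W, hW, hW1, hWξ, hWJ, hWg⟩ := exists_twist B.conjM.invol hJn.invol
    (B.conjM.apply_xi (one_mem B.M)) (hJn.apply_xi (one_mem S.toStarSubalgebra)) hdiff
    (by positivity) (by linarith)
  have hW' := Unitary.mem_iff.1 hW
  have hsWξ : star W B.ξ = B.ξ := by
    conv_lhs => arg 2; rw [← hWξ]
    rw [← mul_apply_eq_comp, hW'.1, one_apply_eq_self]
  refine ⟨W, hW, hW1.trans_eq (by ring), ?_, fun g hg => ?_, ⟨B.conjM.invol, fun z hz => ?_⟩, ?_⟩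
  · have := hc.conj (δ := 600 * γ) (by linarith) hW (hW1.trans_eq (by ring))
    rwa [show γ + 4 * (600 * γ) = 2401 * γ by ring] at this
  · have hjj : jop B.J g = jop Jn g := by
      refine eq_of_dense hd ?_
      rintro _ ⟨y, hy, rfl⟩
      show jop B.J g (y B.ξ) = jop Jn g (y B.ξ)
      rw [← mul_apply_eq_comp, ← hS.jmem g hg y hy, ← mul_apply_eq_comp (jop Jn g),
        hJn.comm (S := S.toStarSubalgebra) hd (hS.mem g hg) hy, mul_apply_eq_comp,
        mul_apply_eq_comp, Base.xi_star hg,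
        hJn.jop_xi (one_mem S.toStarSubalgebra) (hS.mem g hg)]
    rw [mem_conjVN, ← hWg g hjj, mul_assoc, hW'.2, mul_one]
    exact hS.mem g hg
  · have e1 : z B.ξ = star W ((W * z * star W) B.ξ) := by
      rw [mul_apply_eq_comp, mul_apply_eq_comp, hsWξ, ← mul_apply_eq_comp (star W), hW'.1,
        one_apply_eq_self]
    conv_lhs => rw [e1]
    rw [hWJ, hJn.apply_orbit _ (mem_conjVN.1 hz), star_mul, star_mul, star_star,
      mul_apply_eq_comp, mul_apply_eq_comp, hsWξ, ← mul_apply_eq_comp (star W), hW'.1,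
      one_apply_eq_self]
  · have hsurj : DenseRange ⇑(star W : H →L[ℂ] H) :=
      Function.Surjective.denseRange fun v => ⟨W v, by
        rw [← mul_apply_eq_comp, hW'.1, one_apply_eq_self]⟩
    refine (hsurj.dense_image (star W : H →L[ℂ] H).continuous hd).mono ?_
    rintro _ ⟨_, ⟨y, hy, rfl⟩, rfl⟩
    refine ⟨star W * y * W, mem_conjVN.2 (by rwa [(conj_cancel hW y).2]), ?_⟩
    show (star W * y * W) B.ξ = star W (y B.ξ)
    rw [mul_apply_eq_comp, mul_apply_eq_comp, hWξ]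

/-- The standard pair of an algebra in standard form and an algebra with the same conjugation. -/
noncomputable def mkPair (B : Base H) (N : VonNeumannAlgebra H) (hg : ∀ g ∈ B.Γ.carrier, g ∈ N)
    (hJ : IsConj (N : Set (H →L[ℂ] H)) B.ξ B.J)
    (hd : Dense (orbit (N : Set (H →L[ℂ] H)) B.ξ)) : Pair H where
  M := B.M.toStarSubalgebra
  N := N.toStarSubalgebra
  closed_M := isClosed_vn B.M
  closed_N := isClosed_vn N
  ξ := B.ξ
  norm_ξ := B.std.norm_eq
  J := B.J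
  J_J := B.conjM.invol
  J_M := B.conjM.apply_orbit
  J_N := hJ.apply_orbit
  dense_M := B.std.dense
  dense_N := hd
  comm_M x hx y hy h :=
    (DFunLike.congr_fun (B.conjM.comm (S := B.M.toStarSubalgebra) B.std.dense hy hx) h).symm
  comm_N x hx y hy h :=
    (DFunLike.congr_fun (hJ.comm (S := N.toStarSubalgebra) hd hy hx) h).symm
  G := B.Γ.G
  G_mono k := B.Γ.mono k (k + 1) k.le_succ
  G_mem k g hgk := ⟨B.memM g ⟨k, hgk⟩, hg g ⟨k, hgk⟩,
    Unitary.mem_iff.1 (B.Γ.mem_unitary k g hgk)⟩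
  G_one := B.Γ.one_mem
  G_mul := B.Γ.mul_mem
  G_star := B.Γ.star_mem
  cen := B.Z.cen
  cen_proj := B.Z.proj
  cen_orth := B.Z.orth
  cen_sum := B.Z.sum
  cen_sym := B.Z.sym
  cen_refine := B.Z.refine'
  cen_comm := B.Z.comm
  G_fix η hη := Base.fixed_mem fun g ⟨k, hk⟩ => hη k g hk

lemma norm_mul_sub_one {a b : H →L[ℂ] H} (hb : b ∈ unitary (H →L[ℂ] H)) :
    ‖a * b - 1‖ ≤ ‖a - 1‖ + ‖b - 1‖ := by
  rw [show a * b - 1 = (a - 1) * b + (b - 1) by noncomm_ring]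
  refine (norm_add_le _ _).trans (add_le_add ?_ le_rfl)
  exact (norm_mul_le _ _).trans (mul_le_of_le_one_right (norm_nonneg _) (norm_le_one hb))

/-- The target for algebras in standard form. -/
theorem stdTarget_of_standard (hG : GroupsSpec) (hStd : StandardSpec.{0}) : StdTarget.{0} := by
  obtain ⟨C₀, γ₀, hγ₀, hC₀, hstd⟩ := hStd
  obtain ⟨Cc, hCc, hcn⟩ := commutant_near.{0}
  obtain ⟨Ck, hCk, hck⟩ := complete_near.{0}
  set A₂ : ℝ := 1093 + 4 * (273 * (Cc * 1093)) with hA₂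
  have hA₂0 : 0 < A₂ := by positivity
  set K₁ : ℝ := (2 * Ck + 1) * (2401 * A₂) with hK₁
  have hK₁0 : 0 < K₁ := by positivity
  set δ₀ : ℝ := min (min (1 / 2000) (1 / (672 * 1093 * (Cc + 1))))
    (min (1 / (2000 * (Cc + 1) * A₂)) (γ₀ / K₁)) with hδ₀
  refine ⟨δ₀, 273 + 273 * (Cc * 1093) + 600 * A₂ + C₀ * K₁, by positivity,
    fun H _ _ _ M N ξ γ hT hgen hγ hcl => ?_⟩
  have hc : Close M N γ := hcl
  have hγ0 := hc.nonneg
  have b₁ : γ ≤ 1 / 2000 := hγ.le.trans ((min_le_left _ _).trans (min_le_left _ _))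
  have b₂ : γ ≤ 1 / (672 * 1093 * (Cc + 1)) :=
    hγ.le.trans ((min_le_left _ _).trans (min_le_right _ _))
  have b₃ : γ ≤ 1 / (2000 * (Cc + 1) * A₂) :=
    hγ.le.trans ((min_le_right _ _).trans (min_le_left _ _))
  have b₄ : γ ≤ γ₀ / K₁ := hγ.le.trans ((min_le_right _ _).trans (min_le_right _ _))
  rw [le_div_iff₀ (by positivity)] at b₂ b₃ b₄
  have htr : ∀ x ∈ M, ‖star x ξ‖ = ‖x ξ‖ := fun x hx => by
    have e := hT.trace x hx (star x) (star_mem hx)
    rw [ContinuousLinearMap.star_eq_adjoint,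
      ContinuousLinearMap.adjoint_inner_right x ξ (x ξ),
      ← ContinuousLinearMap.adjoint_inner_left x (ContinuousLinearMap.adjoint x ξ) ξ,
      inner_self_eq_norm_sq_to_K, inner_self_eq_norm_sq_to_K,
      ← ContinuousLinearMap.star_eq_adjoint] at e
    exact (pow_left_inj₀ (norm_nonneg _) (norm_nonneg _) two_ne_zero).1 (by exact_mod_cast e)
  obtain ⟨J, hJ⟩ := exists_conj M.toStarSubalgebra ξ hT.dense htr
  obtain ⟨Γ, Z, hΓM, hirr⟩ := hG H M ξ hT hgen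
  set B : Base H := ⟨M, ξ, J, Γ, Z, hT, hJ, hΓM, hirr⟩
  obtain ⟨u₁, hu₁, hu₁n, hc₁, hg₁, hj₁⟩ := exists_common B hCc (hcn H) N hc b₁ (by nlinarith)
  rw [show 1093 * γ + 4 * (273 * (Cc * (1093 * γ))) = A₂ * γ by rw [hA₂]; ring] at hc₁
  have hA₂γ : A₂ * γ ≤ 1 / 2000 := by nlinarith [mul_nonneg hCc (mul_nonneg hA₂0.le hγ0)]
  have hCA : Cc * (A₂ * γ) < 1 / 2 := by nlinarith [mul_nonneg hA₂0.le hγ0]
  obtain ⟨hfit, hdense⟩ := fits_of_common (hcn H) hc₁ (by linarith) hCA hg₁ hj₁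
  obtain ⟨W, hW, hWn, hc₂, hg₂, hJ₂, hd₂⟩ := exists_standard hc₁ hA₂γ hfit hdense
  set N₃ := conjVN (conjVN N u₁ hu₁) W hW
  set P := mkPair B N₃ hg₂ hJ₂ hd₂
  have hOp : P.OpLe (K₁ * γ) := by
    have := opLe_of_close hCk (hck H) P rfl rfl hc₂
    rwa [show (2 * Ck + 1) * (2401 * (A₂ * γ)) = K₁ * γ by rw [hK₁]; ring] at this
  have hcomm : ∀ x : H →L[ℂ] H, (∀ y ∈ P.B, x * y = y * x) → x ∈ P.N := by
    intro x hx
    show x ∈ N₃
    refine mem_of_commute_all N₃ fun a ha => (hx a ?_).symm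
    have := IsConj.jop_commutant (S := N₃.toStarSubalgebra) hJ₂ hd₂ ha
    exact P.mem_B.2 (mem_of_commute_all N₃ this)
  obtain ⟨u, hu1, hu2, hun, huM, huN⟩ := hstd H P (K₁ * γ) (by linarith [mul_comm γ K₁]) hOp hcomm
  have hu : u ∈ unitary (H →L[ℂ] H) := Unitary.mem_iff.2 ⟨hu1, hu2⟩
  have hU : u₁ * W * u ∈ unitary (H →L[ℂ] H) := mul_mem (mul_mem hu₁ hW) hu
  refine ⟨u₁ * W * u, isUnitaryOp_of_unitary hU, ?_, fun x hx => ?_, fun y hy => ?_⟩
  · show ‖u₁ * W * u - 1‖ ≤ _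
    refine (norm_mul_sub_one hu).trans ((add_le_add
      ((norm_mul_sub_one hW).trans (add_le_add hu₁n hWn)) hun).trans (le_of_eq ?_))
    ring
  · refine ⟨u₁ * W * u * x * star (u₁ * W * u), ?_, intertwines_of_eq hU rfl⟩
    have := mem_conjVN.1 (mem_conjVN.1 (show u * x * star u ∈ N₃ from huM x hx))
    simpa only [star_mul, mul_assoc] using this
  · have h1 : star W * (star u₁ * y * u₁) * W ∈ N₃ :=
      mem_conjVN.2 (mem_conjVN.2 (by rwa [(conj_cancel hW _).2, (conj_cancel hu₁ y).2]))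
    refine ⟨star u * (star W * (star u₁ * y * u₁) * W) * u, huN _ h1, intertwines_of_eq hU ?_⟩
    have e : ∀ z, u₁ * W * u * z * star (u₁ * W * u) =
        u₁ * (W * (u * z * star u) * star W) * star u₁ := fun z => by
      simp only [star_mul, mul_assoc]
    rw [e, (conj_cancel hu _).2, (conj_cancel hW _).2, (conj_cancel hu₁ y).2]

/-- The reduction to standard pairs. -/
theorem finiteTarget (hG : GroupsSpec) (h : StandardSpec.{0}) : FiniteTarget.{0} :=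
  standardForm (stdTarget_of_standard hG h)

end Vale.Agent.P096.Full.Reduce
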