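import Vale.Agent.P096.Two.Reduce

/-!
P096, reduction: the amplification of a von Neumann algebra to countably many copies of the space.
-/

open scoped InnerProductSpace

namespace Vale.Agent.P096.Full.Reduce

universe u

variable {H : Type u} [NormedAddCommGroup H] [InnerProductSpace ℂ H] [CompleteSpace H]

/-- Countably many copies of `H`. -/
abbrev Copies (H : Type u) [NormedAddCommGroup H] : Type u := lp (fun _ : ℕ => H) 2

/-- An operator acting on every copy. -/
noncomputable def rep (x : H →L[ℂ] H) : Copies H →L[ℂ] Copies H :=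
  lp.mapCLM 2 (fun _ => x) x.opNorm_nonneg fun _ => le_rfl

/-- The inclusion of the `i`-th copy. -/
noncomputable def put (i : ℕ) : H →L[ℂ] Copies H :=
  lp.singleContinuousLinearMap ℂ (fun _ : ℕ => H) 2 i

/-- The `i`-th component. -/
noncomputable def get (i : ℕ) : Copies H →L[ℂ] H := lp.evalCLM ℂ (fun _ : ℕ => H) 2 i

theorem rep_apply (x : H →L[ℂ] H) (f : Copies H) (i : ℕ) : rep x f i = x (f i) := rfl

theorem get_apply (f : Copies H) (i : ℕ) : get i f = f i := rfl

theorem put_apply (i : ℕ) (h : H) : put i h = lp.single 2 i h := rfl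

theorem get_put (i j : ℕ) (h : H) : get i (put j h) = if i = j then h else 0 := by
  rw [get_apply, put_apply]
  by_cases e : i = j
  · subst e; rw [lp.single_apply_self, if_pos rfl]
  · rw [lp.single_apply_ne _ _ _ e, if_neg e]

theorem rep_put (x : H →L[ℂ] H) (i : ℕ) (h : H) : rep x (put i h) = put i (x h) := by
  refine lp.ext (funext fun j => ?_)
  rw [rep_apply, ← get_apply, get_put, ← get_apply (put i (x h)), get_put]
  split_ifs <;> simp

/-- The amplification as a homomorphism. -/
noncomputable def repHom : (H →L[ℂ] H) →⋆ₐ[ℂ] (Copies H →L[ℂ] Copies H) where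
  toFun := rep
  map_one' := ContinuousLinearMap.ext fun f => lp.ext (funext fun i => rfl)
  map_mul' x y := ContinuousLinearMap.ext fun f => lp.ext (funext fun i => rfl)
  map_zero' := ContinuousLinearMap.ext fun f => lp.ext (funext fun i => rfl)
  map_add' x y := ContinuousLinearMap.ext fun f => lp.ext (funext fun i => rfl)
  commutes' c := ContinuousLinearMap.ext fun f => lp.ext (funext fun i => rfl)
  map_star' x := by
    rw [ContinuousLinearMap.star_eq_adjoint (rep x), ContinuousLinearMap.eq_adjoint_iff]
    intro f g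
    rw [lp.inner_eq_tsum, lp.inner_eq_tsum]
    refine tsum_congr fun i => ?_
    show ⟪star x (f i), g i⟫_ℂ = ⟪f i, x (g i)⟫_ℂ
    rw [ContinuousLinearMap.star_eq_adjoint, ContinuousLinearMap.adjoint_inner_left]

theorem repHom_apply (x : H →L[ℂ] H) : (repHom (H := H)) x = rep x := rfl

theorem rep_injective : Function.Injective (rep : (H →L[ℂ] H) → _) := fun x y e =>
  ContinuousLinearMap.ext fun h => by
    have := congrArg (fun T : Copies H →L[ℂ] Copies H => get 0 (T (put 0 h))) e
    simpa only [rep_put, get_put, if_true] using this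

theorem norm_rep (x : H →L[ℂ] H) : ‖rep x‖ = ‖x‖ :=
  NonUnitalStarAlgHom.norm_map (repHom (H := H)) rep_injective x

variable (M : VonNeumannAlgebra H)

/-- The amplified algebra. -/
noncomputable def repAlg : VonNeumannAlgebra (Copies H) where
  toStarSubalgebra := StarSubalgebra.centralizer ℂ
    ((StarSubalgebra.centralizer ℂ ((repHom (H := H)) '' (M : Set (H →L[ℂ] H))) :
      StarSubalgebra ℂ (Copies H →L[ℂ] Copies H)) : Set (Copies H →L[ℂ] Copies H))
  centralizer_centralizer' := by simp

theorem mem_repAlg {T : Copies H →L[ℂ] Copies H} : T ∈ repAlg M ↔ ∃ x ∈ M, rep x = T := by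
  show T ∈ StarSubalgebra.centralizer ℂ _ ↔ _
  rw [← SetLike.mem_coe, StarSubalgebra.coe_centralizer]
  constructor
  · intro h
    set t : H →L[ℂ] H := (get 0).comp (T.comp (put 0)) with ht
    have hmem : ∀ S : Copies H →L[ℂ] Copies H,
        (∀ x ∈ M, S * rep x = rep x * S) → S * T = T * S := by
      intro S hS
      refine h S (Or.inl ?_)
      rw [SetLike.mem_coe, ← SetLike.mem_coe, StarSubalgebra.coe_centralizer]
      rintro y (⟨x, hx, rfl⟩ | ⟨x, hx, e⟩)
      · exact (hS x hx).symm
      · rw [← star_star y, ← e, ← map_star]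
        exact (hS _ (star_mem hx)).symm
    have hTt : T = rep t := by
      refine ContinuousLinearMap.ext fun f => lp.ext (funext fun i => ?_)
      have e := hmem ((put 0).comp (get i)) fun x hx => ContinuousLinearMap.ext fun g => by
        show put 0 (get i (rep x g)) = rep x (put 0 (get i g))
        rw [rep_put, get_apply, rep_apply, get_apply]
      have e' := congrArg (fun S : Copies H →L[ℂ] Copies H => get 0 (S f)) e
      simp only [mul_apply_eq_comp, ContinuousLinearMap.comp_apply, get_put, if_true] at e'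
      rw [rep_apply, ← get_apply, e', ht]
      rfl
    refine ⟨t, ?_, hTt.symm⟩
    rw [← SetLike.mem_coe, ← M.centralizer_centralizer]
    intro a ha
    have e := hmem (rep a) fun x hx => by
      rw [← repHom_apply, ← repHom_apply, ← map_mul, ← map_mul, ha x hx]
    rw [hTt, ← repHom_apply, ← repHom_apply, ← map_mul, ← map_mul] at e
    exact rep_injective e
  · rintro ⟨x, hx, rfl⟩ S hS
    have hS' : S ∈ StarSubalgebra.centralizer ℂ ((repHom (H := H)) '' (M : Set (H →L[ℂ] H))) := by
      rcases hS with hS | hS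
      · exact hS
      · rw [← star_star S]; exact star_mem (show star S ∈ _ from hS)
    rw [← SetLike.mem_coe, StarSubalgebra.coe_centralizer] at hS'
    exact (hS' _ (Or.inl ⟨x, hx, rfl⟩)).symm

theorem mem_repAlg_commutant {S : Copies H →L[ℂ] Copies H} :
    S ∈ (repAlg M).commutant ↔ ∀ x ∈ M, rep x * S = S * rep x := by
  rw [VonNeumannAlgebra.mem_commutant_iff]
  constructor
  · exact fun h x hx => h _ ((mem_repAlg M).2 ⟨x, hx, rfl⟩)
  · intro h T hT
    obtain ⟨x, hx, rfl⟩ := (mem_repAlg M).1 hT
    exact h x hx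

theorem repAlg_close {N : VonNeumannAlgebra H} {γ : ℝ} (h : Lit.IsClose H M N γ) :
    Lit.IsClose (Copies H) (repAlg M) (repAlg N) γ := by
  constructor
  · intro T hT hT1
    obtain ⟨x, hx, rfl⟩ := (mem_repAlg M).1 hT
    obtain ⟨y, hy, hxy⟩ := h.1 x hx ((norm_rep x).symm.trans_le hT1)
    refine ⟨rep y, (mem_repAlg N).2 ⟨y, hy, rfl⟩, ?_⟩
    show ‖rep x - rep y‖ ≤ γ
    rw [← repHom_apply, ← repHom_apply, ← map_sub, repHom_apply, norm_rep]
    exact hxy
  · intro T hT hT1
    obtain ⟨x, hx, rfl⟩ := (mem_repAlg N).1 hT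
    obtain ⟨y, hy, hxy⟩ := h.2 x hx ((norm_rep x).symm.trans_le hT1)
    refine ⟨rep y, (mem_repAlg M).2 ⟨y, hy, rfl⟩, ?_⟩
    show ‖rep x - rep y‖ ≤ γ
    rw [← repHom_apply, ← repHom_apply, ← map_sub, repHom_apply, norm_rep]
    exact hxy

theorem ext_put {E : Type u} [NormedAddCommGroup E] [InnerProductSpace ℂ E]
    {S T : Copies H →L[ℂ] E} (h : ∀ i x, S (put i x) = T (put i x)) : S = T := by
  refine ContinuousLinearMap.ext fun f => ?_
  have hf := lp.hasSum_single (p := 2) (by simp) f
  refine (hf.mapL S).unique ?_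
  convert hf.mapL T using 1
  exact funext fun i => h i (f i)

end Vale.Agent.P096.Full.Reduce
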