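import Vale.Agent.P096.Full.Reduce.Parts
import Vale.Agent.P096.Full.Reduce.Conj

/-!
P096, reduction: averages over the finite groups. With invariant vectors in the span of central
partitions they tend to the state centred on the partitions.
-/

open scoped InnerProductSpace
open Filter Topology

namespace Vale.Agent.P096.Full.Reduce

/-- An algebra in standard form with finite groups of unitaries whose invariant
vectors come from central partitions. -/
structure Base (H : Type) [NormedAddCommGroup H] [InnerProductSpace ℂ H] [CompleteSpace H] where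
  /-- The algebra. -/
  M : VonNeumannAlgebra H
  /-- The vector. -/
  ξ : H
  /-- The conjugation. -/
  J : H ≃ₗᵢ⋆[ℂ] H
  /-- The groups. -/
  Γ : Groups H
  /-- The central partitions. -/
  Z : Parts M Γ
  std : TracialCyclic M ξ
  conjM : IsConj (M : Set (H →L[ℂ] H)) ξ J
  memM : ∀ g ∈ Γ.carrier, g ∈ M
  irred : ∀ η : H, (∀ g ∈ Γ.carrier, ∀ z ∈ M, ⟪η, g (z ξ)⟫_ℂ = ⟪η, z (g ξ)⟫_ℂ) →
    η ∈ Z.closedSpan ξ

variable {H : Type} [NormedAddCommGroup H] [InnerProductSpace ℂ H] [CompleteSpace H]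
  (B : Base H)

lemma inner_unitary {u : H →L[ℂ] H} (hu : u ∈ unitary (H →L[ℂ] H)) (v w : H) :
    ⟪u v, u w⟫_ℂ = ⟪v, w⟫_ℂ := by
  rw [← ContinuousLinearMap.adjoint_inner_right, ← mul_apply_eq_comp,
    ← ContinuousLinearMap.star_eq_adjoint, (Unitary.mem_iff.1 hu).1, one_apply_eq_self]

lemma norm_unitary {u : H →L[ℂ] H} (hu : u ∈ unitary (H →L[ℂ] H)) (v : H) : ‖u v‖ = ‖v‖ :=
  Unitary.norm_map ⟨u, hu⟩ v

namespace Base

/-- An algebra containing the groups, whose commutant contains their mirrors and has `ξ` as a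
cyclic vector. -/
structure Fits (S : VonNeumannAlgebra H) : Prop where
  mem : ∀ g ∈ B.Γ.carrier, g ∈ S
  jmem : ∀ g ∈ B.Γ.carrier, jop B.J g ∈ Set.centralizer (S : Set (H →L[ℂ] H))
  dense : Dense (orbit (Set.centralizer (S : Set (H →L[ℂ] H))) B.ξ)

lemma fits_M : B.Fits B.M where
  mem := B.memM
  jmem g hg := B.conjM.jop_mem_centralizer (S := B.M.toStarSubalgebra) B.std.dense (B.memM g hg)
  dense := IsConj.dense_centralizer (S := B.M.toStarSubalgebra) B.conjM B.std.dense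

/-- `g J g J`. -/
noncomputable def U (g : H →L[ℂ] H) : H →L[ℂ] H := g * jop B.J g

variable {B}

lemma U_unitary {g : H →L[ℂ] H} (hg : g ∈ B.Γ.carrier) : B.U g ∈ unitary (H →L[ℂ] H) :=
  mul_mem (Groups.unitary_carrier hg) (B.conjM.jop_mem_unitary (Groups.unitary_carrier hg))

lemma xi_star {g : H →L[ℂ] H} (hg : g ∈ B.Γ.carrier) : jop B.J g B.ξ = star g B.ξ :=
  B.conjM.jop_xi (one_mem B.M) (B.memM g hg)

lemma U_xi {g : H →L[ℂ] H} (hg : g ∈ B.Γ.carrier) : B.U g B.ξ = B.ξ := by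
  rw [U, mul_apply_eq_comp, xi_star hg, ← mul_apply_eq_comp,
    (Unitary.mem_iff.1 (Groups.unitary_carrier hg)).2, one_apply_eq_self]

lemma U_mul {g h : H →L[ℂ] H} (hg : g ∈ B.Γ.carrier) (hh : h ∈ B.Γ.carrier) :
    B.U g * B.U h = B.U (g * h) := by
  have := B.conjM.comm (S := B.M.toStarSubalgebra) B.std.dense (B.memM g hg) (B.memM h hh)
  rw [U, U, U, B.conjM.jop_mul, mul_assoc g (jop B.J g), ← mul_assoc (jop B.J g) h, this]
  simp only [mul_assoc]

variable {S : VonNeumannAlgebra H}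

variable {k : ℕ} {q : H →L[ℂ] H}

lemma part_ne (hq : q ∈ B.Z.cen k) : q B.ξ ≠ 0 := fun h => by
  refine (B.Z.proj k q hq).2.2 (B.std.separating q ?_ h)
  have e : q = (1 / 2 : ℂ) • (1 - (1 - (2 : ℂ) • q)) := by module
  rw [e]
  exact SMulMemClass.smul_mem (s := B.M.toStarSubalgebra) _
    (sub_mem (one_mem _) (B.memM _ ⟨k, B.Z.sym k q hq⟩))

lemma part_mem (hS : B.Fits S) (hq : q ∈ B.Z.cen k) : q ∈ S := by
  have e : q = (1 / 2 : ℂ) • (1 - (1 - (2 : ℂ) • q)) := by module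
  rw [e]
  exact SMulMemClass.smul_mem (s := S.toStarSubalgebra) _
    (sub_mem (one_mem _) (hS.mem _ ⟨k, B.Z.sym k q hq⟩))

lemma jop_sym (hq : q ∈ B.Z.cen k) : jop B.J (1 - (2 : ℂ) • q) = 1 - (2 : ℂ) • q := by
  have ha : 1 - (2 : ℂ) • q ∈ B.M := B.memM _ ⟨k, B.Z.sym k q hq⟩
  have hs : star (1 - (2 : ℂ) • q) = 1 - (2 : ℂ) • q := by
    rw [star_sub, star_one, star_smul, (B.Z.proj k q hq).1, Complex.star_def, map_ofNat]
  refine eq_of_dense B.std.dense ?_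
  rintro _ ⟨x, hx, rfl⟩
  have hx' : x ∈ B.M := hx
  rw [jop_apply, B.conjM.apply_orbit x hx, ← mul_apply_eq_comp,
    B.conjM.apply_orbit _ (mul_mem ha (star_mem hx')), star_mul, star_star, hs,
    ← mul_apply_eq_comp (1 - (2 : ℂ) • q)]
  congr 1
  rw [mul_sub, sub_mul, mul_one, one_mul, mul_smul_comm, smul_mul_assoc, B.Z.comm k q hq x hx']

lemma part_comm (hS : B.Fits S) (hq : q ∈ B.Z.cen k) {x : H →L[ℂ] H} (hx : x ∈ S) :
    q * x = x * q := by
  have h := hS.jmem _ ⟨k, B.Z.sym k q hq⟩ x hx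
  rw [jop_sym hq, mul_sub, sub_mul, mul_one, one_mul, mul_smul_comm, smul_mul_assoc] at h
  exact (smul_right_injective _ (two_ne_zero (α := ℂ)) (sub_right_injective h)).symm

/-- A vector on which the mirrors of the groups act as adjoints. -/
def Inv (B : Base H) (v : H) : Prop := ∀ g ∈ B.Γ.carrier, jop B.J g v = star g v

lemma inv_xi : B.Inv B.ξ := fun _ hg => xi_star hg

lemma inv_part (hq : q ∈ B.Z.cen k) : B.Inv (q B.ξ) := fun g hg => by
  rw [← mul_apply_eq_comp, ← B.fits_M.jmem g hg q (part_mem B.fits_M hq), mul_apply_eq_comp,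
    xi_star hg, ← mul_apply_eq_comp q, B.Z.comm k q hq _ (star_mem (B.memM g hg)),
    mul_apply_eq_comp]

lemma U_fix {v : H} (hv : B.Inv v) {g : H →L[ℂ] H} (hg : g ∈ B.Γ.carrier) : B.U g v = v := by
  rw [U, mul_apply_eq_comp, hv g hg, ← mul_apply_eq_comp,
    (Unitary.mem_iff.1 (Groups.unitary_carrier hg)).2, one_apply_eq_self]

lemma conj_vec (hS : B.Fits S) {v : H} (hv : B.Inv v) {g x : H →L[ℂ] H} (hg : g ∈ B.Γ.carrier)
    (hx : x ∈ S) : (g * x * star g) v = B.U g (x v) := by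
  rw [mul_apply_eq_comp, mul_apply_eq_comp, ← hv g hg, ← mul_apply_eq_comp x,
    hS.jmem g hg x hx]
  rfl

lemma conj_xi (hS : B.Fits S) {g x : H →L[ℂ] H} (hg : g ∈ B.Γ.carrier) (hx : x ∈ S) :
    (g * x * star g) B.ξ = B.U g (x B.ξ) :=
  conj_vec hS inv_xi hg hx

lemma inner_part (hq : q ∈ B.Z.cen k) (v w : H) : ⟪q v, w⟫_ℂ = ⟪v, q w⟫_ℂ := by
  conv_lhs => rw [← (B.Z.proj k q hq).1]
  rw [ContinuousLinearMap.star_eq_adjoint, ContinuousLinearMap.adjoint_inner_left]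

lemma part_idem (hq : q ∈ B.Z.cen k) (v : H) : q (q v) = q v := by
  rw [← mul_apply_eq_comp, (B.Z.proj k q hq).2.1]

lemma sum_part (B : Base H) (m : ℕ) (v : H) : ∑ r ∈ B.Z.cen m, r v = v := by
  rw [← sum_apply, B.Z.sum, one_apply_eq_self]

/-- The squares of the parts of a vector. -/
lemma sum_part_sq (B : Base H) (m : ℕ) (v : H) : ∑ r ∈ B.Z.cen m, ‖r v‖ ^ 2 = ‖v‖ ^ 2 := by
  calc ∑ r ∈ B.Z.cen m, ‖r v‖ ^ 2 = ∑ r ∈ B.Z.cen m, (⟪v, r v⟫_ℂ).re :=
        Finset.sum_congr rfl fun r hr => by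
          have e := inner_self_eq_norm_sq (𝕜 := ℂ) (r v)
          rw [inner_part hr, part_idem hr] at e
          exact e.symm
    _ = ‖v‖ ^ 2 := by
        rw [← Complex.re_sum, ← inner_sum, sum_part]
        exact inner_self_eq_norm_sq (𝕜 := ℂ) v

lemma sum_part_xi (B : Base H) (m : ℕ) : ∑ r ∈ B.Z.cen m, ‖r B.ξ‖ ^ 2 = 1 := by
  rw [sum_part_sq, B.std.norm_eq, one_pow]

lemma sum_part_mul_le (B : Base H) (m : ℕ) (v w : H) :
    ∑ r ∈ B.Z.cen m, ‖r v‖ * ‖r w‖ ≤ ‖v‖ * ‖w‖ := by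
  refine (Real.sum_mul_le_sqrt_mul_sqrt _ _ _).trans (le_of_eq ?_)
  rw [sum_part_sq, sum_part_sq, Real.sqrt_sq (norm_nonneg _), Real.sqrt_sq (norm_nonneg _)]

lemma part_sum_smul {r : H →L[ℂ] H} {m : ℕ} (hr : r ∈ B.Z.cen m) (c : (H →L[ℂ] H) → ℂ) :
    r * ∑ q ∈ B.Z.cen m, c q • q = c r • r := by
  rw [Finset.mul_sum, Finset.sum_eq_single r]
  · rw [mul_smul_comm, (B.Z.proj m r hr).2.1]
  · intro q hq hne
    rw [mul_smul_comm, B.Z.orth m r hr q hq hne.symm, smul_zero]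
  · exact fun h => absurd hr h

lemma part_below {k m : ℕ} (hkm : k ≤ m) {r : H →L[ℂ] H} (hr : r ∈ B.Z.cen m) :
    ∃ p ∈ B.Z.cen k, r * p = r := by
  induction m, hkm using Nat.le_induction generalizing r with
  | base => exact ⟨r, hr, (B.Z.proj k r hr).2.1⟩
  | succ n _ ih =>
    obtain ⟨p, hp, hrp⟩ := B.Z.refine' n r hr
    obtain ⟨p', hp', hpp⟩ := ih hp
    exact ⟨p', hp', by rw [← hrp, mul_assoc, hpp]⟩

lemma part_mul {k m : ℕ} (hkm : k ≤ m) {r : H →L[ℂ] H} (hr : r ∈ B.Z.cen m) {p : H →L[ℂ] H}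
    (hp : p ∈ B.Z.cen k) : r * p = r ∨ r * p = 0 := by
  obtain ⟨p', hp', h⟩ := part_below hkm hr
  rcases eq_or_ne p' p with rfl | hne
  · exact Or.inl h
  · right
    rw [← h, mul_assoc, B.Z.orth k p' hp' p hp hne, mul_zero]

/-- The weight of `x` on a part. -/
noncomputable def coef (B : Base H) (r x : H →L[ℂ] H) : ℂ :=
  ((‖r B.ξ‖ ^ 2)⁻¹ : ℝ) * ⟪r B.ξ, x (r B.ξ)⟫_ℂ

/-- The operator constant on the parts of the `m`-th partition with the weights of `x`. -/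
noncomputable def cen (B : Base H) (m : ℕ) (x : H →L[ℂ] H) : H →L[ℂ] H :=
  ∑ r ∈ B.Z.cen m, B.coef r x • r

lemma norm_coef_le {r : H →L[ℂ] H} (hr : r ∈ B.Z.cen k) (x : H →L[ℂ] H) : ‖B.coef r x‖ ≤ ‖x‖ := by
  have h0 : 0 < ‖r B.ξ‖ := norm_pos_iff.2 (part_ne hr)
  rw [coef, norm_mul, Complex.norm_real, Real.norm_eq_abs, abs_of_pos (by positivity),
    inv_mul_le_iff₀ (by positivity)]
  refine (norm_inner_le_norm (𝕜 := ℂ) _ _).trans ?_
  nlinarith [x.le_opNorm (r B.ξ)]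

lemma part_cen {r : H →L[ℂ] H} {m : ℕ} (hr : r ∈ B.Z.cen m) (x : H →L[ℂ] H) (v : H) :
    r (B.cen m x v) = B.coef r x • r v := by
  rw [← mul_apply_eq_comp, cen, part_sum_smul hr, smul_apply]

lemma norm_cen_le (m : ℕ) (x : H →L[ℂ] H) (v : H) : ‖B.cen m x v‖ ≤ ‖x‖ * ‖v‖ := by
  refine le_of_pow_le_pow_left₀ two_ne_zero (by positivity) ?_
  rw [← sum_part_sq B m, mul_pow, ← sum_part_sq B m v, Finset.mul_sum]
  refine Finset.sum_le_sum fun r hr => ?_
  rw [part_cen hr, norm_smul, ← mul_pow]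
  exact pow_le_pow_left₀ (by positivity)
    (mul_le_mul_of_nonneg_right (norm_coef_le hr x) (norm_nonneg _)) 2

/-- The projection on the span of the parts of the `m`-th partition at `ξ`. -/
noncomputable def lev (B : Base H) (m : ℕ) (v : H) : H :=
  ∑ r ∈ B.Z.cen m, (((‖r B.ξ‖ ^ 2)⁻¹ : ℝ) * ⟪r B.ξ, v⟫_ℂ) • r B.ξ

lemma part_lev {r : H →L[ℂ] H} {m : ℕ} (hr : r ∈ B.Z.cen m) (v : H) :
    r (B.lev m v) = (((‖r B.ξ‖ ^ 2)⁻¹ : ℝ) * ⟪r B.ξ, v⟫_ℂ) • r B.ξ := by
  rw [lev, map_sum, Finset.sum_eq_single r]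
  · rw [map_smul, part_idem hr]
  · intro q hq hne
    rw [map_smul, ← mul_apply_eq_comp, B.Z.orth m r hr q hq hne.symm, zero_apply, smul_zero]
  · exact fun h => absurd hr h

lemma cen_xi (hS : B.Fits S) {x : H →L[ℂ] H} (hx : x ∈ S) (m : ℕ) :
    B.cen m x B.ξ = B.lev m (x B.ξ) := by
  rw [cen, lev, sum_apply]
  refine Finset.sum_congr rfl fun r hr => ?_
  rw [smul_apply, coef, ← mul_apply_eq_comp x, ← part_comm hS hr hx, mul_apply_eq_comp,
    ← inner_part hr, part_idem hr]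

lemma norm_lev_le (m : ℕ) (v : H) : ‖B.lev m v‖ ≤ ‖v‖ := by
  refine le_of_pow_le_pow_left₀ two_ne_zero (norm_nonneg _) ?_
  rw [← sum_part_sq B m, ← sum_part_sq B m v]
  refine Finset.sum_le_sum fun r hr => pow_le_pow_left₀ (norm_nonneg _) ?_ 2
  have h0 : 0 < ‖r B.ξ‖ := norm_pos_iff.2 (part_ne hr)
  rw [part_lev hr, norm_smul, norm_mul, Complex.norm_real, Real.norm_eq_abs,
    abs_of_pos (by positivity), show ⟪r B.ξ, v⟫_ℂ = ⟪r B.ξ, r v⟫_ℂ by
      rw [← inner_part hr, part_idem hr], pow_two, mul_inv, mul_assoc, mul_assoc,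
    inv_mul_le_iff₀ h0, inv_mul_le_iff₀ h0]
  nlinarith [norm_inner_le_norm (𝕜 := ℂ) (r B.ξ) (r v)]

lemma lev_sub (m : ℕ) (v w : H) : B.lev m (v - w) = B.lev m v - B.lev m w := by
  simp only [lev, inner_sub_right, mul_sub, sub_smul, Finset.sum_sub_distrib]

lemma lev_part {k m : ℕ} (hkm : k ≤ m) {p : H →L[ℂ] H} (hp : p ∈ B.Z.cen k) :
    B.lev m (p B.ξ) = p B.ξ := by
  conv_rhs => rw [← sum_part B m (p B.ξ)]
  refine Finset.sum_congr rfl fun r hr => ?_
  have e : r (p B.ξ) = (r * p) B.ξ := rfl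
  rw [e]
  have hn : (‖r B.ξ‖ : ℂ) ≠ 0 := by simpa using part_ne hr
  rcases part_mul hkm hr hp with h | h
  · have e2 : ⟪r B.ξ, p B.ξ⟫_ℂ = ⟪r B.ξ, r (p B.ξ)⟫_ℂ := by rw [← inner_part hr, part_idem hr]
    rw [h]
    have : ((‖r B.ξ‖ ^ 2)⁻¹ : ℝ) * ⟪r B.ξ, p B.ξ⟫_ℂ = 1 := by
      rw [e2, e, h, inner_self_eq_norm_sq_to_K, Complex.ofReal_inv, Complex.ofReal_pow]
      exact inv_mul_cancel₀ (pow_ne_zero 2 hn)
    rw [this, one_smul]
  · have : ⟪r B.ξ, p B.ξ⟫_ℂ = 0 := by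
      rw [show r B.ξ = r (r B.ξ) from (part_idem hr _).symm, inner_part hr, e, h]
      simp
    rw [h, this, mul_zero, zero_smul, zero_apply]

/-- The average of `g x g*` over the `m`-th group. -/
noncomputable def cavg (B : Base H) (m : ℕ) (x : H →L[ℂ] H) : H →L[ℂ] H :=
  avg B.Γ m fun g => g * x * star g

lemma cavg_mem (hS : B.Fits S) {x : H →L[ℂ] H} (hx : x ∈ S) (m : ℕ) : B.cavg m x ∈ S :=
  SMulMemClass.smul_mem (s := S.toStarSubalgebra) _ (sum_mem fun g hg =>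
    show g * x * star g ∈ S from mul_mem (mul_mem (hS.mem g ⟨m, hg⟩) hx)
      (star_mem (hS.mem g ⟨m, hg⟩)))

lemma norm_cavg_le (x : H →L[ℂ] H) (m : ℕ) : ‖B.cavg m x‖ ≤ ‖x‖ := by
  refine norm_avg_le fun g hg => ?_
  have hu := norm_le_one (B.Γ.mem_unitary m g hg)
  refine (norm_mul_le _ _).trans
    ((mul_le_of_le_one_right (norm_nonneg _) (by rwa [norm_star])).trans ?_)
  exact (norm_mul_le _ _).trans (mul_le_of_le_one_left (norm_nonneg _) hu)

lemma cavg_commute {m : ℕ} {k : H →L[ℂ] H} (hk : k ∈ B.Γ.G m) (x : H →L[ℂ] H) :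
    Commute k (B.cavg m x) := by
  have hu := Unitary.mem_iff.1 (B.Γ.mem_unitary m k hk)
  show k * B.cavg m x = B.cavg m x * k
  have e : k * B.cavg m x * star k = B.cavg m x := by
    conv_rhs => rw [cavg, ← avg_shift hk]
    simp only [cavg, avg, mul_smul_comm, smul_mul_assoc, Finset.mul_sum, Finset.sum_mul, star_mul,
      mul_assoc]
  nth_rewrite 2 [← e]
  rw [mul_assoc _ _ k, hu.1, mul_one]

/-- The average of `U` over the `m`-th group, applied to a vector. -/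
noncomputable def P (B : Base H) (m : ℕ) (v : H) : H :=
  ((B.Γ.G m).card : ℂ)⁻¹ • ∑ g ∈ B.Γ.G m, B.U g v

lemma cavg_xi (hS : B.Fits S) {x : H →L[ℂ] H} (hx : x ∈ S) (m : ℕ) :
    B.cavg m x B.ξ = B.P m (x B.ξ) := by
  rw [cavg, avg, smul_apply, sum_apply, P]
  exact congrArg _ (Finset.sum_congr rfl fun g hg => conj_xi hS ⟨m, hg⟩ hx)

lemma U_P {m : ℕ} {k : H →L[ℂ] H} (hk : k ∈ B.Γ.G m) (v : H) :
    B.U k (B.P m v) = B.P m v := by
  have hu := Unitary.mem_iff.1 (B.Γ.mem_unitary m k hk)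
  rw [P, map_smul, map_sum]
  congr 1
  refine Finset.sum_nbij' (fun h => k * h) (fun h => star k * h) ?_ ?_ ?_ ?_ ?_
  · exact fun h hh => B.Γ.mul_mem m k hk h hh
  · exact fun h hh => B.Γ.mul_mem m _ (B.Γ.star_mem m k hk) h hh
  · exact fun h _ => by simp only [← mul_assoc, hu.1, one_mul]
  · exact fun h _ => by simp only [← mul_assoc, hu.2, one_mul]
  · exact fun h hh => by rw [← mul_apply_eq_comp, U_mul ⟨m, hk⟩ ⟨m, hh⟩]

lemma inner_P_fixed {m : ℕ} {v w : H} (hw : ∀ g ∈ B.Γ.G m, B.U g w = w) :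
    ⟪w, B.P m v⟫_ℂ = ⟪w, v⟫_ℂ := by
  rw [P, inner_smul_right, inner_sum]
  have : ∀ g ∈ B.Γ.G m, ⟪w, B.U g v⟫_ℂ = ⟪w, v⟫_ℂ := fun g hg => by
    conv_lhs => rw [← hw g hg]
    exact inner_unitary (U_unitary ⟨m, hg⟩) _ _
  rw [Finset.sum_congr rfl this, Finset.sum_const, nsmul_eq_mul, ← mul_assoc,
    inv_mul_cancel₀ (card_ne m), one_mul]

lemma norm_sub_P_sq {m n : ℕ} (hmn : m ≤ n) (v : H) :
    ‖B.P m v - B.P n v‖ ^ 2 = ‖B.P m v‖ ^ 2 - ‖B.P n v‖ ^ 2 := by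
  have hn : ∀ g ∈ B.Γ.G n, B.U g (B.P n v) = B.P n v := fun g hg => U_P hg v
  have h1 : ⟪B.P n v, B.P m v⟫_ℂ = ⟪B.P n v, v⟫_ℂ :=
    inner_P_fixed fun g hg => hn g (B.Γ.mono m n hmn hg)
  have h2 : ⟪B.P n v, B.P n v⟫_ℂ = ⟪B.P n v, v⟫_ℂ := inner_P_fixed hn
  rw [@norm_sub_sq ℂ, inner_re_symm, h1, ← h2, ← @inner_self_eq_norm_sq ℂ _ _ _ _ (B.P n v)]
  ring

/-- An invariant vector comes from the partitions. -/
lemma fixed_mem {η : H} (hfix : ∀ g ∈ B.Γ.carrier, B.U g η = η) : η ∈ B.Z.closedSpan B.ξ :=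
  B.irred η fun g hg z hz => by
    have hgM := B.memM g hg
    have e : B.U g ((z * g) B.ξ) = g (z B.ξ) := by
      rw [← B.conj_xi B.fits_M hg (mul_mem hz hgM)]
      simp only [mul_assoc, (Unitary.mem_iff.1 (Groups.unitary_carrier hg)).2, mul_one,
        mul_apply_eq_comp]
    calc ⟪η, g (z B.ξ)⟫_ℂ = ⟪B.U g η, B.U g ((z * g) B.ξ)⟫_ℂ := by rw [hfix g hg, e]
      _ = ⟪η, (z * g) B.ξ⟫_ℂ := inner_unitary (U_unitary hg) _ _

/-- The averages of a vector are asymptotically in the span of the parts. -/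
theorem tendsto_P (v : H) :
    Tendsto (fun m => B.P m v - B.lev m v) atTop (𝓝 0) := by
  set a : ℕ → ℝ := fun m => ‖B.P m v‖ ^ 2
  have hanti : Antitone a := fun m n h => by
    have := norm_sub_P_sq (B := B) h v
    simp only [a]
    nlinarith [sq_nonneg ‖B.P m v - B.P n v‖]
  have hcv := tendsto_atTop_ciInf hanti ⟨0, by rintro _ ⟨m, rfl⟩; exact sq_nonneg _⟩
  have hc : CauchySeq fun m => B.P m v := by
    refine Metric.cauchySeq_iff'.2 fun ε hε => ?_
    obtain ⟨N, hN⟩ := Metric.tendsto_atTop.1 hcv (ε ^ 2 / 2) (by positivity)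
    refine ⟨N, fun n hn => ?_⟩
    have h1 := abs_lt.1 (hN n hn)
    have h2 := abs_lt.1 (hN N le_rfl)
    rw [dist_eq_norm, norm_sub_rev]
    refine lt_of_pow_lt_pow_left₀ 2 hε.le ?_
    rw [norm_sub_P_sq hn]
    simp only [a] at h1 h2
    linarith [h1.1, h2.2]
  obtain ⟨η, hη⟩ := cauchySeq_tendsto_of_complete hc
  have hfix : ∀ g ∈ B.Γ.carrier, B.U g η = η := fun g hg =>
    tendsto_nhds_unique ((((B.U g).continuous).tendsto η).comp hη)
      (hη.congr' ((Groups.eventually_mem hg).mono fun m hm => (U_P hm v).symm))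
  have hQ : Tendsto (fun m => B.lev m η) atTop (𝓝 η) := by
    refine Metric.tendsto_atTop.2 fun ε hε => ?_
    obtain ⟨w, hw, hd⟩ := Metric.mem_closure_iff.1 (fixed_mem hfix) (ε / 2) (half_pos hε)
    rw [dist_eq_norm] at hd
    have hev : ∀ᶠ m in atTop, B.lev m w = w := by
      refine Submodule.span_induction ?_ ?_ ?_ ?_ hw
      · rintro _ ⟨k, p, hp, rfl⟩
        exact (eventually_ge_atTop k).mono fun m hm => lev_part hm hp
      · exact Eventually.of_forall fun m => by simp [lev]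
      · intro a b _ _ ha hb
        filter_upwards [ha, hb] with m h1 h2
        rw [← sub_neg_eq_add, lev_sub, ← zero_sub b, lev_sub, h1, h2]
        simp [lev]
      · intro c a _ ha
        filter_upwards [ha] with m h1
        conv_rhs => rw [← h1]
        simp only [lev, inner_smul_right, Finset.smul_sum, smul_smul]
        exact Finset.sum_congr rfl fun r _ => by ring_nf
    obtain ⟨N, hN⟩ := eventually_atTop.1 hev
    refine ⟨N, fun m hm => ?_⟩
    rw [dist_eq_norm]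
    have e : B.lev m η - η = B.lev m (η - w) - (η - w) := by
      rw [lev_sub, hN m hm]; abel
    rw [e]
    linarith [norm_sub_le (B.lev m (η - w)) (η - w), norm_lev_le (B := B) m (η - w)]
  have heq : ∀ m, B.lev m η = B.lev m v := fun m => by
    refine Finset.sum_congr rfl fun r hr => ?_
    have h1 : ⟪r B.ξ, η⟫_ℂ = ⟪r B.ξ, v⟫_ℂ :=
      tendsto_nhds_unique (Filter.Tendsto.inner (𝕜 := ℂ) (tendsto_const_nhds (x := r B.ξ)) hη)
        (tendsto_const_nhds.congr fun n =>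
          (inner_P_fixed fun g hg => U_fix (inv_part hr) ⟨n, hg⟩).symm)
    rw [h1]
  have := hη.sub (hQ.congr heq)
  rwa [sub_self] at this

/-- The averaged conjugates are strongly asymptotic to the operators constant on the parts. -/
theorem tendsto_cavg (hS : B.Fits S) {x : H →L[ℂ] H} (hx : x ∈ S) (w : H) :
    Tendsto (fun m => B.cavg m x w - B.cen m x w) atTop (𝓝 0) := by
  refine Metric.tendsto_atTop.2 fun ε hε => ?_
  obtain ⟨_, ⟨y, hy, rfl⟩, hd⟩ :=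
    Metric.mem_closure_iff.1 (hS.dense w) (ε / (4 * (‖x‖ + 1))) (by positivity)
  rw [dist_eq_norm] at hd
  have hy' : Tendsto (fun m => B.cavg m x (y B.ξ) - B.cen m x (y B.ξ)) atTop (𝓝 0) := by
    have h0 := (tendsto_P (B := B) (x B.ξ))
    have := ((y.continuous.tendsto _).comp h0)
    rw [map_zero] at this
    refine this.congr fun m => ?_
    have hc : B.cen m x ∈ S :=
      sum_mem fun r hr => SMulMemClass.smul_mem (s := S.toStarSubalgebra) _ (part_mem hS hr)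
    simp only [Function.comp_apply]
    rw [← cavg_xi hS hx, ← cen_xi hS hx, map_sub,
      ← mul_apply_eq_comp y, ← hy _ (cavg_mem hS hx m), mul_apply_eq_comp,
      ← mul_apply_eq_comp y, ← hy _ hc, mul_apply_eq_comp]
  obtain ⟨N, hN⟩ := Metric.tendsto_atTop.1 hy' (ε / 2) (half_pos hε)
  refine ⟨N, fun m hm => ?_⟩
  have hN' := hN m hm
  rw [dist_zero_right] at hN' ⊢
  have e : B.cavg m x w - B.cen m x w = B.cavg m x (w - y B.ξ) +
      (B.cavg m x (y B.ξ) - B.cen m x (y B.ξ)) - B.cen m x (w - y B.ξ) := by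
    rw [map_sub, map_sub]; abel
  rw [e]
  refine lt_of_le_of_lt ((norm_sub_le _ _).trans (add_le_add (norm_add_le _ _)
    (norm_cen_le m x _))) ?_
  have h1 : ‖B.cavg m x (w - y B.ξ)‖ ≤ ‖x‖ * ‖w - y B.ξ‖ :=
    (ContinuousLinearMap.le_opNorm _ _).trans
      (mul_le_mul_of_nonneg_right (norm_cavg_le x m) (norm_nonneg _))
  have h3 : (‖x‖ + 1) * ‖w - y B.ξ‖ < ε / 4 := by
    rw [lt_div_iff₀ (by positivity)] at hd
    nlinarith
  nlinarith [norm_nonneg (w - y B.ξ)]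

/-- An idempotent near `M` that commutes with the groups and fixes `ξ` is the identity. -/
theorem eq_one_of_near {p m₀ : H →L[ℂ] H} {δ : ℝ} (hp : p * p = p)
    (hpg : ∀ g ∈ B.Γ.carrier, g * p = p * g) (hpξ : p B.ξ = B.ξ) (hm : m₀ ∈ B.M)
    (hd : ‖p - m₀‖ ≤ δ) (hδ : δ < 1 / 2) : p = 1 := by
  have hδ0 : 0 ≤ δ := (norm_nonneg _).trans hd
  have h1 : ∀ m w, ‖B.cavg m m₀ w - p w‖ ≤ δ * ‖w‖ := by
    intro m w
    have e : B.cavg m m₀ - p = avg B.Γ m fun g => g * (m₀ - p) * star g := by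
      have : avg B.Γ m (fun g => g * p * star g) = p := by
        rw [avg_congr (f' := fun _ => p) fun g hg => ?_, avg_const]
        rw [hpg g ⟨m, hg⟩, mul_assoc, (Unitary.mem_iff.1 (B.Γ.mem_unitary m g hg)).2, mul_one]
      conv_lhs => arg 2; rw [← this]
      simp [cavg, avg, mul_sub, sub_mul, Finset.sum_sub_distrib, smul_sub]
    rw [← sub_apply, e]
    refine ((ContinuousLinearMap.le_opNorm _ _).trans
      (mul_le_mul_of_nonneg_right (norm_avg_le fun g hg => ?_) (norm_nonneg _)))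
    have hu := norm_le_one (B.Γ.mem_unitary m g hg)
    refine (norm_mul_le _ _).trans
      ((mul_le_of_le_one_right (norm_nonneg _) (by rwa [norm_star])).trans ?_)
    exact (norm_mul_le _ _).trans
      ((mul_le_of_le_one_left (norm_nonneg _) hu).trans (by rwa [norm_sub_rev]))
  have h2 : ∀ m w, ‖B.cen m m₀ w - w‖ ≤ δ * ‖w‖ := by
    intro m w
    refine le_of_pow_le_pow_left₀ two_ne_zero (by positivity) ?_
    rw [← sum_part_sq B m, mul_pow, ← sum_part_sq B m w, Finset.mul_sum]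
    refine Finset.sum_le_sum fun r hr => ?_
    rw [map_sub, part_cen hr, ← mul_pow]
    refine pow_le_pow_left₀ (norm_nonneg _) ?_ 2
    have hpr : p (r B.ξ) = r B.ξ := by
      have h := hpg _ ⟨m, B.Z.sym m r hr⟩
      rw [mul_sub, sub_mul, mul_one, one_mul, mul_smul_comm, smul_mul_assoc] at h
      rw [← mul_apply_eq_comp, ← smul_right_injective _ (two_ne_zero (α := ℂ))
        (sub_right_injective h), mul_apply_eq_comp, hpξ]
    have h0 : 0 < ‖r B.ξ‖ := norm_pos_iff.2 (part_ne hr)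
    have e : B.coef r m₀ - 1 =
        ((‖r B.ξ‖ ^ 2)⁻¹ : ℝ) * ⟪r B.ξ, (m₀ - p) (r B.ξ)⟫_ℂ := by
      rw [sub_apply, inner_sub_right, hpr, inner_self_eq_norm_sq_to_K, coef, mul_sub]
      congr 1
      rw [Complex.ofReal_inv, Complex.ofReal_pow]
      exact (inv_mul_cancel₀ (pow_ne_zero 2 (Complex.ofReal_ne_zero.2 h0.ne'))).symm
    have hc : ‖B.coef r m₀ - 1‖ ≤ δ := by
      rw [e, norm_mul, Complex.norm_real, Real.norm_eq_abs, abs_of_pos (by positivity),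
        inv_mul_le_iff₀ (by positivity)]
      refine (norm_inner_le_norm (𝕜 := ℂ) _ _).trans ?_
      have := ((m₀ - p).le_opNorm (r B.ξ)).trans
        (mul_le_mul_of_nonneg_right (show ‖m₀ - p‖ ≤ δ by rwa [norm_sub_rev]) (norm_nonneg _))
      nlinarith
    calc ‖B.coef r m₀ • r w - r w‖ = ‖(B.coef r m₀ - 1) • r w‖ := by rw [sub_smul, one_smul]
      _ ≤ δ * ‖r w‖ := (norm_smul_le _ _).trans (mul_le_mul_of_nonneg_right hc (norm_nonneg _))
  have h4 : ∀ w, ‖w - p w‖ ≤ 2 * δ * ‖w‖ := fun w => by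
    have ht := ((tendsto_cavg B.fits_M hm w).norm.const_add (δ * ‖w‖)).const_add (δ * ‖w‖)
    rw [norm_zero, add_zero] at ht
    rw [show 2 * δ * ‖w‖ = δ * ‖w‖ + δ * ‖w‖ by ring]
    refine ge_of_tendsto' ht fun m => ?_
    calc ‖w - p w‖ = ‖(B.cavg m m₀ w - p w) - (B.cen m m₀ w - w) -
          (B.cavg m m₀ w - B.cen m m₀ w)‖ := by congr 1; abel
      _ ≤ δ * ‖w‖ + (δ * ‖w‖ + ‖B.cavg m m₀ w - B.cen m m₀ w‖) := by
          linarith [norm_sub_le ((B.cavg m m₀ w - p w) - (B.cen m m₀ w - w))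
            (B.cavg m m₀ w - B.cen m m₀ w), norm_sub_le (B.cavg m m₀ w - p w)
            (B.cen m m₀ w - w), h1 m w, h2 m w]
  ext w
  have h5 := h4 (w - p w)
  rw [map_sub, ← mul_apply_eq_comp p p, hp, sub_self, sub_zero] at h5
  have : ‖w - p w‖ = 0 := by nlinarith [norm_nonneg (w - p w)]
  rw [norm_eq_zero, sub_eq_zero] at this
  simpa using this.symm

end Base

end Vale.Agent.P096.Full.Reduce
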