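import Vale.Agent.P096.Full.Reduce.Spec
import Vale.Agent.P096.Full.Reduce.Group
import Vale.Agent.P096.Full.Reduce.Conj

/-!
P096, reduction: an algebra with countably many generators and a cyclic vector acts on a separable
space.
-/

open scoped InnerProductSpace
open Filter Topology

namespace Vale.Agent.P096.Full.Reduce

variable {H : Type} [NormedAddCommGroup H] [InnerProductSpace ℂ H] [CompleteSpace H]
/-- A countably generated algebra with a cyclic vector acts on a separable space. -/
lemma separable_of (M : VonNeumannAlgebra H) (ξ : H)
    (hd : Dense (orbit (M : Set (H →L[ℂ] H)) ξ)) (hg : Lit.IsCountablyGenerated H M) :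
    TopologicalSpace.SeparableSpace H := by
  obtain ⟨g, -, hgen⟩ := hg
  let letter : ℕ × Bool → (H →L[ℂ] H) := fun p => if p.2 then g p.1 else star (g p.1)
  set s : Set H := Set.range fun l : List (ℕ × Bool) => (l.map letter).prod ξ
  set K := (Submodule.span ℂ s).topologicalClosure with hK
  have : CompleteSpace K :=
    (Submodule.isClosed_topologicalClosure (Submodule.span ℂ s)).completeSpace_coe
  have hinv : ∀ p, ∀ v ∈ K, letter p v ∈ K := by
    intro p
    have h1 : ∀ v ∈ Submodule.span ℂ s, letter p v ∈ Submodule.span ℂ s := by
      intro v hv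
      have : Submodule.span ℂ s ≤ (Submodule.span ℂ s).comap (letter p : H →ₗ[ℂ] H) := by
        refine Submodule.span_le.2 ?_
        rintro - ⟨l, rfl⟩
        exact Submodule.subset_span ⟨p :: l, by simp⟩
      exact this hv
    intro v hv
    rw [← SetLike.mem_coe, hK, Submodule.topologicalClosure_coe] at hv ⊢
    exact map_mem_closure (letter p).continuous hv h1
  have hP : K.starProjection ∈ commutantSet (Set.range g) := by
    rintro _ ⟨k, rfl⟩ v
    refine Submodule.eq_starProjection_of_mem_of_inner_eq_zero
      (hinv (k, true) _ (K.starProjection_apply_mem v)) (fun w hw => ?_) |>.symm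
    show ⟪g k v - g k (K.starProjection v), w⟫_ℂ = 0
    rw [← map_sub, ← ContinuousLinearMap.adjoint_inner_right]
    refine Submodule.starProjection_inner_eq_zero v _ ?_
    simpa [letter, ContinuousLinearMap.star_eq_adjoint] using hinv (k, false) w hw
  have hξ : ξ ∈ K := Submodule.le_topologicalClosure _ (Submodule.subset_span ⟨[], rfl⟩)
  have hall : ∀ x ∈ (M : Set (H →L[ℂ] H)), x ξ ∈ K := fun x hx => by
    have := hgen hP x hx ξ
    rw [Submodule.starProjection_eq_self_iff.2 hξ] at this
    exact Submodule.starProjection_eq_self_iff.1 this.symm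
  refine TopologicalSpace.isSeparable_univ_iff.1
    ((((Set.countable_range _).isSeparable (s := s)).span (R := ℂ)).closure.mono fun v _ => ?_)
  refine hd.induction ?_ isClosed_closure v
  rintro _ ⟨x, hx, rfl⟩
  simpa [hK, ← SetLike.mem_coe, Submodule.topologicalClosure_coe] using hall x hx

end Vale.Agent.P096.Full.Reduce
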