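import Mathlib

/-!
P096, reduction: means over random sums with random signs, by recursion on the number of terms.
-/

namespace Vale.Agent.P096.Full.Reduce

variable {ι : Type*} {V W : Type*} [AddCommGroup V] [AddCommGroup W]

/-- The mean over a finite set. -/
noncomputable def mean (s : Finset ι) (u : ι → ℝ) : ℝ := (s.card : ℝ)⁻¹ * ∑ i ∈ s, u i

/-- The mean of `f` at a sum of `n` terms `± y i`. -/
noncomputable def rs (s : Finset ι) (y : ι → V) : ℕ → (V → ℝ) → ℝ
  | 0, f => f 0
  | n + 1, f => mean s fun i => rs s y n fun Z => (f (Z + y i) + f (Z - y i)) / 2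

variable {s : Finset ι} {y : ι → V}

lemma mean_mono {u v : ι → ℝ} (h : ∀ i ∈ s, u i ≤ v i) : mean s u ≤ mean s v :=
  mul_le_mul_of_nonneg_left (Finset.sum_le_sum h) (by positivity)

lemma mean_add (u v : ι → ℝ) : mean s (fun i => u i + v i) = mean s u + mean s v := by
  rw [mean, mean, mean, Finset.sum_add_distrib, mul_add]

lemma mean_const_mul (c : ℝ) (u : ι → ℝ) : mean s (fun i => c * u i) = c * mean s u := by
  rw [mean, mean, ← Finset.mul_sum]; ring

lemma mean_const (hs : s.Nonempty) (c : ℝ) : mean s (fun _ => c) = c := by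
  rw [mean, Finset.sum_const, nsmul_eq_mul, ← mul_assoc,
    inv_mul_cancel₀ (Nat.cast_ne_zero.2 hs.card_pos.ne'), one_mul]

lemma mean_comm (u : ι → ι → ℝ) :
    (mean s fun i => mean s fun j => u i j) = mean s fun j => mean s fun i => u i j := by
  simp only [mean, ← Finset.mul_sum]
  rw [Finset.sum_comm]

lemma mean_congr {u v : ι → ℝ} (h : ∀ i ∈ s, u i = v i) : mean s u = mean s v := by
  rw [mean, mean, Finset.sum_congr rfl h]

lemma rs_add (n : ℕ) (f g : V → ℝ) :
    rs s y n (fun Z => f Z + g Z) = rs s y n f + rs s y n g := by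
  induction n generalizing f g with
  | zero => rfl
  | succ n ih =>
    rw [rs, rs, rs, ← mean_add]
    refine mean_congr fun i _ => ?_
    rw [← ih]
    congr 1
    funext Z
    ring

lemma rs_const_mul (n : ℕ) (c : ℝ) (f : V → ℝ) :
    rs s y n (fun Z => c * f Z) = c * rs s y n f := by
  induction n generalizing f with
  | zero => rfl
  | succ n ih =>
    rw [rs, rs, ← mean_const_mul]
    refine mean_congr fun i _ => ?_
    rw [← ih]
    congr 1
    funext Z
    ring

lemma rs_const (hs : s.Nonempty) (n : ℕ) (c : ℝ) : rs s y n (fun _ => c) = c := by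
  induction n with
  | zero => rfl
  | succ n ih => simp [rs, ih, mean_const hs]

/-- Monotonicity, tested on a set containing the sums. -/
lemma rs_mono {P : V → Prop} (h0 : P 0) (hP : ∀ Z, P Z → ∀ i ∈ s, P (Z + y i) ∧ P (Z - y i))
    (n : ℕ) {f g : V → ℝ} (h : ∀ Z, P Z → f Z ≤ g Z) : rs s y n f ≤ rs s y n g := by
  induction n generalizing f g with
  | zero => exact h 0 h0
  | succ n ih =>
    refine mean_mono fun i hi => ih fun Z hZ => ?_
    linarith [h _ (hP Z hZ i hi).1, h _ (hP Z hZ i hi).2]

lemma rs_comp (π : V →+ W) (n : ℕ) (f : W → ℝ) :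
    rs s y n (fun Z => f (π Z)) = rs s (fun i => π (y i)) n f := by
  induction n generalizing f with
  | zero => simp [rs]
  | succ n ih =>
    refine mean_congr fun i _ => ?_
    rw [← ih]
    simp

/-- The mean of a quadratic function. -/
lemma rs_quad (hs : s.Nonempty) {Q : V → ℝ} (h0 : Q 0 = 0)
    (hQ : ∀ a b, Q (a + b) + Q (a - b) = 2 * Q a + 2 * Q b) (n : ℕ) :
    rs s y n Q = n * mean s (fun i => Q (y i)) := by
  induction n with
  | zero => simp [rs, h0]
  | succ n ih =>
    have e : ∀ i, (fun Z => (Q (Z + y i) + Q (Z - y i)) / 2) = fun Z => Q Z + Q (y i) := fun i => by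
      funext Z
      rw [hQ]
      ring
    simp only [rs, e, rs_add, rs_const hs, ih]
    rw [mean_add, mean_const hs]
    push_cast
    ring

end Vale.Agent.P096.Full.Reduce
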