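import Vale.Agent.P096.Full.Reduce.Avg
import Vale.Agent.P096.Full.Reduce.Sums

/-!
P096, reduction: second and fourth moments of random sums of conjugates, and cutting off.
-/

open scoped InnerProductSpace
open Filter Topology

namespace Vale.Agent.P096.Full.Reduce

variable {H : Type} [NormedAddCommGroup H] [InnerProductSpace ℂ H] [CompleteSpace H]

lemma norm_sq_selfAdjoint {y : H →L[ℂ] H} (hy : IsSelfAdjoint y) (v : H) :
    ‖y v‖ ^ 2 = (⟪v, (y * y) v⟫_ℂ).re := by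
  conv_rhs => rw [mul_apply_eq_comp, ← ContinuousLinearMap.adjoint_inner_left,
    ← ContinuousLinearMap.star_eq_adjoint, hy.star_eq]
  exact (inner_self_eq_norm_sq (𝕜 := ℂ) (y v)).symm

lemma commute_U {B : Base H} {S : VonNeumannAlgebra H} (hS : B.Fits S) {g a : H →L[ℂ] H}
    (hg : g ∈ B.Γ.carrier) (ha : a ∈ S) (hga : Commute g a) : a * B.U g = B.U g * a := by
  rw [Base.U, ← mul_assoc, ← hga.eq, mul_assoc, hS.jmem g hg a ha, ← mul_assoc]

namespace Base

variable {B : Base H} {S : VonNeumannAlgebra H}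

lemma norm_conj_vec (hS : B.Fits S) {v : H} (hv : B.Inv v) {g x : H →L[ℂ] H}
    (hg : g ∈ B.Γ.carrier) (hx : x ∈ S) : ‖(g * x * star g) v‖ = ‖x v‖ := by
  rw [conj_vec hS hv hg hx, norm_unitary (U_unitary hg)]

lemma mean_re_inner (m : ℕ) (u : (H →L[ℂ] H) → H) (w : H) :
    mean (B.Γ.G m) (fun g => (⟪u g, w⟫_ℂ).re) =
      (⟪((B.Γ.G m).card : ℂ)⁻¹ • ∑ g ∈ B.Γ.G m, u g, w⟫_ℂ).re := by
  rw [mean, inner_smul_left, sum_inner, map_inv₀, map_natCast, ← Complex.ofReal_natCast,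
    ← Complex.ofReal_inv, Complex.re_ofReal_mul, Complex.re_sum]

lemma mean_re_inner_right (m : ℕ) (u : (H →L[ℂ] H) → H) (w : H) :
    mean (B.Γ.G m) (fun g => (⟪w, u g⟫_ℂ).re) =
      (⟪w, ((B.Γ.G m).card : ℂ)⁻¹ • ∑ g ∈ B.Γ.G m, u g⟫_ℂ).re := by
  rw [mean, inner_smul_right, inner_sum, ← Complex.ofReal_natCast, ← Complex.ofReal_inv,
    Complex.re_ofReal_mul, Complex.re_sum]

/-- The fourth moment of a random sum of conjugates. -/
theorem rs_fourth (hS : B.Fits S) {v : H} (hv : B.Inv v) {x : H →L[ℂ] H} (hx : x ∈ S)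
    (hxs : IsSelfAdjoint x) (m n : ℕ) :
    rs (B.Γ.G m) (fun g => g * x * star g) n (fun Z => ‖(Z * Z) v‖ ^ 2) ≤
      (n : ℝ) ^ 2 * (‖B.cavg m (x * x) v‖ ^ 2 +
        2 * (⟪x v, B.cavg m (x * x) (x v)⟫_ℂ).re) + n * (‖x‖ ^ 4 * ‖v‖ ^ 2) := by
  set s := B.Γ.G m with hsdef
  set y : (H →L[ℂ] H) → (H →L[ℂ] H) := fun g => g * x * star g with hy
  set ξ := v with hξ
  set A := B.cavg m (x * x) with hA
  have hs : s.Nonempty := ⟨1, B.Γ.one_mem m⟩
  have hysa : ∀ g, IsSelfAdjoint (y g) := fun g => hxs.conjugate g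
  have hyy : ∀ g ∈ s, y g * y g = g * (x * x) * star g := fun g hg => by
    simp only [hy, mul_assoc]
    rw [← mul_assoc (star g) g, (Unitary.mem_iff.1 (B.Γ.mem_unitary m g hg)).1, one_mul]
  have hmean : ((s.card : ℂ)⁻¹ • ∑ g ∈ s, y g * y g) = A := by
    rw [hA, cavg, avg, Finset.sum_congr rfl hyy]
  have hsq : ∀ v, mean s (fun h => ‖y h v‖ ^ 2) = (⟪v, A v⟫_ℂ).re := fun v => by
    simp only [norm_sq_selfAdjoint (hysa _)]
    rw [hsdef, mean_re_inner_right, ← sum_apply, ← smul_apply, ← hsdef, hmean]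
  set q := (⟪x ξ, A (x ξ)⟫_ℂ).re with hq
  have hQ : mean s (fun g => mean s fun h => ‖y h (y g ξ)‖ ^ 2) = q := by
    rw [mean_congr (v := fun _ => q) fun g hg => ?_, mean_const hs]
    rw [hsq, hy]
    simp only
    rw [conj_vec hS hv ⟨m, hg⟩ hx, ← mul_apply_eq_comp A, commute_U hS ⟨m, hg⟩
      (cavg_mem hS (mul_mem hx hx) m) (cavg_commute hg _), mul_apply_eq_comp,
      inner_unitary (U_unitary ⟨m, hg⟩)]
  have hyn : ∀ g ∈ s, ‖(y g * y g) ξ‖ ^ 2 ≤ ‖x‖ ^ 4 * ‖ξ‖ ^ 2 := fun g hg => by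
    rw [hyy g hg, norm_conj_vec hS hv ⟨m, hg⟩ (mul_mem hx hx)]
    have : ‖(x * x) ξ‖ ≤ ‖x‖ * ‖x‖ * ‖ξ‖ := ((x * x).le_opNorm ξ).trans
      (mul_le_mul_of_nonneg_right (norm_mul_le _ _) (norm_nonneg _))
    calc ‖(x * x) ξ‖ ^ 2 ≤ (‖x‖ * ‖x‖ * ‖ξ‖) ^ 2 := pow_le_pow_left₀ (norm_nonneg _) this 2
      _ = ‖x‖ ^ 4 * ‖ξ‖ ^ 2 := by ring
  induction n with
  | zero => simp [rs]
  | succ n ih =>
    set F := fun Z : H →L[ℂ] H => ‖(Z * Z) ξ‖ ^ 2
    set c : (H →L[ℂ] H) → (H →L[ℂ] H) → ℝ := fun g Z => (⟪(Z * Z) ξ, (y g * y g) ξ⟫_ℂ).re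
    set d : (H →L[ℂ] H) → (H →L[ℂ] H) → ℝ := fun g Z => ‖Z (y g ξ)‖ ^ 2
    set d' : (H →L[ℂ] H) → (H →L[ℂ] H) → ℝ := fun g Z => ‖y g (Z ξ)‖ ^ 2
    have hstep : ∀ g ∈ s, rs s y n (fun Z => (F (Z + y g) + F (Z - y g)) / 2) ≤
        rs s y n F + 2 * (n * mean s fun h => c g (y h)) + ‖x‖ ^ 4 * ‖ξ‖ ^ 2 +
          (2 * (n * mean s fun h => d g (y h)) + 2 * (n * mean s fun h => d' g (y h))) := by
      intro g hg
      rw [← rs_quad hs (Q := c g) (by simp [c]) (fun a b => by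
          simp only [c, add_mul, mul_add, sub_mul, mul_sub, add_apply, sub_apply, inner_add_left,
            inner_sub_left, Complex.add_re, Complex.sub_re]
          ring) n,
        ← rs_quad hs (Q := d g) (by simp [d]) (fun a b => by
          simp only [d, add_apply, sub_apply]
          nlinarith [parallelogram_law_with_norm ℂ (a (y g ξ)) (b (y g ξ))]) n,
        ← rs_quad hs (Q := d' g) (by simp [d']) (fun a b => by
          simp only [d', add_apply, sub_apply, map_add, map_sub]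
          nlinarith [parallelogram_law_with_norm ℂ (y g (a ξ)) (y g (b ξ))]) n,
        ← rs_const hs n (‖x‖ ^ 4 * ‖ξ‖ ^ 2) (y := y), ← rs_const_mul, ← rs_const_mul, ← rs_const_mul,
        ← rs_add, ← rs_add, ← rs_add, ← rs_add]
      refine rs_mono (P := fun _ => True) trivial (fun _ _ _ _ => ⟨trivial, trivial⟩) n
        fun Z _ => ?_
      set a := (Z * Z) ξ + (y g * y g) ξ
      set b := Z (y g ξ) + y g (Z ξ)
      have e1 : ((Z + y g) * (Z + y g)) ξ = a + b := by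
        simp only [a, b, mul_apply_eq_comp, add_apply, map_add]; abel
      have e2 : ((Z - y g) * (Z - y g)) ξ = a - b := by
        simp only [a, b, mul_apply_eq_comp, sub_apply, map_sub]; abel
      simp only [F, e1, e2, c, d, d']
      have p1 := parallelogram_law_with_norm ℂ a b
      have p2 : ‖a‖ ^ 2 = ‖(Z * Z) ξ‖ ^ 2 + 2 * (⟪(Z * Z) ξ, (y g * y g) ξ⟫_ℂ).re +
          ‖(y g * y g) ξ‖ ^ 2 := @norm_add_sq ℂ _ _ _ _ _ _
      have p3 := parallelogram_law_with_norm ℂ (Z (y g ξ)) (y g (Z ξ))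
      have p4 := sq_nonneg ‖Z (y g ξ) - y g (Z ξ)‖
      nlinarith [hyn g hg]
    refine le_trans (mean_mono hstep) ?_
    simp only [mean_add, mean_const_mul, mean_const hs]
    have hc : (mean s fun g => mean s fun h => c g (y h)) = ‖A ξ‖ ^ 2 := by
      simp only [c]
      rw [mean_congr (v := fun g => (⟪A ξ, (y g * y g) ξ⟫_ℂ).re) fun g hg => ?_]
      · rw [hsdef, mean_re_inner_right, ← sum_apply, ← smul_apply, ← hsdef, hmean]
        exact inner_self_eq_norm_sq (𝕜 := ℂ) _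
      · rw [hsdef, mean_re_inner, ← sum_apply, ← smul_apply, ← hsdef, hmean]
    have hd : (mean s fun g => mean s fun h => d g (y h)) = q := hQ
    have hd' : (mean s fun g => mean s fun h => d' g (y h)) = q :=
      (mean_comm _).trans hQ
    rw [hc, hd, hd']
    push_cast
    nlinarith [ih, sq_nonneg ‖A ξ‖, (hQ ▸ mul_nonneg (inv_nonneg.2 (Nat.cast_nonneg _))
      (Finset.sum_nonneg fun g _ => mul_nonneg (inv_nonneg.2 (Nat.cast_nonneg _))
        (Finset.sum_nonneg fun h _ => sq_nonneg _)) : (0 : ℝ) ≤ q)]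

/-- The mean square of a random sum of conjugates at an invariant vector. -/
lemma rs_second (hS : B.Fits S) {v : H} (hv : B.Inv v) {x : H →L[ℂ] H} (hx : x ∈ S) (m n : ℕ) :
    rs (B.Γ.G m) (fun g => g * x * star g) n (fun Z => ‖Z v‖ ^ 2) = n * ‖x v‖ ^ 2 := by
  have hs : (B.Γ.G m).Nonempty := ⟨1, B.Γ.one_mem m⟩
  rw [rs_quad hs (by simp) (fun a b => by
    simp only [add_apply, sub_apply]
    nlinarith [parallelogram_law_with_norm ℂ (a v) (b v)]) n,
    mean_congr (v := fun _ => ‖x v‖ ^ 2) fun g hg => by rw [norm_conj_vec hS hv ⟨m, hg⟩ hx],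
    mean_const hs]

end Base

/-- Membership of a real function of a self-adjoint element. -/
lemma cfc_mem {N : VonNeumannAlgebra H} {x : H →L[ℂ] H} (hx : x ∈ N) (f : ℝ → ℝ) :
    cfc f x ∈ N := by
  have h : cfc f x ∈ Set.centralizer (Set.centralizer (N : Set (H →L[ℂ] H))) :=
    fun z hz => ((show Commute x z from hz x hx).cfc_real f).eq.symm
  rwa [N.centralizer_centralizer] at h

/-- A smooth cut of a self-adjoint element. -/
theorem exists_cut (N : VonNeumannAlgebra H) {X : H →L[ℂ] H} (hX : X ∈ N) (hXs : IsSelfAdjoint X)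
    {R : ℝ} (hR : 0 < R) (ξ : H) :
    ∃ X' ∈ N, IsSelfAdjoint X' ∧ X - X' ∈ N ∧ IsSelfAdjoint (X - X') ∧ ‖X'‖ ≤ R / 2 ∧
      ‖X' ξ‖ ≤ ‖X ξ‖ ∧ ‖(X - X') ξ‖ ≤ 1 / (2 * R) * ‖(X * X) ξ‖ := by
  set h : ℝ → ℝ := fun t => R ^ 2 / (R ^ 2 + t ^ 2) with hh
  set k : ℝ → ℝ := fun t => t / (R ^ 2 + t ^ 2) with hk
  have hne : ∀ t : ℝ, R ^ 2 + t ^ 2 ≠ 0 := fun t => by positivity
  have hhc : Continuous h := continuous_const.div (by fun_prop) hne
  have hkc : Continuous k := continuous_id.div (by fun_prop) hne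
  set X' := cfc (fun t => h t * t) X with hX'
  have e1 : X' = cfc h X * X := by
    rw [hX', cfc_mul h (fun t => t) X hhc.continuousOn continuousOn_id, cfc_id' ℝ X]
  have e2 : X - X' = cfc k X * (X * X) := by
    have : cfc (fun t : ℝ => t * t) X = X * X := by
      rw [cfc_mul (fun t : ℝ => t) (fun t => t) X continuousOn_id continuousOn_id, cfc_id' ℝ X]
    rw [← this, ← cfc_mul k (fun t => t * t) X hkc.continuousOn (by fun_prop), hX']
    conv_lhs => arg 1; rw [← cfc_id' ℝ X]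
    rw [← cfc_sub (fun t : ℝ => t) (fun t => h t * t) X continuousOn_id
      (hhc.mul continuous_id).continuousOn]
    refine cfc_congr fun t _ => ?_
    simp only [hh, hk]
    field_simp
    ring
  have hsa : IsSelfAdjoint X' := cfc_predicate _ X
  refine ⟨X', cfc_mem hX _, hsa, sub_mem hX (cfc_mem hX _), hXs.sub hsa, ?_, ?_, ?_⟩
  · refine norm_cfc_le (by positivity) fun t _ => ?_
    rw [Real.norm_eq_abs, hh, abs_mul, abs_div, abs_of_pos (by positivity : 0 < R ^ 2),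
      abs_of_pos (by positivity : 0 < R ^ 2 + t ^ 2), div_mul_eq_mul_div,
      div_le_iff₀ (by positivity)]
    nlinarith [mul_nonneg hR.le (sq_nonneg (R - |t|)), sq_abs t]
  · rw [e1, mul_apply_eq_comp]
    refine ((cfc h X).le_opNorm _).trans (mul_le_of_le_one_left (norm_nonneg _) ?_)
    refine norm_cfc_le zero_le_one fun t _ => ?_
    rw [Real.norm_eq_abs, hh, abs_of_pos (by positivity), div_le_one (by positivity)]
    nlinarith
  · rw [e2, mul_apply_eq_comp]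
    refine ((cfc k X).le_opNorm _).trans (mul_le_mul_of_nonneg_right ?_ (norm_nonneg _))
    refine norm_cfc_le (by positivity) fun t _ => ?_
    rw [Real.norm_eq_abs, hk, abs_div, abs_of_pos (by positivity : 0 < R ^ 2 + t ^ 2),
      div_le_div_iff₀ (by positivity) (by positivity)]
    nlinarith [sq_nonneg (R - |t|), sq_abs t]

end Vale.Agent.P096.Full.Reduce
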