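import Vale.Agent.P096.Full.Reduce.Spec
import Vale.Agent.P096.Full.Reduce.Group

/-!
P096, reduction: finite central partitions whose symmetries lie in a sequence of finite groups.
-/

open scoped InnerProductSpace

namespace Vale.Agent.P096.Full.Reduce

variable {H : Type} [NormedAddCommGroup H] [InnerProductSpace ℂ H] [CompleteSpace H]

/-- Finite central partitions of `M`, refining each other, whose symmetries lie in the groups. -/
structure Parts (M : VonNeumannAlgebra H) (Γ : Groups H) where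
  /-- The partitions. -/
  cen : ℕ → Finset (H →L[ℂ] H)
  proj : ∀ k, ∀ q ∈ cen k, star q = q ∧ q * q = q ∧ q ≠ 0
  orth : ∀ k, ∀ p ∈ cen k, ∀ q ∈ cen k, p ≠ q → p * q = 0
  sum : ∀ k, ∑ q ∈ cen k, q = 1
  sym : ∀ k, ∀ q ∈ cen k, 1 - (2 : ℂ) • q ∈ Γ.G k
  refine' : ∀ k, ∀ q ∈ cen (k + 1), ∃ p ∈ cen k, q * p = q
  comm : ∀ k, ∀ q ∈ cen k, ∀ x ∈ M, q * x = x * q

/-- The closed span of the parts applied to `ξ`. -/
def Parts.closedSpan {M : VonNeumannAlgebra H} {Γ : Groups H} (Z : Parts M Γ) (ξ : H) :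
    Submodule ℂ H :=
  (Submodule.span ℂ {v | ∃ k, ∃ q ∈ Z.cen k, v = q ξ}).topologicalClosure

/-- An algebra in standard form with a countable generating set has finite groups of unitaries
whose invariant vectors come from central partitions. -/
def GroupsSpec : Prop :=
  ∀ (H : Type) [NormedAddCommGroup H] [InnerProductSpace ℂ H] [CompleteSpace H]
    (M : VonNeumannAlgebra H) (ξ : H), TracialCyclic M ξ → Lit.IsCountablyGenerated H M →
    ∃ (Γ : Groups H) (Z : Parts M Γ), (∀ g ∈ Γ.carrier, g ∈ M) ∧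
      ∀ η : H, (∀ g ∈ Γ.carrier, ∀ z ∈ M, ⟪η, g (z ξ)⟫_ℂ = ⟪η, z (g ξ)⟫_ℂ) →
        η ∈ Z.closedSpan ξ

end Vale.Agent.P096.Full.Reduce
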