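import Vale.Agent.P096.Full.Reduce.Moment

/-!
P096, reduction: near an algebra in standard form, the vector state is a trace and the two
conjugations are close.
-/

open scoped InnerProductSpace ComplexConjugate
open Filter Topology

namespace Vale.Agent.P096.Full.Reduce

variable {H : Type} [NormedAddCommGroup H] [InnerProductSpace ℂ H] [CompleteSpace H]
  {B : Base H} {S : VonNeumannAlgebra H} {γ : ℝ}

/-- The self-adjoint vectors of `M` and of `S` have small imaginary inner products. -/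
def ImLe (B : Base H) (S : VonNeumannAlgebra H) (ε : ℝ) : Prop :=
  ∀ x ∈ B.M, ∀ y ∈ S, IsSelfAdjoint x → IsSelfAdjoint y →
    |(⟪x B.ξ, y B.ξ⟫_ℂ).im| ≤ ε * (‖x B.ξ‖ * ‖y B.ξ‖)

/-- Self-adjoint elements of `S` are near self-adjoint elements of `M`. -/
def SaNear (B : Base H) (S : VonNeumannAlgebra H) (γ : ℝ) : Prop :=
  ∀ y ∈ S, IsSelfAdjoint y → ∃ d ∈ B.M, IsSelfAdjoint d ∧ ‖y - d‖ ≤ γ * ‖y‖

lemma vn_smul {T : VonNeumannAlgebra H} (c : ℂ) {z : H →L[ℂ] H} (hz : z ∈ T) : c • z ∈ T :=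
  SMulMemClass.smul_mem (s := T.toStarSubalgebra) c hz

lemma sa_half (z : H →L[ℂ] H) : IsSelfAdjoint ((1 / 2 : ℂ) • (z + star z)) := by
  rw [IsSelfAdjoint, star_smul, star_add, star_star, add_comm (star z)]
  simp

lemma im_inner_sa {x d : H →L[ℂ] H} (hx : x ∈ B.M) (hd : d ∈ B.M) (hxs : IsSelfAdjoint x)
    (hds : IsSelfAdjoint d) : (⟪x B.ξ, d B.ξ⟫_ℂ).im = 0 := by
  rw [← Complex.conj_eq_iff_im, inner_conj_symm, ← hds.star_eq, ← hxs.star_eq,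
    ContinuousLinearMap.star_eq_adjoint, ContinuousLinearMap.star_eq_adjoint,
    ContinuousLinearMap.adjoint_inner_left, ContinuousLinearMap.adjoint_inner_left,
    ← ContinuousLinearMap.star_eq_adjoint, ← ContinuousLinearMap.star_eq_adjoint, hds.star_eq,
    hxs.star_eq]
  exact B.std.trace d hd x hx

lemma part_sa {T : VonNeumannAlgebra H} (hT : B.Fits T) {k : ℕ} {r : H →L[ℂ] H}
    (hr : r ∈ B.Z.cen k) {z : H →L[ℂ] H} (hz : z ∈ T) (hzs : IsSelfAdjoint z) :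
    z * r ∈ T ∧ IsSelfAdjoint (z * r) :=
  ⟨mul_mem hz (Base.part_mem hT hr), by
    rw [IsSelfAdjoint, star_mul, hzs.star_eq, (B.Z.proj k r hr).1, Base.part_comm hT hr hz]⟩

/-- The bound holds on every part. -/
lemma ImLe.part (hS : B.Fits S) {ε : ℝ} (he : ImLe B S ε) {k : ℕ} {r : H →L[ℂ] H}
    (hr : r ∈ B.Z.cen k) {x y : H →L[ℂ] H} (hx : x ∈ B.M) (hy : y ∈ S) (hxs : IsSelfAdjoint x)
    (hys : IsSelfAdjoint y) :
    |(⟪x (r B.ξ), y (r B.ξ)⟫_ℂ).im| ≤ ε * (‖x (r B.ξ)‖ * ‖y (r B.ξ)‖) := by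
  have h1 := part_sa B.fits_M hr hx hxs
  have h2 := part_sa hS hr hy hys
  simpa only [mul_apply_eq_comp] using he _ h1.1 _ h2.1 h1.2 h2.2

/-- The distance of the averaged conjugates from the operators constant on the parts, at `v`. -/
noncomputable def gap (B : Base H) (m : ℕ) (w : H →L[ℂ] H) (v : H) : H :=
  B.cavg m w v - B.cen m w v

lemma tendsto_gap (hS : B.Fits S) {w : H →L[ℂ] H} (hw : w ∈ S) (v : H) :
    Tendsto (fun m => ‖gap B m w v‖) atTop (𝓝 0) := by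
  simpa [gap] using (Base.tendsto_cavg hS hw v).norm

lemma cavg_part (hS : B.Fits S) {w : H →L[ℂ] H} (hw : w ∈ S) {m : ℕ} {r : H →L[ℂ] H}
    (hr : r ∈ B.Z.cen m) (v : H) :
    B.cavg m w (r v) = B.coef r w • r v + r (gap B m w v) := by
  rw [gap, map_sub, Base.part_cen hr, ← mul_apply_eq_comp (B.cavg m w),
    ← Base.part_comm hS hr (Base.cavg_mem hS hw m), mul_apply_eq_comp]
  abel

lemma coef_star_mul {r : H →L[ℂ] H} (x : H →L[ℂ] H) :
    B.coef r (star x * x) = ((‖x (r B.ξ)‖ ^ 2 / ‖r B.ξ‖ ^ 2 : ℝ) : ℂ) := by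
  rw [Base.coef, mul_apply_eq_comp, ContinuousLinearMap.star_eq_adjoint,
    ContinuousLinearMap.adjoint_inner_right, inner_self_eq_norm_sq_to_K]
  push_cast
  simp only [Complex.coe_algebraMap]
  ring

/-- The fourth moment coefficient on one part. -/
lemma coeff_part (hS : B.Fits S) {z : H →L[ℂ] H} (hz : z ∈ S) (hzs : IsSelfAdjoint z) {m : ℕ}
    {r : H →L[ℂ] H} (hr : r ∈ B.Z.cen m) :
    ‖B.cavg m (z * z) (r B.ξ)‖ ^ 2 +
        2 * (⟪z (r B.ξ), B.cavg m (z * z) (z (r B.ξ))⟫_ℂ).re ≤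
      3 * (‖z (r B.ξ)‖ ^ 4 / ‖r B.ξ‖ ^ 2) +
        2 * (‖z‖ ^ 2 * (‖r B.ξ‖ * ‖r (gap B m (z * z) B.ξ)‖) +
          ‖r (z B.ξ)‖ * ‖r (gap B m (z * z) (z B.ξ))‖) := by
  set ξ := B.ξ
  have h0 : 0 < ‖r ξ‖ := norm_pos_iff.2 (Base.part_ne hr)
  have hc := coef_star_mul (B := B) (r := r) z
  rw [hzs.star_eq] at hc
  have hzr : z (r ξ) = r (z ξ) := by
    rw [← mul_apply_eq_comp, ← Base.part_comm hS hr hz, mul_apply_eq_comp]
  set c : ℝ := ‖z (r ξ)‖ ^ 2 / ‖r ξ‖ ^ 2 with hcdef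
  have hc0 : 0 ≤ c := by positivity
  have hcs : c * ‖r ξ‖ ^ 2 = ‖z (r ξ)‖ ^ 2 := div_mul_cancel₀ _ (by positivity)
  have hc1 : c ≤ ‖z‖ ^ 2 := by
    rw [hcdef, div_le_iff₀ (by positivity), ← mul_pow]
    exact pow_le_pow_left₀ (norm_nonneg _) (z.le_opNorm _) 2
  have hw : z * z ∈ S := mul_mem hz hz
  set A := B.cavg m (z * z)
  set e1 := r (gap B m (z * z) ξ)
  set e2 := r (gap B m (z * z) (z ξ))
  have hA1 : A (r ξ) = (c : ℂ) • r ξ + e1 := by rw [cavg_part hS hw hr, hc]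
  have hA2 : A (z (r ξ)) = (c : ℂ) • z (r ξ) + e2 := by rw [hzr, cavg_part hS hw hr, hc, ← hzr]
  have hn : ‖A (r ξ)‖ ≤ ‖z‖ ^ 2 * ‖r ξ‖ := by
    refine ((A.le_opNorm _).trans (mul_le_mul_of_nonneg_right ?_ (norm_nonneg _)))
    exact (Base.norm_cavg_le _ _).trans ((norm_mul_le _ _).trans_eq (pow_two _).symm)
  have hn' : ‖(c : ℂ) • r ξ‖ = c * ‖r ξ‖ := by
    rw [norm_smul, Complex.norm_real, Real.norm_eq_abs, abs_of_nonneg hc0]
  have b1 : ‖A (r ξ)‖ ^ 2 ≤ c * ‖z (r ξ)‖ ^ 2 + 2 * (‖z‖ ^ 2 * (‖r ξ‖ * ‖e1‖)) := by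
    have h1 : ‖A (r ξ)‖ ≤ c * ‖r ξ‖ + ‖e1‖ := by rw [hA1, ← hn']; exact norm_add_le _ _
    have h2 : c * ‖r ξ‖ ≤ ‖z‖ ^ 2 * ‖r ξ‖ := mul_le_mul_of_nonneg_right hc1 h0.le
    have h3 : 0 ≤ c * ‖r ξ‖ := mul_nonneg hc0 h0.le
    have h4 : (c * ‖r ξ‖) ^ 2 = c * ‖z (r ξ)‖ ^ 2 := by rw [← hcs]; ring
    rcases le_total ‖A (r ξ)‖ (c * ‖r ξ‖) with hle | hle
    · nlinarith [pow_le_pow_left₀ (norm_nonneg _) hle 2, norm_nonneg e1, sq_nonneg ‖z‖,
        mul_nonneg (sq_nonneg ‖z‖) (mul_nonneg h0.le (norm_nonneg e1))]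
    · nlinarith [mul_le_mul (show ‖A (r ξ)‖ - c * ‖r ξ‖ ≤ ‖e1‖ by linarith)
        (show ‖A (r ξ)‖ + c * ‖r ξ‖ ≤ 2 * (‖z‖ ^ 2 * ‖r ξ‖) by linarith)
        (by positivity) (norm_nonneg e1)]
  have b2 : (⟪z (r ξ), A (z (r ξ))⟫_ℂ).re ≤
      c * ‖z (r ξ)‖ ^ 2 + ‖r (z ξ)‖ * ‖e2‖ := by
    rw [hA2, inner_add_right, inner_smul_right, Complex.add_re, Complex.re_ofReal_mul]
    refine add_le_add (le_of_eq ?_) ?_
    · exact congrArg _ (inner_self_eq_norm_sq (𝕜 := ℂ) (z (r ξ)))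
    · rw [← hzr]
      exact (Complex.re_le_norm _).trans (norm_inner_le_norm _ _)
  have e : c * ‖z (r ξ)‖ ^ 2 = ‖z (r ξ)‖ ^ 4 / ‖r ξ‖ ^ 2 := by rw [hcdef]; ring
  linarith

/-- Cutting off a pair of self-adjoint elements, on one part. -/
lemma im_le_cut (hS : B.Fits S) (hγ : 0 ≤ γ) (hn : SaNear B S γ) {ε : ℝ} (hε : 0 ≤ ε)
    (he : ImLe B S ε) {k : ℕ} {q : H →L[ℂ] H} (hq : q ∈ B.Z.cen k)
    {n : ℕ} (hn0 : (0 : ℝ) < n) {X Y : H →L[ℂ] H} (hX : X ∈ B.M) (hXs : IsSelfAdjoint X)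
    (hY : Y ∈ S) (hYs : IsSelfAdjoint Y) :
    (⟪X (q B.ξ), Y (q B.ξ)⟫_ℂ).im ≤ 25 * γ * n / 4 * ‖q B.ξ‖ ^ 2 + ε / 20 *
      ((n : ℝ)⁻¹ * ‖(X * X) (q B.ξ)‖ ^ 2 + (n : ℝ)⁻¹ * ‖(Y * Y) (q B.ξ)‖ ^ 2 +
        ‖X (q B.ξ)‖ ^ 2 + ‖Y (q B.ξ)‖ ^ 2) := by
  set ξ := q B.ξ with hξ
  set r : ℝ := Real.sqrt n
  have hr : 0 < r := Real.sqrt_pos.2 hn0
  have hr2 : r ^ 2 = n := Real.sq_sqrt hn0.le
  obtain ⟨X', hX', hX's, hdX, hdXs, hXn, hXv, hXd⟩ :=
    exists_cut B.M hX hXs (show 0 < 5 * r by positivity) ξ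
  obtain ⟨Y', hY', hY's, hdY, hdYs, hYn, hYv, hYd⟩ :=
    exists_cut S hY hYs (show 0 < 5 * r by positivity) ξ
  obtain ⟨d, hd, hds, hdn⟩ := hn Y' hY' hY's
  have e : ⟪X ξ, Y ξ⟫_ℂ = ⟪X' ξ, (Y' - d) ξ⟫_ℂ + ⟪X' ξ, d ξ⟫_ℂ +
      ⟪(X - X') ξ, Y' ξ⟫_ℂ + ⟪X ξ, (Y - Y') ξ⟫_ℂ := by
    simp only [sub_apply, inner_sub_left, inner_sub_right]; ring
  have hop : ∀ T : H →L[ℂ] H, ‖T ξ‖ ≤ ‖T‖ * ‖ξ‖ := fun T => T.le_opNorm ξ
  have b1 : (⟪X' ξ, (Y' - d) ξ⟫_ℂ).im ≤ 25 * γ * n / 4 * ‖ξ‖ ^ 2 := by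
    refine (Complex.im_le_norm _).trans ((norm_inner_le_norm _ _).trans ?_)
    calc ‖X' ξ‖ * ‖(Y' - d) ξ‖ ≤ 5 * r / 2 * ‖ξ‖ * (γ * (5 * r / 2) * ‖ξ‖) := by
          refine mul_le_mul ((hop _).trans (mul_le_mul_of_nonneg_right hXn (norm_nonneg _)))
            ((hop _).trans (mul_le_mul_of_nonneg_right
              (hdn.trans (mul_le_mul_of_nonneg_left hYn hγ)) (norm_nonneg _)))
            (norm_nonneg _) (by positivity)
      _ = 25 * γ * n / 4 * ‖ξ‖ ^ 2 := by rw [← hr2]; ring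
  have b2 := (le_abs_self _).trans (he.part hS hq hdX hY' hdXs hY's)
  have b3 := (le_abs_self _).trans (he.part hS hq hX hdY hXs hdYs)
  have c2 : ‖(X - X') ξ‖ * ‖Y' ξ‖ ≤ 1 / 20 * ((n : ℝ)⁻¹ * ‖(X * X) ξ‖ ^ 2 + ‖Y ξ‖ ^ 2) := by
    refine (mul_le_mul hXd hYv (norm_nonneg _) (by positivity)).trans ?_
    simp only [← hr2]
    field_simp
    nlinarith [sq_nonneg (‖(X * X) ξ‖ - r * ‖Y ξ‖)]
  have c3 : ‖X ξ‖ * ‖(Y - Y') ξ‖ ≤ 1 / 20 * ((n : ℝ)⁻¹ * ‖(Y * Y) ξ‖ ^ 2 + ‖X ξ‖ ^ 2) := by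
    refine (mul_le_mul_of_nonneg_left hYd (norm_nonneg _)).trans ?_
    simp only [← hr2]
    field_simp
    nlinarith [sq_nonneg (‖(Y * Y) ξ‖ - r * ‖X ξ‖)]
  rw [e, Complex.add_im, Complex.add_im, Complex.add_im, show (⟪X' ξ, d ξ⟫_ℂ).im = 0 by
    have h1 := part_sa B.fits_M hq hX' hX's
    have h2 := part_sa B.fits_M hq hd hds
    simpa only [mul_apply_eq_comp] using im_inner_sa h1.1 h2.1 h1.2 h2.2]
  nlinarith [mul_le_mul_of_nonneg_left c2 hε, mul_le_mul_of_nonneg_left c3 hε]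

/-- The mean imaginary inner product of two random sums with the same terms. -/
lemma rs_im (hS : B.Fits S) {v : H} (hv : B.Inv v) {x y : H →L[ℂ] H} (hx : x ∈ B.M) (hy : y ∈ S) (m n : ℕ) :
    rs (B.Γ.G m) (fun g => (g * x * star g, g * y * star g)) n
      (fun Z => (⟪Z.1 v, Z.2 v⟫_ℂ).im) = n * (⟪x v, y v⟫_ℂ).im := by
  have hs : (B.Γ.G m).Nonempty := ⟨1, B.Γ.one_mem m⟩
  rw [rs_quad hs (by simp) (fun a b => by
    simp only [Prod.fst_add, Prod.snd_add, Prod.fst_sub, Prod.snd_sub, add_apply, sub_apply,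
      inner_add_left, inner_add_right, inner_sub_left, inner_sub_right, Complex.add_im,
      Complex.sub_im]
    ring) n]
  refine congrArg _ ((mean_congr fun g hg => ?_).trans (mean_const hs _))
  show (⟪(g * x * star g) v, (g * y * star g) v⟫_ℂ).im = _
  rw [Base.conj_vec B.fits_M hv ⟨m, hg⟩ hx,
    Base.conj_vec hS hv ⟨m, hg⟩ hy,
    inner_unitary (Base.U_unitary ⟨m, hg⟩)]

/-- A pointwise bound averaged over the random sums. -/
lemma im_le_moments (hS : B.Fits S) (hγ : 0 ≤ γ) (hn : SaNear B S γ) {ε : ℝ} (hε : 0 ≤ ε)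
    (he : ImLe B S ε) {k : ℕ} {q : H →L[ℂ] H} (hq : q ∈ B.Z.cen k) {x y : H →L[ℂ] H} (hx : x ∈ B.M) (hy : y ∈ S) (hxs : IsSelfAdjoint x)
    (hys : IsSelfAdjoint y) (m : ℕ) {n : ℕ} (hn0 : (0 : ℝ) < n) :
    n * (⟪x (q B.ξ), y (q B.ξ)⟫_ℂ).im ≤ 25 * γ * n / 4 * ‖q B.ξ‖ ^ 2 + ε / 20 *
      ((n : ℝ)⁻¹ * rs (B.Γ.G m) (fun g => g * x * star g) n (fun Z => ‖(Z * Z) (q B.ξ)‖ ^ 2) +
        (n : ℝ)⁻¹ * rs (B.Γ.G m) (fun g => g * y * star g) n (fun Z => ‖(Z * Z) (q B.ξ)‖ ^ 2) +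
        n * ‖x (q B.ξ)‖ ^ 2 + n * ‖y (q B.ξ)‖ ^ 2) := by
  have hs : (B.Γ.G m).Nonempty := ⟨1, B.Γ.one_mem m⟩
  let v : (H →L[ℂ] H) → (H →L[ℂ] H) × (H →L[ℂ] H) := fun g =>
    (g * x * star g, g * y * star g)
  let P : (H →L[ℂ] H) × (H →L[ℂ] H) → Prop := fun Z =>
    Z.1 ∈ B.M ∧ IsSelfAdjoint Z.1 ∧ Z.2 ∈ S ∧ IsSelfAdjoint Z.2
  have hP : ∀ Z, P Z → ∀ g ∈ B.Γ.G m, P (Z + v g) ∧ P (Z - v g) := by
    intro Z ⟨a1, a2, a3, a4⟩ g hg
    have b1 : g * x * star g ∈ B.M :=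
      mul_mem (mul_mem (B.memM g ⟨m, hg⟩) hx) (star_mem (B.memM g ⟨m, hg⟩))
    have b3 : g * y * star g ∈ S :=
      mul_mem (mul_mem (hS.mem g ⟨m, hg⟩) hy) (star_mem (hS.mem g ⟨m, hg⟩))
    exact ⟨⟨add_mem a1 b1, a2.add (hxs.conjugate g), add_mem a3 b3, a4.add (hys.conjugate g)⟩,
      ⟨sub_mem a1 b1, a2.sub (hxs.conjugate g), sub_mem a3 b3, a4.sub (hys.conjugate g)⟩⟩
  have key := rs_mono (y := v) (s := B.Γ.G m) (P := P)
    ⟨zero_mem _, .zero _, zero_mem _, .zero _⟩ hP n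
    (f := fun Z => (⟪Z.1 (q B.ξ), Z.2 (q B.ξ)⟫_ℂ).im)
    (g := fun Z => 25 * γ * n / 4 * ‖q B.ξ‖ ^ 2 + ε / 20 * ((n : ℝ)⁻¹ * ‖(Z.1 * Z.1) (q B.ξ)‖ ^ 2 +
      (n : ℝ)⁻¹ * ‖(Z.2 * Z.2) (q B.ξ)‖ ^ 2 + ‖Z.1 (q B.ξ)‖ ^ 2 + ‖Z.2 (q B.ξ)‖ ^ 2))
    fun Z ⟨h1, h2, h3, h4⟩ => im_le_cut hS hγ hn hε he hq hn0 h1 h2 h3 h4
  simp only [rs_add, rs_const hs, rs_const_mul] at key
  have f1 := rs_comp (s := B.Γ.G m) (y := v) (AddMonoidHom.fst _ _) n
    (fun Z : H →L[ℂ] H => ‖(Z * Z) (q B.ξ)‖ ^ 2)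
  have f2 := rs_comp (s := B.Γ.G m) (y := v) (AddMonoidHom.snd _ _) n
    (fun Z : H →L[ℂ] H => ‖(Z * Z) (q B.ξ)‖ ^ 2)
  have g1 := rs_comp (s := B.Γ.G m) (y := v) (AddMonoidHom.fst _ _) n
    (fun Z : H →L[ℂ] H => ‖Z (q B.ξ)‖ ^ 2)
  have g2 := rs_comp (s := B.Γ.G m) (y := v) (AddMonoidHom.snd _ _) n
    (fun Z : H →L[ℂ] H => ‖Z (q B.ξ)‖ ^ 2)
  simp only [AddMonoidHom.coe_fst, AddMonoidHom.coe_snd, v] at f1 f2 g1 g2
  rw [f1, f2, g1, g2, Base.rs_second B.fits_M (Base.inv_part hq) hx,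
    Base.rs_second hS (Base.inv_part hq) hy, rs_im hS (Base.inv_part hq) hx hy] at key
  exact key

/-- The arithmetic of the fourth moment bound. -/
lemma fourth_arith {n F t C a s e E X : ℝ} (hn : 0 < n)
    (i : F ≤ n ^ 2 * (t ^ 4 * C) + n * (t ^ 4 * X ^ 4 * s ^ 2))
    (hC : C ≤ 3 * (a ^ 4 / s ^ 2) + 2 * e) (q : t ^ 4 * (a ^ 4 / s ^ 2) ≤ s ^ 2)
    (he : t ^ 4 * e ≤ E) : n⁻¹ * F ≤ n * (3 * s ^ 2 + 2 * E) + t ^ 4 * X ^ 4 * s ^ 2 := by
  rw [inv_mul_le_iff₀ hn]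
  have h : t ^ 4 * C ≤ 3 * s ^ 2 + 2 * E :=
    (mul_le_mul_of_nonneg_left hC (by positivity)).trans (by linarith)
  nlinarith [mul_le_mul_of_nonneg_left h (sq_nonneg n)]

/-- One improvement on one part, up to the gaps. -/
lemma im_part_le (hS : B.Fits S) (hγ : 0 ≤ γ) (hn : SaNear B S γ) {ε : ℝ} (hε : 0 ≤ ε)
    (he : ImLe B S ε) {x y : H →L[ℂ] H} (hx : x ∈ B.M) (hy : y ∈ S) (hxs : IsSelfAdjoint x)
    (hys : IsSelfAdjoint y) {η : ℝ} (hη : 0 < η) {m : ℕ} {r : H →L[ℂ] H}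
    (hr : r ∈ B.Z.cen m) :
    (⟪x (r B.ξ), y (r B.ξ)⟫_ℂ).im ≤
      (25 * γ + ε / 2) * ((‖r (x B.ξ)‖ + η * ‖r B.ξ‖) * (‖r (y B.ξ)‖ + η * ‖r B.ξ‖)) +
      ε / 10 * ((‖x‖ + η) * (‖y‖ + η) / η ^ 4) *
        (‖x‖ ^ 2 * (‖r B.ξ‖ * ‖r (gap B m (x * x) B.ξ)‖) +
          ‖r (x B.ξ)‖ * ‖r (gap B m (x * x) (x B.ξ))‖ +
        (‖y‖ ^ 2 * (‖r B.ξ‖ * ‖r (gap B m (y * y) B.ξ)‖) +
          ‖r (y B.ξ)‖ * ‖r (gap B m (y * y) (y B.ξ))‖)) := by
  have hcx := coeff_part B.fits_M hx hxs hr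
  have hcy := coeff_part hS hy hys hr
  set ex := ‖x‖ ^ 2 * (‖r B.ξ‖ * ‖r (gap B m (x * x) B.ξ)‖) +
    ‖r (x B.ξ)‖ * ‖r (gap B m (x * x) (x B.ξ))‖
  set ey := ‖y‖ ^ 2 * (‖r B.ξ‖ * ‖r (gap B m (y * y) B.ξ)‖) +
    ‖r (y B.ξ)‖ * ‖r (gap B m (y * y) (y B.ξ))‖
  have hex : 0 ≤ ex := by positivity
  have hey : 0 ≤ ey := by positivity
  have hxr : x (r B.ξ) = r (x B.ξ) := by
    rw [← mul_apply_eq_comp, ← Base.part_comm B.fits_M hr hx, mul_apply_eq_comp]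
  have hyr : y (r B.ξ) = r (y B.ξ) := by
    rw [← mul_apply_eq_comp, ← Base.part_comm hS hr hy, mul_apply_eq_comp]
  set s := ‖r B.ξ‖ with hs
  have hs0 : 0 < s := norm_pos_iff.2 (Base.part_ne hr)
  set a := ‖r (x B.ξ)‖
  set b := ‖r (y B.ξ)‖
  have ha : 0 ≤ a := norm_nonneg _
  have hb : 0 ≤ b := norm_nonneg _
  have hax : a ≤ ‖x‖ * s := by simpa [a, ← hxr] using x.le_opNorm (r B.ξ)
  have hby : b ≤ ‖y‖ * s := by simpa [b, ← hyr] using y.le_opNorm (r B.ξ)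
  set t := s / (a + η * s) with ht
  set u := s / (b + η * s) with hu
  have ha' : 0 < a + η * s := by positivity
  have hb' : 0 < b + η * s := by positivity
  have ht0 : 0 < t := div_pos hs0 ha'
  have hu0 : 0 < u := div_pos hs0 hb'
  have hta : t * a ≤ s := by
    rw [ht, div_mul_eq_mul_div, div_le_iff₀ ha']; nlinarith [mul_pos hη hs0]
  have hub : u * b ≤ s := by
    rw [hu, div_mul_eq_mul_div, div_le_iff₀ hb']; nlinarith [mul_pos hη hs0]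
  have htη : t ≤ η⁻¹ := by
    rw [ht, div_le_iff₀ ha', inv_mul_eq_div, le_div_iff₀ hη]; nlinarith
  have huη : u ≤ η⁻¹ := by
    rw [hu, div_le_iff₀ hb', inv_mul_eq_div, le_div_iff₀ hη]; nlinarith
  have htp : t ^ 4 * ex ≤ η⁻¹ ^ 4 * ex :=
    mul_le_mul_of_nonneg_right (pow_le_pow_left₀ ht0.le htη 4) hex
  have hup : u ^ 4 * ey ≤ η⁻¹ ^ 4 * ey :=
    mul_le_mul_of_nonneg_right (pow_le_pow_left₀ hu0.le huη 4) hey
  set im := (⟪x (r B.ξ), y (r B.ξ)⟫_ℂ).im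
  -- the scaled pair, for every number of summands
  have hscaled : ∀ n : ℕ, (0 : ℝ) < n → t * u * im ≤
      (25 * γ / 4 + 2 * ε / 5) * s ^ 2 + ε / 10 * (η⁻¹ ^ 4 * (ex + ey)) +
        ε / 20 * s ^ 2 * (t ^ 4 * ‖x‖ ^ 4 + u ^ 4 * ‖y‖ ^ 4) / n := by
    intro n hn0
    have hxt : IsSelfAdjoint ((t : ℂ) • x) := by
      rw [IsSelfAdjoint, star_smul, hxs.star_eq, Complex.star_def, Complex.conj_ofReal]
    have hyu : IsSelfAdjoint ((u : ℂ) • y) := by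
      rw [IsSelfAdjoint, star_smul, hys.star_eq, Complex.star_def, Complex.conj_ofReal]
    have key := im_le_moments hS hγ hn hε he hr (vn_smul (t : ℂ) hx) (vn_smul (u : ℂ) hy) hxt hyu
      m hn0
    have i1 := Base.rs_fourth B.fits_M (Base.inv_part hr) (vn_smul (t : ℂ) hx) hxt m n
    have i2 := Base.rs_fourth hS (Base.inv_part hr) (vn_smul (u : ℂ) hy) hyu m n
    have escal : ∀ {z : H →L[ℂ] H} {l : ℝ}, 0 ≤ l →
        B.cavg m (((l : ℂ) • z) * ((l : ℂ) • z)) = ((l ^ 2 : ℝ) : ℂ) • B.cavg m (z * z) := by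
      intro z l _
      simp only [Base.cavg, avg, smul_mul_assoc, mul_smul_comm, smul_smul, Finset.smul_sum]
      refine Finset.sum_congr rfl fun g _ => ?_
      push_cast
      ring_nf
    rw [escal ht0.le] at i1
    rw [escal hu0.le] at i2
    have hsc : ∀ {l : ℝ}, 0 ≤ l → ∀ (w : H), ‖((l : ℝ) : ℂ) • w‖ = l * ‖w‖ := fun {l} hl w => by
      rw [norm_smul, Complex.norm_real, Real.norm_eq_abs, abs_of_nonneg hl]
    simp only [smul_apply, map_smul, inner_smul_left, inner_smul_right, Complex.conj_ofReal,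
      ← mul_assoc, ← Complex.ofReal_mul, Complex.re_ofReal_mul, Complex.im_ofReal_mul,
      smul_smul, hsc (sq_nonneg t), hsc (sq_nonneg u), hsc ht0.le, hsc hu0.le, norm_smul,
      Complex.norm_real, Real.norm_eq_abs, abs_of_pos ht0, abs_of_pos hu0] at i1 i2 key
    rw [hxr] at i1 hcx key
    rw [hyr] at i2 hcy key
    change _ ≤ 3 * (a ^ 4 / s ^ 2) + 2 * ex at hcx
    change _ ≤ 3 * (b ^ 4 / s ^ 2) + 2 * ey at hcy
    have q1 : t ^ 4 * (a ^ 4 / s ^ 2) ≤ s ^ 2 := by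
      rw [← mul_div_assoc, div_le_iff₀ (by positivity), ← mul_pow, ← pow_add]
      exact pow_le_pow_left₀ (mul_nonneg ht0.le ha) hta 4
    have q2 : u ^ 4 * (b ^ 4 / s ^ 2) ≤ s ^ 2 := by
      rw [← mul_div_assoc, div_le_iff₀ (by positivity), ← mul_pow, ← pow_add]
      exact pow_le_pow_left₀ (mul_nonneg hu0.le hb) hub 4
    have q3 : (t * a) ^ 2 ≤ s ^ 2 := pow_le_pow_left₀ (mul_nonneg ht0.le ha) hta 2
    have q4 : (u * b) ^ 2 ≤ s ^ 2 := pow_le_pow_left₀ (mul_nonneg hu0.le hb) hub 2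
    have him : im = (⟪r (x B.ξ), r (y B.ξ)⟫_ℂ).im := by rw [← hxr, ← hyr]
    have f1 := fourth_arith (X := ‖x‖) hn0 (i1.trans_eq (by ring)) hcx q1 htp
    have f2 := fourth_arith (X := ‖y‖) hn0 (i2.trans_eq (by ring)) hcy q2 hup
    have h3 := key.trans (add_le_add_right (mul_le_mul_of_nonneg_left (add_le_add (add_le_add
      (add_le_add f1 f2) (mul_le_mul_of_nonneg_left q3 hn0.le))
      (mul_le_mul_of_nonneg_left q4 hn0.le)) (show 0 ≤ ε / 20 by linarith)) _)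
    rw [him]
    refine le_of_mul_le_mul_left ((le_of_eq (by ring)).trans (h3.trans_eq ?_)) hn0
    field_simp
    ring
  have hlim : t * u * im ≤
      (25 * γ / 4 + 2 * ε / 5) * s ^ 2 + ε / 10 * (η⁻¹ ^ 4 * (ex + ey)) := by
    have h0 : Tendsto (fun n : ℕ => (25 * γ / 4 + 2 * ε / 5) * s ^ 2 +
        ε / 10 * (η⁻¹ ^ 4 * (ex + ey)) +
        ε / 20 * s ^ 2 * (t ^ 4 * ‖x‖ ^ 4 + u ^ 4 * ‖y‖ ^ 4) / n) atTop
        (𝓝 ((25 * γ / 4 + 2 * ε / 5) * s ^ 2 + ε / 10 * (η⁻¹ ^ 4 * (ex + ey)))) := by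
      have h := (tendsto_const_div_atTop_nhds_zero_nat
        (ε / 20 * s ^ 2 * (t ^ 4 * ‖x‖ ^ 4 + u ^ 4 * ‖y‖ ^ 4))).const_add
          ((25 * γ / 4 + 2 * ε / 5) * s ^ 2 + ε / 10 * (η⁻¹ ^ 4 * (ex + ey)))
      rwa [add_zero] at h
    exact ge_of_tendsto h0 ((eventually_gt_atTop 0).mono fun n hn => hscaled n (by exact_mod_cast hn))
  have e1 : (a + η * s) * (b + η * s) * (t * u) = s ^ 2 := by rw [ht, hu]; field_simp
  have hK : (a + η * s) * (b + η * s) ≤ (‖x‖ + η) * (‖y‖ + η) * s ^ 2 := by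
    refine (mul_le_mul (show a + η * s ≤ (‖x‖ + η) * s by rw [add_mul]; linarith only [hax])
      (show b + η * s ≤ (‖y‖ + η) * s by rw [add_mul]; linarith only [hby]) hb'.le
      (by positivity)).trans_eq ?_
    ring
  have hm := mul_le_mul_of_nonneg_left hlim (mul_nonneg ha'.le hb'.le)
  rw [← mul_assoc, e1] at hm
  have h1 : 0 ≤ ε / 10 * (η⁻¹ ^ 4 * (ex + ey)) := by positivity
  have h2 := mul_le_mul_of_nonneg_right hK h1
  have h3 : (25 * γ / 4 + 2 * ε / 5) * ((a + η * s) * (b + η * s)) ≤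
      (25 * γ + ε / 2) * ((a + η * s) * (b + η * s)) :=
    mul_le_mul_of_nonneg_right (by linarith) (mul_nonneg ha'.le hb'.le)
  have h4 := mul_le_mul_of_nonneg_right h3 (sq_nonneg s)
  refine le_of_mul_le_mul_left ?_ (show (0 : ℝ) < s ^ 2 by positivity)
  refine hm.trans ?_
  rw [div_eq_mul_inv _ (η ^ 4), ← inv_pow]
  linarith

/-- The imaginary inner products are small. -/
theorem imLe_of_near (hS : B.Fits S) (hγ : 0 ≤ γ) (hn : SaNear B S γ) : ImLe B S (50 * γ) := by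
  have half : ∀ ε, 0 ≤ ε → ImLe B S ε → ∀ x ∈ B.M, ∀ y ∈ S, IsSelfAdjoint x → IsSelfAdjoint y →
      (⟪x B.ξ, y B.ξ⟫_ℂ).im ≤ (25 * γ + ε / 2) * (‖x B.ξ‖ * ‖y B.ξ‖) := by
    intro ε hε he x hx y hy hxs hys
    set K := 25 * γ + ε / 2
    have hK : 0 ≤ K := by positivity
    have hη : ∀ η : ℝ, 0 < η →
        (⟪x B.ξ, y B.ξ⟫_ℂ).im ≤ K * ((‖x B.ξ‖ + η) * (‖y B.ξ‖ + η)) := by
      intro η hη
      set C := ε / 10 * ((‖x‖ + η) * (‖y‖ + η) / η ^ 4)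
      have hC : 0 ≤ C := by positivity
      have ht := (((((tendsto_gap B.fits_M (mul_mem hx hx) B.ξ).const_mul (‖x‖ ^ 2)).add
        ((tendsto_gap B.fits_M (mul_mem hx hx) (x B.ξ)).const_mul ‖x B.ξ‖)).add
        (((tendsto_gap hS (mul_mem hy hy) B.ξ).const_mul (‖y‖ ^ 2)).add
        ((tendsto_gap hS (mul_mem hy hy) (y B.ξ)).const_mul ‖y B.ξ‖))).const_mul C).const_add
          (K * ((‖x B.ξ‖ + η) * (‖y B.ξ‖ + η)))
      simp only [mul_zero, add_zero] at ht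
      refine ge_of_tendsto' ht fun m => ?_
      have e : ⟪x B.ξ, y B.ξ⟫_ℂ = ∑ r ∈ B.Z.cen m, ⟪x (r B.ξ), y (r B.ξ)⟫_ℂ := by
        conv_lhs => rw [← Base.sum_part B m (y B.ξ), inner_sum]
        refine Finset.sum_congr rfl fun r hr => ?_
        rw [← mul_apply_eq_comp x, ← Base.part_comm B.fits_M hr hx, mul_apply_eq_comp,
          ← mul_apply_eq_comp y, ← Base.part_comm hS hr hy, mul_apply_eq_comp,
          Base.inner_part hr, Base.part_idem hr]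
      rw [e, Complex.im_sum]
      refine (Finset.sum_le_sum fun r hr => im_part_le hS hγ hn hε he hx hy hxs hys hη hr).trans ?_
      simp only [Finset.sum_add_distrib, ← Finset.mul_sum]
      refine add_le_add (mul_le_mul_of_nonneg_left ?_ hK) (mul_le_mul_of_nonneg_left ?_ hC)
      · have hx1 := Base.sum_part_mul_le B m (x B.ξ) (y B.ξ)
        have hx2 := Base.sum_part_mul_le B m (x B.ξ) B.ξ
        have hy2 := Base.sum_part_mul_le B m B.ξ (y B.ξ)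
        have hs := Base.sum_part_xi B m
        rw [B.std.norm_eq] at hx2 hy2
        simp only [mul_add, add_mul, Finset.sum_add_distrib]
        have f1 : ∑ r ∈ B.Z.cen m, η * ‖r B.ξ‖ * ‖r (y B.ξ)‖ =
            η * ∑ r ∈ B.Z.cen m, ‖r B.ξ‖ * ‖r (y B.ξ)‖ := by
          rw [Finset.mul_sum]; simp only [mul_assoc]
        have f2 : ∑ r ∈ B.Z.cen m, ‖r (x B.ξ)‖ * (η * ‖r B.ξ‖) =
            η * ∑ r ∈ B.Z.cen m, ‖r (x B.ξ)‖ * ‖r B.ξ‖ := by
          rw [Finset.mul_sum]; exact Finset.sum_congr rfl fun r _ => by ring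
        have f3 : ∑ r ∈ B.Z.cen m, η * ‖r B.ξ‖ * (η * ‖r B.ξ‖) =
            η * η * ∑ r ∈ B.Z.cen m, ‖r B.ξ‖ ^ 2 := by
          rw [Finset.mul_sum]; exact Finset.sum_congr rfl fun r _ => by ring
        nlinarith [mul_le_mul_of_nonneg_left hx2 hη.le, mul_le_mul_of_nonneg_left hy2 hη.le]
      · have g : ∀ (v : H) (w : H), ∑ r ∈ B.Z.cen m, ‖r v‖ * ‖r w‖ ≤ ‖v‖ * ‖w‖ :=
          Base.sum_part_mul_le B m
        have g1 := g B.ξ (gap B m (x * x) B.ξ)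
        have g2 := g B.ξ (gap B m (y * y) B.ξ)
        rw [B.std.norm_eq, one_mul] at g1 g2
        exact add_le_add (add_le_add (mul_le_mul_of_nonneg_left g1 (sq_nonneg _)) (g _ _))
          (add_le_add (mul_le_mul_of_nonneg_left g2 (sq_nonneg _)) (g _ _))
    refine ge_of_tendsto (x := 𝓝[>] (0 : ℝ)) (tendsto_nhdsWithin_of_tendsto_nhds ?_)
      (eventually_mem_nhdsWithin.mono fun η h => hη η h)
    have := ((continuous_id.const_add ‖x B.ξ‖).mul (continuous_id.const_add ‖y B.ξ‖)).const_mul K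
      |>.tendsto (0 : ℝ)
    simpa using this
  have step : ∀ ε, 0 ≤ ε → ImLe B S ε → ImLe B S (25 * γ + ε / 2) := by
    intro ε hε he x hx y hy hxs hys
    refine abs_le.2 ⟨?_, half ε hε he x hx y hy hxs hys⟩
    have := half ε hε he (-x) (neg_mem hx) y hy hxs.neg hys
    simp only [neg_apply, inner_neg_left, Complex.neg_im, norm_neg] at this
    linarith
  have hk : ∀ k : ℕ, ImLe B S (50 * γ + (1 / 2) ^ k) := by
    intro k
    induction k with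
    | zero =>
      intro x hx y hy _ _
      refine (Complex.abs_im_le_norm _).trans ((norm_inner_le_norm _ _).trans ?_)
      exact le_mul_of_one_le_left (by positivity) (by norm_num; positivity)
    | succ k ih =>
      convert step _ (by positivity) ih using 1
      ring
  intro x hx y hy hxs hys
  have ht : Tendsto (fun k : ℕ => (50 * γ + (1 / 2 : ℝ) ^ k) * (‖x B.ξ‖ * ‖y B.ξ‖)) atTop
      (𝓝 (50 * γ * (‖x B.ξ‖ * ‖y B.ξ‖))) := by
    have := ((tendsto_pow_atTop_nhds_zero_of_lt_one (r := (1 / 2 : ℝ)) (by norm_num)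
      (by norm_num)).const_add (50 * γ)).mul_const (‖x B.ξ‖ * ‖y B.ξ‖)
    simpa using this
  exact ge_of_tendsto ht (Eventually.of_forall fun k => hk k x hx y hy hxs hys)

/-- On self-adjoint vectors of `S` the conjugation of `M` is nearly the identity. -/
lemma norm_J_sub_le (hS : B.Fits S) (hγ : 0 ≤ γ) (hn : SaNear B S γ) {y : H →L[ℂ] H}
    (hy : y ∈ S) (hys : IsSelfAdjoint y) :
    ‖B.J (y B.ξ) - y B.ξ‖ ≤ 100 * γ * ‖y B.ξ‖ := by
  have him := imLe_of_near hS hγ hn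
  set v := y B.ξ
  set q : H := (Complex.I / 2) • (B.J v - v) with hq
  have hJq : B.J q = q := by
    rw [hq, LinearIsometryEquiv.map_smulₛₗ, map_sub, B.conjM.invol]
    rw [show (starRingEnd ℂ) (Complex.I / 2) = -(Complex.I / 2) by simp [neg_div, map_ofNat]]
    module
  have hbound : ∀ h : H, |(⟪(1 / 2 : ℂ) • (h + B.J h), v⟫_ℂ).im| ≤
      50 * γ * (‖(1 / 2 : ℂ) • (h + B.J h)‖ * ‖v‖) := by
    intro h
    have hc : Continuous fun h : H => (1 / 2 : ℂ) • (h + B.J h) :=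
      (continuous_id.add B.J.continuous).const_smul (1 / 2 : ℂ)
    have hcl : IsClosed {h : H | |(⟪(1 / 2 : ℂ) • (h + B.J h), v⟫_ℂ).im| ≤
        50 * γ * (‖(1 / 2 : ℂ) • (h + B.J h)‖ * ‖v‖)} :=
      isClosed_le
        (continuous_abs.comp (Complex.continuous_im.comp (Continuous.inner (𝕜 := ℂ) hc
          continuous_const)))
        (continuous_const.mul (hc.norm.mul continuous_const))
    refine B.std.dense.induction ?_ hcl h
    rintro _ ⟨z, hz, rfl⟩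
    rw [B.conjM.apply_orbit z hz, ← add_apply, ← smul_apply]
    have hzM : z ∈ B.M := hz
    exact him _ (vn_smul _ (add_mem hzM (star_mem hzM))) y hy (sa_half z) hys
  have h1 := hbound q
  rw [hJq, ← two_smul ℂ q, smul_smul, show (1 / 2 : ℂ) * 2 = 1 by norm_num, one_smul] at h1
  have h2 : (⟪q, v⟫_ℂ).im = ‖q‖ ^ 2 := by
    have a : ⟪q, B.J v⟫_ℂ = conj ⟪q, v⟫_ℂ := by
      conv_lhs => rw [← hJq]
      exact inner_conj_map B.J q v
    have b : ⟪q, q⟫_ℂ = Complex.I / 2 * (conj ⟪q, v⟫_ℂ - ⟪q, v⟫_ℂ) := by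
      conv_lhs => arg 3; rw [hq]
      rw [inner_smul_right, inner_sub_right, a]
    rw [← @inner_self_eq_norm_sq ℂ, b]
    simp
    rw [← inner_conj_symm v q, Complex.conj_im]
    ring
  have h3 : ‖B.J v - v‖ = 2 * ‖q‖ := by
    rw [hq, norm_smul]; simp
  rw [h2, abs_of_nonneg (sq_nonneg _)] at h1
  rw [h3]
  rcases eq_or_lt_of_le (norm_nonneg q) with h0 | h0
  · rw [← h0, mul_zero]; positivity
  · nlinarith

/-- The two conjugations on all of `S`, before the trace is known. -/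
lemma norm_J_star_le (hS : B.Fits S) (hγ : 0 ≤ γ) (hn : SaNear B S γ) {z : H →L[ℂ] H}
    (hz : z ∈ S) :
    ‖B.J (z B.ξ) - star z B.ξ‖ ≤ 100 * γ * (‖z B.ξ‖ + ‖star z B.ξ‖) := by
  set y₁ : H →L[ℂ] H := (1 / 2 : ℂ) • (z + star z) with h₁
  set y₂ : H →L[ℂ] H := (-(Complex.I / 2)) • (z - star z) with h₂
  have hz' : star z ∈ S := star_mem hz
  have s₁ : IsSelfAdjoint y₁ := sa_half z
  have s₂ : IsSelfAdjoint y₂ := by
    rw [h₂, IsSelfAdjoint, star_smul, star_sub, star_star, star_neg,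
      show star (Complex.I / 2) = -(Complex.I / 2) by simp [neg_div]]
    module
  have b₁ := norm_J_sub_le hS hγ hn (y := y₁) (vn_smul _ (add_mem hz hz')) s₁
  have b₂ := norm_J_sub_le hS hγ hn (y := y₂) (vn_smul _ (sub_mem hz hz')) s₂
  have hz₁ : z B.ξ = y₁ B.ξ + Complex.I • y₂ B.ξ := by
    simp only [h₁, h₂, smul_apply, add_apply, sub_apply, smul_smul]
    rw [show Complex.I * -(Complex.I / 2) = 1 / 2 by
      rw [mul_neg, ← mul_div_assoc, Complex.I_mul_I]; ring]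
    module
  have hz₂ : star z B.ξ = y₁ B.ξ - Complex.I • y₂ B.ξ := by
    simp only [h₁, h₂, smul_apply, add_apply, sub_apply, smul_smul]
    rw [show Complex.I * -(Complex.I / 2) = 1 / 2 by
      rw [mul_neg, ← mul_div_assoc, Complex.I_mul_I]; ring]
    module
  have e : B.J (z B.ξ) - star z B.ξ =
      (B.J (y₁ B.ξ) - y₁ B.ξ) - Complex.I • (B.J (y₂ B.ξ) - y₂ B.ξ) := by
    rw [hz₁, hz₂, map_add, LinearIsometryEquiv.map_smulₛₗ, Complex.conj_I, neg_smul, smul_sub]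
    abel
  have n₁ : ‖y₁ B.ξ‖ ≤ (‖z B.ξ‖ + ‖star z B.ξ‖) / 2 := by
    rw [h₁, smul_apply, norm_smul, add_apply]
    have := norm_add_le (z B.ξ) (star z B.ξ)
    norm_num
    linarith
  have n₂ : ‖y₂ B.ξ‖ ≤ (‖z B.ξ‖ + ‖star z B.ξ‖) / 2 := by
    rw [h₂, smul_apply, norm_smul, sub_apply]
    have := norm_sub_le (z B.ξ) (star z B.ξ)
    simp
    linarith
  rw [e]
  refine (norm_sub_le _ _).trans ?_
  rw [norm_smul, Complex.norm_I, one_mul]
  have h100 : 0 ≤ 100 * γ := by positivity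
  nlinarith [mul_le_mul_of_nonneg_left n₁ h100, mul_le_mul_of_nonneg_left n₂ h100]

/-- The vector state is a trace on `S`. -/
theorem norm_star_eq (hS : B.Fits S) (hγ : 0 ≤ γ) (hγ' : γ ≤ 1 / 1000) (hn : SaNear B S γ) :
    ∀ x ∈ S, ‖star x B.ξ‖ = ‖x B.ξ‖ := by
  let Q : ℝ → Prop := fun K => ∀ z ∈ S, ‖star z B.ξ‖ ^ 2 ≤ K * ‖z B.ξ‖ ^ 2
  have h9 : Q (1 + 8) := fun z hz => by
    have h := norm_J_star_le hS hγ hn hz
    have h' := norm_sub_norm_le (star z B.ξ) (B.J (z B.ξ))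
    rw [norm_sub_rev, LinearIsometryEquiv.norm_map] at h'
    have : ‖star z B.ξ‖ ≤ 3 * ‖z B.ξ‖ := by
      nlinarith [norm_nonneg (z B.ξ), norm_nonneg (star z B.ξ)]
    nlinarith [norm_nonneg (star z B.ξ)]
  have sqr : ∀ K, 0 ≤ K → Q K → Q ((1 + K) / 2) := by
    intro K hK hQ x₀ hx₀
    have main : ∀ x ∈ S, ∀ m, (⟪star x B.ξ, B.cavg m (x * star x) (star x B.ξ)⟫_ℂ).re ≤
        K * (⟪x B.ξ, B.cavg m (star x * x) (x B.ξ)⟫_ℂ).re := by
      intro x hx m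
      have hx' : star x ∈ S := star_mem hx
      have hrhs : (⟪x B.ξ, B.cavg m (star x * x) (x B.ξ)⟫_ℂ).re =
          mean (B.Γ.G m) (fun g => ‖x (g (x B.ξ))‖ ^ 2) := by
        have e : B.cavg m (star x * x) = avg B.Γ m fun g => star g * (star x * x) * g := by
          rw [Base.cavg, avg, avg]
          congr 1
          refine Finset.sum_nbij' star star ?_ ?_ ?_ ?_ ?_ <;>
            intros <;> simp_all [B.Γ.star_mem]
        rw [e, avg, smul_apply, sum_apply, ← Base.mean_re_inner_right]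
        refine mean_congr fun g _ => ?_
        simp only [mul_apply_eq_comp, ContinuousLinearMap.star_eq_adjoint,
          ContinuousLinearMap.adjoint_inner_right]
        exact inner_self_eq_norm_sq (𝕜 := ℂ) _
      have hlhs : (⟪star x B.ξ, B.cavg m (x * star x) (star x B.ξ)⟫_ℂ).re =
          mean (B.Γ.G m) (fun g => ‖star x (star g (star x B.ξ))‖ ^ 2) := by
        rw [Base.cavg, avg, smul_apply, sum_apply, ← Base.mean_re_inner_right]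
        refine mean_congr fun g _ => ?_
        rw [mul_apply_eq_comp, mul_apply_eq_comp, mul_apply_eq_comp,
          ← ContinuousLinearMap.adjoint_inner_left, ← ContinuousLinearMap.star_eq_adjoint,
          ← ContinuousLinearMap.adjoint_inner_left, ← ContinuousLinearMap.star_eq_adjoint]
        exact inner_self_eq_norm_sq (𝕜 := ℂ) _
      rw [hrhs, hlhs, ← mean_const_mul]
      refine mean_mono fun g hg => ?_
      have hgS := hS.mem g ⟨m, hg⟩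
      have hgu := B.Γ.mem_unitary m g hg
      have hz : x * (g * x * star g) ∈ S := mul_mem hx (mul_mem (mul_mem hgS hx) (star_mem hgS))
      have e1 : ‖(x * (g * x * star g)) B.ξ‖ = ‖x (g (x B.ξ))‖ := by
        rw [mul_apply_eq_comp, Base.conj_xi hS ⟨m, hg⟩ hx, Base.U, mul_apply_eq_comp,
          ← mul_apply_eq_comp g (jop B.J g), hS.jmem g ⟨m, hg⟩ g hgS, mul_apply_eq_comp,
          ← mul_apply_eq_comp x (jop B.J g), hS.jmem g ⟨m, hg⟩ x hx, mul_apply_eq_comp,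
          norm_unitary (B.conjM.jop_mem_unitary hgu)]
      have e2 : ‖star (x * (g * x * star g)) B.ξ‖ = ‖star x (star g (star x B.ξ))‖ := by
        simp only [star_mul, star_star, mul_apply_eq_comp, norm_unitary hgu]
      rw [← e1, ← e2]
      exact hQ _ hz
    set a := ‖x₀ B.ξ‖ ^ 2
    set b := ‖star x₀ B.ξ‖ ^ 2
    have hx' : star x₀ ∈ S := star_mem hx₀
    have hpart : ∀ (m : ℕ) (r : H →L[ℂ] H), r ∈ B.Z.cen m →
        ‖r (star x₀ B.ξ)‖ ^ 2 ≤ Real.sqrt K * ‖r (x₀ B.ξ)‖ ^ 2 + ‖r B.ξ‖ * Real.sqrt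
          (K * (‖r (x₀ B.ξ)‖ * ‖r (gap B m (star x₀ * x₀) (x₀ B.ξ))‖) +
            ‖r (star x₀ B.ξ)‖ * ‖r (gap B m (x₀ * star x₀) (star x₀ B.ξ))‖) := by
      intro m r hr
      have hrS := Base.part_mem hS hr
      have hrs := (B.Z.proj m r hr).1
      have hr2 := (B.Z.proj m r hr).2.1
      have hmain := main (x₀ * r) (mul_mem hx₀ hrS) m
      have hcr : ∀ z ∈ S, ∀ v, z (r v) = r (z v) := fun z hz v => by
        rw [← mul_apply_eq_comp, ← Base.part_comm hS hr hz, mul_apply_eq_comp]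
      have e1 : (x₀ * r) * star (x₀ * r) = r * (x₀ * star x₀) := by
        rw [star_mul, hrs, mul_assoc, ← mul_assoc r r, hr2, ← mul_assoc x₀,
          ← Base.part_comm hS hr hx₀, mul_assoc]
      have e2 : star (x₀ * r) * (x₀ * r) = r * (star x₀ * x₀) := by
        rw [star_mul, hrs, mul_assoc, ← mul_assoc (star x₀) x₀,
          ← Base.part_comm hS hr (mul_mem hx' hx₀), ← mul_assoc, hr2]
      have ecavg : ∀ w : H →L[ℂ] H, B.cavg m (r * w) = r * B.cavg m w := fun w => by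
        simp only [Base.cavg, avg, mul_smul_comm, Finset.mul_sum]
        refine congrArg _ (Finset.sum_congr rfl fun g hg => ?_)
        rw [← mul_assoc r, ← mul_assoc r, ← mul_assoc g,
          B.Z.comm m r hr g (B.memM g ⟨m, hg⟩)]
      rw [e1, e2, ecavg, ecavg] at hmain
      have v1 : (x₀ * r) B.ξ = r (x₀ B.ξ) := by rw [mul_apply_eq_comp, hcr _ hx₀]
      have v2 : star (x₀ * r) B.ξ = r (star x₀ B.ξ) := by rw [star_mul, hrs, mul_apply_eq_comp]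
      have hval : ∀ (w : H →L[ℂ] H) (v : H) (c : ℝ), w ∈ S → B.coef r w = (c : ℂ) →
          |(⟪r v, (r * B.cavg m w) (r v)⟫_ℂ).re - c * ‖r v‖ ^ 2| ≤
            ‖r v‖ * ‖r (gap B m w v)‖ := by
        intro w v c hw hc
        rw [mul_apply_eq_comp, ← Base.inner_part hr, Base.part_idem hr, cavg_part hS hw hr, hc,
          inner_add_right, inner_smul_right, Complex.add_re, Complex.re_ofReal_mul,
          show (⟪r v, r v⟫_ℂ).re = ‖r v‖ ^ 2 from inner_self_eq_norm_sq (𝕜 := ℂ) (r v),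
          add_sub_cancel_left]
        exact (Complex.abs_re_le_norm _).trans (norm_inner_le_norm _ _)
      have c1 := coef_star_mul (B := B) (r := r) x₀
      have c2 := coef_star_mul (B := B) (r := r) (star x₀)
      rw [star_star] at c2
      rw [hcr _ hx₀] at c1
      rw [hcr _ hx'] at c2
      have k1 := abs_le.1 (hval _ (x₀ B.ξ) _ (mul_mem hx' hx₀) c1)
      have k2 := abs_le.1 (hval _ (star x₀ B.ξ) _ (mul_mem hx₀ hx') c2)
      rw [v1, v2] at hmain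
      have h0 : 0 < ‖r B.ξ‖ := norm_pos_iff.2 (Base.part_ne hr)
      set s := ‖r B.ξ‖
      set E := K * (‖r (x₀ B.ξ)‖ * ‖r (gap B m (star x₀ * x₀) (x₀ B.ξ))‖) +
            ‖r (star x₀ B.ξ)‖ * ‖r (gap B m (x₀ * star x₀) (star x₀ B.ξ))‖
      have hE : 0 ≤ E := by positivity
      set A₁ := ‖r (x₀ B.ξ)‖ ^ 2
      set B₁ := ‖r (star x₀ B.ξ)‖ ^ 2
      have hA : 0 ≤ A₁ := sq_nonneg _
      have h1 : B₁ / s ^ 2 * B₁ ≤ K * (A₁ / s ^ 2 * A₁) + E := by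
        nlinarith [mul_le_mul_of_nonneg_left k1.2 hK, k2.1]
      have h2 : B₁ ^ 2 ≤ K * A₁ ^ 2 + s ^ 2 * E := by
        have := mul_le_mul_of_nonneg_left h1 (sq_nonneg s)
        rwa [mul_add, mul_left_comm (s ^ 2) K, ← mul_assoc (s ^ 2), ← mul_assoc (s ^ 2),
          mul_div_cancel₀ _ (by positivity), mul_div_cancel₀ _ (by positivity), ← pow_two,
          ← pow_two] at this
      refine le_of_pow_le_pow_left₀ two_ne_zero (by positivity) (h2.trans ?_)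
      nlinarith [Real.sq_sqrt hK, Real.sq_sqrt hE, mul_nonneg (mul_nonneg (Real.sqrt_nonneg K) hA)
        (mul_nonneg h0.le (Real.sqrt_nonneg E))]
    have ht : Tendsto (fun m => Real.sqrt K * a + Real.sqrt
        (K * (‖x₀ B.ξ‖ * ‖gap B m (star x₀ * x₀) (x₀ B.ξ)‖) +
          ‖star x₀ B.ξ‖ * ‖gap B m (x₀ * star x₀) (star x₀ B.ξ)‖)) atTop
        (𝓝 (Real.sqrt K * a)) := by
      simpa using ((((tendsto_gap hS (mul_mem hx' hx₀) (x₀ B.ξ)).const_mul ‖x₀ B.ξ‖).const_mul K).add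
        ((tendsto_gap hS (mul_mem hx₀ hx') (star x₀ B.ξ)).const_mul ‖star x₀ B.ξ‖)).sqrt.const_add
          (Real.sqrt K * a)
    have hab : b ≤ Real.sqrt K * a := ge_of_tendsto' ht fun m => by
      rw [show b = ∑ r ∈ B.Z.cen m, ‖r (star x₀ B.ξ)‖ ^ 2 from (Base.sum_part_sq B m _).symm]
      refine (Finset.sum_le_sum (hpart m)).trans ?_
      rw [Finset.sum_add_distrib, ← Finset.mul_sum, Base.sum_part_sq]
      refine add_le_add_right ((Real.sum_mul_le_sqrt_mul_sqrt _ _ _).trans ?_) _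
      rw [Base.sum_part_xi, Real.sqrt_one, one_mul]
      refine Real.sqrt_le_sqrt ?_
      rw [Finset.sum_congr rfl fun r hr => Real.sq_sqrt (by positivity), Finset.sum_add_distrib,
        ← Finset.mul_sum]
      exact add_le_add (mul_le_mul_of_nonneg_left (Base.sum_part_mul_le B m _ _) hK)
        (Base.sum_part_mul_le B m _ _)
    show b ≤ (1 + K) / 2 * a
    refine hab.trans (mul_le_mul_of_nonneg_right ?_ (sq_nonneg _))
    nlinarith [Real.sq_sqrt hK, sq_nonneg (Real.sqrt K - 1)]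
  have hk : ∀ k : ℕ, Q (1 + 8 * (1 / 2) ^ k) := by
    intro k
    induction k with
    | zero => simpa using h9
    | succ k ih =>
      convert sqr _ (by positivity) ih using 1
      ring
  have hle : ∀ z ∈ S, ‖star z B.ξ‖ ≤ ‖z B.ξ‖ := by
    intro z hz
    have ht : Tendsto (fun k : ℕ => (1 + 8 * (1 / 2 : ℝ) ^ k) * ‖z B.ξ‖ ^ 2) atTop
        (𝓝 (‖z B.ξ‖ ^ 2)) := by
      have := (((tendsto_pow_atTop_nhds_zero_of_lt_one (r := (1 / 2 : ℝ)) (by norm_num)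
        (by norm_num)).const_mul 8).const_add 1).mul_const (‖z B.ξ‖ ^ 2)
      simpa using this
    exact pow_le_pow_iff_left₀ (norm_nonneg _) (norm_nonneg _) two_ne_zero |>.1
      (ge_of_tendsto ht (Eventually.of_forall fun k => hk k z hz))
  intro x hx
  refine le_antisymm (hle x hx) ?_
  simpa using hle _ (star_mem hx)

end Vale.Agent.P096.Full.Reduce
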